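import Vale.Agent.P050.M18.Star

/-!
Entropy and numbers of walks.
-/

set_option linter.unusedSectionVars false

namespace Vale.Agent.P050.M18

open Finset Vale.Agent.P050.Cart Vale.Agent.P050.Join

section gibbs

variable {Ω α β : Type} [Fintype Ω] [Fintype α] [Fintype β]

/-- the entropy and the logarithm of a sum -/
theorem ent_log_sum {P : Ω → ℝ} (hP : ∀ ω, 0 ≤ P ω) (h1 : ∑ ω, P ω = 1) (f : Ω → α) (w : α → ℝ)
    (hw : ∀ a, 0 ≤ w a) (hs : ∀ ω, P ω ≠ 0 → w (f ω) ≠ 0) :
    0 < ∑ a, w a ∧ ent P f + ∑ ω, P ω * Real.log (w (f ω)) ≤ Real.log (∑ a, w a) := by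
  classical
  have hT0 : ∀ a, 0 ≤ mar P f a := mar_nonneg hP f
  have hT1 : ∑ a, mar P f a = 1 := by rw [mar_total, h1]
  have hTw : ∀ a, w a = 0 → mar P f a = 0 := by
    intro a ha
    unfold mar
    refine Finset.sum_eq_zero fun ω _ => ?_
    split_ifs with h
    · by_contra h0
      exact hs ω h0 (by rw [h]; exact ha)
    · rfl
  have hpos : 0 < ∑ a, w a := by
    refine lt_of_le_of_ne (Finset.sum_nonneg fun z _ => hw z) fun h => ?_
    have h1 := (Finset.sum_eq_zero_iff_of_nonneg fun z _ => hw z).1 h.symm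
    have h2 : ∑ z, mar P f z = 0 := Finset.sum_eq_zero fun z hz => hTw z (h1 z hz)
    rw [hT1] at h2
    exact one_ne_zero h2
  refine ⟨hpos, ?_⟩
  set S := ∑ a, w a with hS
  have hg := Lev.gibbs_aux (mar P f) (fun a => w a / S) hT0 (fun a => div_nonneg (hw a) hpos.le)
    (by rw [← Finset.sum_div, ← hS, div_self hpos.ne', hT1]) (fun a ha => hTw a (by
      rcases div_eq_zero_iff.1 ha with h | h
      · exact h
      · exact absurd h hpos.ne'))
  have e1 : ∑ a, mar P f a * (Real.log (mar P f a) - Real.log (w a / S)) =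
      ∑ ω, P ω * (Real.log (mar P f (f ω)) - Real.log (w (f ω) / S)) :=
    sum_mar P f fun a => Real.log (mar P f a) - Real.log (w a / S)
  rw [e1] at hg
  have e2 : ∀ ω, P ω * (Real.log (mar P f (f ω)) - Real.log (w (f ω) / S)) =
      P ω * Real.log (mar P f (f ω)) - P ω * Real.log (w (f ω)) + P ω * Real.log S := by
    intro ω
    by_cases h0 : P ω = 0
    · rw [h0]; ring
    · rw [Real.log_div (hs ω h0) hpos.ne']; ring
  rw [Finset.sum_congr rfl fun ω _ => e2 ω, Finset.sum_add_distrib, Finset.sum_sub_distrib,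
    ← Finset.sum_mul, h1, one_mul] at hg
  rw [ent_eq]
  linarith

/-- the conditional form -/
theorem ent_log_cond {P : Ω → ℝ} (hP : ∀ ω, 0 ≤ P ω) (h1 : ∑ ω, P ω = 1) (f : Ω → α) (g : α → β)
    (w : α → ℝ) (v : β → ℝ) (hw : ∀ a, 0 ≤ w a) (hv : ∀ b, v b = mar w g b)
    (hs : ∀ ω, P ω ≠ 0 → w (f ω) ≠ 0) :
    (∀ ω, P ω ≠ 0 → v (g (f ω)) ≠ 0) ∧
    ent P f + ∑ ω, P ω * Real.log (w (f ω)) ≤
      ent P (fun ω => g (f ω)) + ∑ ω, P ω * Real.log (v (g (f ω))) := by
  classical
  have hv' : ∀ b, v b = ∑ a, if g a = b then w a else 0 := fun b => by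
    rw [hv]
    rfl
  have hv0 : ∀ b, 0 ≤ v b := by
    intro b
    rw [hv']
    refine Finset.sum_nonneg fun a _ => ?_
    split_ifs
    · exact hw a
    · exact le_rfl
  have hle : ∀ a, w a ≤ v (g a) := by
    intro a
    rw [hv']
    refine le_trans (le_of_eq ?_) (Finset.single_le_sum (f := fun a' => if g a' = g a then w a' else 0)
      (fun a' _ => ?_) (mem_univ a))
    · simp
    · split_ifs
      · exact hw a'
      · exact le_rfl
  have hvs : ∀ ω, P ω ≠ 0 → v (g (f ω)) ≠ 0 := by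
    intro ω h0 h
    have h2 := hle (f ω)
    rw [h] at h2
    exact hs ω h0 (le_antisymm h2 (hw _))
  refine ⟨hvs, ?_⟩
  set G := mar P (fun ω => g (f ω)) with hG
  have hG0 : ∀ b, 0 ≤ G b := mar_nonneg hP _
  have hpw : ∀ ω, P ω ≠ 0 → G (g (f ω)) ≠ 0 := fun ω h0 => mar_ne_zero hP (fun ω => g (f ω)) h0
  have key := ent_log_sum hP h1 f (fun a => G (g a) * w a / v (g a))
    (fun a => div_nonneg (mul_nonneg (hG0 _) (hw _)) (hv0 _))
    (fun ω h0 => div_ne_zero (mul_ne_zero (hpw ω h0) (hs ω h0)) (hvs ω h0))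
  have hsum : ∑ a, G (g a) * w a / v (g a) ≤ 1 := by
    have e1 : ∑ a, G (g a) * w a / v (g a) = ∑ b, ∑ a, if g a = b then G b * w a / v b else 0 := by
      rw [Finset.sum_comm]
      refine Finset.sum_congr rfl fun a _ => ?_
      simp
    have e2 : ∑ b, G b = 1 := by rw [hG, mar_total, h1]
    rw [e1, ← e2]
    refine Finset.sum_le_sum fun b _ => ?_
    have e3 : ∑ a, (if g a = b then G b * w a / v b else 0) =
        G b / v b * ∑ a, if g a = b then w a else 0 := by
      rw [Finset.mul_sum]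
      refine Finset.sum_congr rfl fun a _ => ?_
      split_ifs
      · ring
      · ring
    rw [e3, ← hv']
    by_cases h0 : v b = 0
    · rw [h0]; simpa using hG0 b
    · rw [div_mul_cancel₀ _ h0]
  have hlog : Real.log (∑ a, G (g a) * w a / v (g a)) ≤ 0 := by
    have := Real.log_le_log key.1 hsum
    rwa [Real.log_one] at this
  have h2 := key.2.trans hlog
  have e2 : ∀ ω, P ω * Real.log (G (g (f ω)) * w (f ω) / v (g (f ω))) =
      P ω * Real.log (G (g (f ω))) + P ω * Real.log (w (f ω)) - P ω * Real.log (v (g (f ω))) := by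
    intro ω
    by_cases h0 : P ω = 0
    · rw [h0]; ring
    · rw [Real.log_div (mul_ne_zero (hpw ω h0) (hs ω h0)) (hvs ω h0),
        Real.log_mul (hpw ω h0) (hs ω h0)]; ring
  rw [Finset.sum_congr rfl fun ω _ => e2 ω, Finset.sum_sub_distrib, Finset.sum_add_distrib] at h2
  rw [ent_eq P fun ω => g (f ω)]
  linarith

end gibbs

section walk

variable {E : Type} [Fintype E] [DecidableEq E]

/-- powers of a kernel -/
def zp (C : E → E → ℝ) : ℕ → E → E → ℝ
  | 0 => fun a b => if a = b then 1 else 0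
  | n + 1 => fun a b => ∑ c, zp C n a c * C c b

theorem zp_nonneg {C : E → E → ℝ} (hC : ∀ a b, 0 ≤ C a b) (n : ℕ) (a b : E) : 0 ≤ zp C n a b := by
  induction n generalizing b with
  | zero => simp only [zp]; split_ifs <;> norm_num
  | succ n ih => exact Finset.sum_nonneg fun c _ => mul_nonneg (ih c) (hC c b)

variable {Ω : Type} [Fintype Ω]

/-- the entropy of the ends of a walk of length `n`, plus the mean logarithm of the number of walks
with these ends -/
noncomputable def val (C : E → E → ℝ) (n : ℕ) (P : Ω → ℝ) (R e : Ω → E) : ℝ :=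
  ent P (fun ω => (R ω, e ω)) + ∑ ω, P ω * Real.log (zp C n (R ω) (e ω))

/-- one more step -/
theorem val_step {C : E → E → ℝ} (hC : ∀ a b, 0 ≤ C a b) {P : Ω → ℝ} (hP : ∀ ω, 0 ≤ P ω)
    (h1 : ∑ ω, P ω = 1) (n : ℕ) (R e e' : Ω → E) (hs : ∀ ω, P ω ≠ 0 → C (e ω) (e' ω) = 1)
    (hz : ∀ ω, P ω ≠ 0 → zp C n (R ω) (e ω) ≠ 0) :
    (∀ ω, P ω ≠ 0 → zp C (n + 1) (R ω) (e' ω) ≠ 0) ∧
    val C n P R e + (ent P (fun ω => (R ω, e ω, e' ω)) - ent P (fun ω => (R ω, e ω))) ≤
      val C (n + 1) P R e' := by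
  have key := ent_log_cond hP h1 (fun ω => (R ω, e ω, e' ω)) (fun a : E × E × E => (a.1, a.2.2))
    (fun a => zp C n a.1 a.2.1 * C a.2.1 a.2.2) (fun b => zp C (n + 1) b.1 b.2)
    (fun a => mul_nonneg (zp_nonneg hC _ _ _) (hC _ _)) (fun b => by
      obtain ⟨x, z⟩ := b
      rw [mar_prod_13]
      rfl)
    (fun ω h0 => by
      simp only
      rw [hs ω h0, mul_one]
      exact hz ω h0)
  refine ⟨key.1, ?_⟩
  have h2 := key.2
  have e1 : ∑ ω, P ω * Real.log (zp C n (R ω) (e ω) * C (e ω) (e' ω)) =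
      ∑ ω, P ω * Real.log (zp C n (R ω) (e ω)) := by
    refine Finset.sum_congr rfl fun ω _ => ?_
    by_cases h0 : P ω = 0
    · rw [h0]; ring
    · rw [hs ω h0, mul_one]
  simp only at h2
  rw [e1] at h2
  unfold val
  linarith

/-- the value depends only on the law -/
theorem val_law {Ω' : Type} [Fintype Ω'] {C : E → E → ℝ} {n : ℕ} {P : Ω → ℝ} {P' : Ω' → ℝ}
    {R e : Ω → E} {R' e' : Ω' → E}
    (h : ∀ a, mar P (fun ω => (R ω, e ω)) a = mar P' (fun ω => (R' ω, e' ω)) a) :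
    val C n P R e = val C n P' R' e' := by
  unfold val
  rw [ent_law h]
  congr 1
  have h1 := sum_mar P (fun ω => (R ω, e ω)) fun a => Real.log (zp C n a.1 a.2)
  have h2 := sum_mar P' (fun ω => (R' ω, e' ω)) fun a => Real.log (zp C n a.1 a.2)
  simp only at h1 h2
  rw [← h1, ← h2]
  exact Finset.sum_congr rfl fun a _ => by rw [h]

end walk

end Vale.Agent.P050.M18
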