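import Vale.Agent.P050.M18.Close
import Vale.Agent.P050.H180.Graph2

/-!
The uniform law on the 4-cycles of a graph, and the numbers of Moebius ladders and cubes.
-/

set_option linter.unusedSectionVars false

namespace Vale.Agent.P050.M18

open Finset Vale.Agent.P050.Cart Vale.Agent.P050.Join Vale.Agent.P050.H148 Vale.Agent.P050.H180

variable {X : Type} [Fintype X]

/-- two edges in a 4-cycle -/
noncomputable def CG (G : SimpleGraph X) (a b : X × X) : ℝ :=
  adj G a.1 a.2 * adj G a.2 b.2 * adj G a.1 b.1 * adj G b.1 b.2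

/-- the number of 4-cycles -/
noncomputable def tot (G : SimpleGraph X) : ℝ := ∑ a, ∑ b, CG G a b

/-- the uniform law on the 4-cycles -/
noncomputable def T4 (G : SimpleGraph X) (x : (X × X) × (X × X)) : ℝ := CG G x.1 x.2 / tot G

/-- the law of an edge in a 4-cycle -/
noncomputable def Q4 (G : SimpleGraph X) (a : X × X) : ℝ := ∑ b, T4 G (a, b)

variable (G : SimpleGraph X)

theorem adj_nn (x y : X) : 0 ≤ adj G x y := by simp only [adj]; split_ifs <;> norm_num

theorem adj_symm (x y : X) : adj G x y = adj G y x := by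
  unfold adj
  by_cases h : G.Adj x y
  · rw [if_pos h, if_pos h.symm]
  · rw [if_neg h, if_neg fun h' => h h'.symm]

theorem adj_one {x y : X} (h : adj G x y ≠ 0) : adj G x y = 1 := by
  simp only [adj] at h ⊢
  split_ifs at h ⊢ with h1
  · rfl
  · exact absurd rfl h

theorem CG_nn (a b : X × X) : 0 ≤ CG G a b :=
  mul_nonneg (mul_nonneg (mul_nonneg (adj_nn G _ _) (adj_nn G _ _)) (adj_nn G _ _)) (adj_nn G _ _)

theorem CG_one {a b : X × X} (h : CG G a b ≠ 0) : CG G a b = 1 := by
  unfold CG at h ⊢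
  have h1 := right_ne_zero_of_mul h
  have h2 := left_ne_zero_of_mul h
  have h3 := right_ne_zero_of_mul h2
  have h4 := left_ne_zero_of_mul h2
  rw [adj_one G h1, adj_one G h3, adj_one G (left_ne_zero_of_mul h4),
    adj_one G (right_ne_zero_of_mul h4)]
  norm_num

theorem CG_symm (a b : X × X) : CG G a b = CG G b a := by
  unfold CG
  rw [adj_symm G a.2 b.2, adj_symm G a.1 b.1]
  ring

theorem CG_swap (a b : X × X) : CG G a.swap b.swap = CG G a b := by
  unfold CG
  simp only [Prod.fst_swap, Prod.snd_swap]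
  rw [adj_symm G a.2 a.1, adj_symm G b.2 b.1]
  ring

variable (hG : ∃ x y, G.Adj x y)
include hG

theorem tot_pos : 0 < tot G := by
  obtain ⟨x, y, hxy⟩ := hG
  have h1 : CG G (x, y) (y, x) = 1 := by
    unfold CG adj
    simp [hxy, hxy.symm]
  have h2 : CG G (x, y) (y, x) ≤ ∑ b, CG G (x, y) b :=
    Finset.single_le_sum (f := fun b => CG G (x, y) b) (fun b _ => CG_nn G _ _) (mem_univ _)
  have h3 : ∑ b, CG G (x, y) b ≤ tot G :=
    Finset.single_le_sum (f := fun a => ∑ b, CG G a b)
      (fun a _ => Finset.sum_nonneg fun b _ => CG_nn G _ _) (mem_univ _)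
  linarith

theorem T4_nn (x) : 0 ≤ T4 G x := div_nonneg (CG_nn G _ _) (tot_pos G hG).le

theorem T4_tot : ∑ x, T4 G x = 1 := by
  unfold T4
  rw [← Finset.sum_div, Fintype.sum_prod_type]
  exact div_self (tot_pos G hG).ne'

theorem Q4_edge : Edge (Q4 G) where
  nn := fun a => Finset.sum_nonneg fun b _ => T4_nn G hG _
  tot := by
    have := T4_tot G hG
    rw [Fintype.sum_prod_type] at this
    exact this
  sym := by
    intro x y
    unfold Q4 T4
    rw [← Finset.sum_div, ← Finset.sum_div]
    congr 1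
    rw [← (Equiv.prodComm X X).sum_comp]
    refine Finset.sum_congr rfl fun b _ => ?_
    have e : (Equiv.prodComm X X) b = b.swap := rfl
    simp only [e]
    exact CG_swap G (y, x) b

theorem T4_right (b : X × X) : ∑ a, T4 G (a, b) = Q4 G b := by
  unfold Q4 T4
  refine Finset.sum_congr rfl fun a _ => ?_
  simp only
  rw [CG_symm]

theorem T4_ne {x} (h : T4 G x ≠ 0) : CG G x.1 x.2 = 1 := CG_one G (div_ne_zero_iff.1 h).1

theorem Q4_ne {a : X × X} (h : Q4 G a ≠ 0) : adj G a.1 a.2 = 1 := by
  unfold Q4 at h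
  obtain ⟨b, -, hb⟩ := Finset.exists_ne_zero_of_sum_ne_zero h
  have h1 := (div_ne_zero_iff.1 hb).1
  unfold CG at h1
  exact adj_one G (left_ne_zero_of_mul (left_ne_zero_of_mul (left_ne_zero_of_mul h1)))

theorem Q4_four : Four (CG G) (Q4 G) where
  c0 := CG_nn G
  c1 := by
    intro s f f' s' h1 h2 h3 h4
    have a1 := Q4_ne G hG h1
    have a2 := Q4_ne G hG h2
    have a3 := Q4_ne G hG h3
    have a4 := Q4_ne G hG h4
    unfold CG
    simp only at a1 a2 a3 a4 ⊢
    rw [a1, a2, a3, a4]
    norm_num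

/-- the entropy of the uniform law -/
theorem T4_ent : ent (T4 G) (fun x => x) = Real.log (tot G) := by
  have ht := tot_pos G hG
  rw [ent_eq]
  have e1 : ∀ x, T4 G x * Real.log (mar (T4 G) (fun x => x) x) = - (T4 G x * Real.log (tot G)) := by
    intro x
    rw [mar_id]
    by_cases hx : T4 G x = 0
    · rw [hx]; ring
    · have h1 := T4_ne G hG hx
      have h2 : T4 G x = 1 / tot G := by
        unfold T4
        rw [h1]
      rw [h2, Real.log_div one_ne_zero ht.ne', Real.log_one]
      ring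
  rw [Finset.sum_congr rfl fun x _ => e1 x, Finset.sum_neg_distrib, neg_neg, ← Finset.sum_mul,
    T4_tot G hG, one_mul]

/-- the entropy of an edge -/
theorem hQ4_le : hQ (Q4 G) ≤ Real.log (∑ x, ∑ y, adj G x y) := by
  have hE := Q4_edge G hG
  have key := ent_log_sum hE.nn hE.tot (fun x => x) (fun a => adj G a.1 a.2)
    (fun a => adj_nn G _ _) (fun a ha => by rw [Q4_ne G hG ha]; exact one_ne_zero)
  have e1 : ∑ a, Q4 G a * Real.log (adj G a.1 a.2) = 0 := by
    refine Finset.sum_eq_zero fun a _ => ?_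
    by_cases ha : Q4 G a = 0
    · rw [ha, zero_mul]
    · rw [Q4_ne G hG ha, Real.log_one, mul_zero]
  have h2 := key.2
  rw [e1, add_zero, Fintype.sum_prod_type] at h2
  exact h2

/-- the entropy of a vertex -/
theorem aQ4_le : aQ (Q4 G) ≤ Real.log (Fintype.card X) := by
  have hE := Q4_edge G hG
  have key := ent_log_sum (P := Q4 G) hE.nn hE.tot (fun e => e.2) (fun _ => 1)
    (fun a => zero_le_one) (fun a ha => one_ne_zero)
  have h2 := key.2
  simp only [Real.log_one, mul_zero, Finset.sum_const_zero, add_zero, Finset.sum_const,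
    Finset.card_univ, nsmul_eq_mul, mul_one] at h2
  rw [hE.ent_snd] at h2
  exact h2

omit hG

section spectral

/-- iterated swap -/
def sg : ℕ → X × X → X × X
  | 0 => fun b => b
  | n + 1 => fun b => (sg n b).swap

omit [Fintype X] in
theorem sg_swap (n : ℕ) (b : X × X) : sg n b.swap = (sg n b).swap := by
  induction n with
  | zero => rfl
  | succ n ih =>
    show (sg n b.swap).swap = ((sg n b).swap).swap
    rw [ih]

omit [Fintype X] in
theorem sg_sg (n : ℕ) (b : X × X) : sg n (sg n b) = b := by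
  induction n with
  | zero => rfl
  | succ n ih =>
    show (sg n (sg n b).swap).swap = b
    rw [sg_swap, ih, Prod.swap_swap]

/-- iterated swap, as a bijection -/
def sgE (n : ℕ) : X × X ≃ X × X := ⟨sg n, sg n, sg_sg n, sg_sg n⟩

theorem lad_swap (a b : X × X) : lad (adj G) a.swap b.swap = lad (adj G) a b := by
  unfold lad
  simp only [Prod.fst_swap, Prod.snd_swap]
  rw [adj_symm G a.2 a.1, adj_symm G b.2 b.1, adj_symm G a.2 b.1, adj_symm G b.2 a.1]
  ring

theorem lad_sg (n : ℕ) (a b : X × X) : lad (adj G) (sg n a) (sg n b) = lad (adj G) a b := by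
  induction n with
  | zero => rfl
  | succ n ih =>
    show lad (adj G) (sg n a).swap (sg n b).swap = _
    rw [lad_swap, ih]

theorem CG_lad (a b : X × X) : CG G a b = lad (adj G) a b.swap := by
  unfold CG lad
  simp only [Prod.fst_swap, Prod.snd_swap]
  have h1 : ∀ x y, Real.sqrt (adj G x y) = adj G x y := by
    intro x y
    simp only [adj]
    split_ifs <;> simp
  rw [h1, h1, adj_symm G b.2 b.1, adj_symm G b.2 a.2]
  ring

theorem lad_CG (a b : X × X) : lad (adj G) a b = CG G a b.swap := by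
  rw [CG_lad, Prod.swap_swap]

variable [DecidableEq X]

theorem zp_pw (n : ℕ) (a b : X × X) : zp (CG G) n a b = pw (adj G) n a (sg n b) := by
  induction n generalizing b with
  | zero => rfl
  | succ n ih =>
    show ∑ c, zp (CG G) n a c * CG G c b = ∑ c, pw (adj G) n a c * lad (adj G) c (sg n b).swap
    rw [← (sgE n).sum_comp (fun c => pw (adj G) n a c * lad (adj G) c (sg n b).swap)]
    refine Finset.sum_congr rfl fun c _ => ?_
    have e : (sgE n) c = sg n c := rfl
    rw [e, ih, CG_lad, ← sg_swap, lad_sg]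

variable {l : X × X → ℝ} {f : X × X → X × X → ℝ}

theorem pw_pw (hL : Eig (lad (adj G)) l f) (m n : ℕ) :
    ∑ R, ∑ e, pw (adj G) m R e * pw (adj G) n R e = ∑ i, l i ^ (m + n) := by
  have h1 : ∀ R, ∑ e, pw (adj G) m R e * pw (adj G) n R e =
      ∑ i, l i ^ (m + n) * (f i R * f i R) := by
    intro R
    have h2 : ∀ e, pw (adj G) m R e * pw (adj G) n R e =
        ∑ i, l i ^ m * f i R * (f i e * pw (adj G) n R e) := by
      intro e
      rw [pw_eig hL m, Finset.sum_mul]
      exact Finset.sum_congr rfl fun i _ => by ring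
    simp only [h2]
    rw [Finset.sum_comm]
    simp only [← Finset.mul_sum, pw_coef hL]
    exact Finset.sum_congr rfl fun i _ => by ring
  simp only [h1]
  rw [Finset.sum_comm]
  refine Finset.sum_congr rfl fun i _ => ?_
  rw [← Finset.mul_sum, hL.orth]
  simp

theorem pr_eq (n : ℕ) [NeZero (2 * n)] : pr (CG G) n = ladSum (adj G) (2 * n) := by
  obtain ⟨l, f, hL⟩ := exists_eig (lad (adj G)) (lad_symm (adj G))
  rw [ladSum_eq (adj_nn G) hL]
  unfold pr
  have h1 : ∀ R, ∑ e, zp (CG G) n R e ^ 2 = ∑ e, pw (adj G) n R e * pw (adj G) n R e := by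
    intro R
    rw [← (sgE n).sum_comp (fun e => pw (adj G) n R e * pw (adj G) n R e)]
    refine Finset.sum_congr rfl fun e _ => ?_
    have e' : (sgE n) e = sg n e := rfl
    rw [e', zp_pw, sq]
  simp only [h1]
  rw [pw_pw G hL, two_mul]

theorem tw_eq (n : ℕ) [NeZero (2 * n + 1)] : tw (CG G) n = ladSum (adj G) (2 * n + 1) := by
  obtain ⟨l, f, hL⟩ := exists_eig (lad (adj G)) (lad_symm (adj G))
  rw [ladSum_eq (adj_nn G) hL]
  unfold tw
  have h1 : ∀ R, ∑ e, ∑ e', zp (CG G) n R e * CG G e e'.swap * zp (CG G) n R e' =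
      ∑ e', pw (adj G) (n + 1) R e' * pw (adj G) n R e' := by
    intro R
    have h2 : ∀ e', pw (adj G) (n + 1) R e' * pw (adj G) n R e' =
        ∑ e, pw (adj G) n R e * lad (adj G) e e' * pw (adj G) n R e' := by
      intro e'
      show (∑ e, pw (adj G) n R e * lad (adj G) e e') * pw (adj G) n R e' = _
      rw [Finset.sum_mul]
    simp only [h2]
    conv_rhs => rw [Finset.sum_comm]
    rw [← (sgE n).sum_comp (fun e => ∑ e', pw (adj G) n R e * lad (adj G) e e' *
      pw (adj G) n R e')]
    refine Finset.sum_congr rfl fun e _ => ?_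
    rw [← (sgE n).sum_comp (fun e' => pw (adj G) n R ((sgE n) e) * lad (adj G) ((sgE n) e) e' *
      pw (adj G) n R e')]
    refine Finset.sum_congr rfl fun e' _ => ?_
    have i1 : (sgE n) e = sg n e := rfl
    have i2 : (sgE n) e' = sg n e' := rfl
    rw [i1, i2, lad_sg, zp_pw, zp_pw, lad_CG]
  simp only [h1]
  rw [pw_pw G hL]
  refine Finset.sum_congr rfl fun i _ => ?_
  congr 1
  ring

theorem tot_eq : tot G = ladSum (adj G) 2 := by
  obtain ⟨l, f, hL⟩ := exists_eig (lad (adj G)) (lad_symm (adj G))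
  rw [ladSum_eq (adj_nn G) hL, hL.sum_sq]
  unfold tot
  refine Finset.sum_congr rfl fun a _ => ?_
  rw [← (Equiv.prodComm X X).sum_comp]
  refine Finset.sum_congr rfl fun b _ => ?_
  have e : (Equiv.prodComm X X) b = b.swap := rfl
  rw [e, ← lad_CG]
  rw [lad_CG]
  by_cases h : CG G a b.swap = 0
  · rw [h]; norm_num
  · rw [CG_one G h]; norm_num

end spectral

end Vale.Agent.P050.M18
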