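import Vale.Agent.P050.M18.Val

/-!
The law of an edge, of a cherry, and the step of the chain.
-/

set_option linter.unusedSectionVars false

namespace Vale.Agent.P050.M18

open Finset Vale.Agent.P050.Cart Vale.Agent.P050.Join

section cop

variable {Ω γ δ : Type} [Fintype Ω] [Fintype γ] [Fintype δ]

/-- attach a copy of `y` given `c` -/
noncomputable def cop (P : Ω → ℝ) (c : Ω → δ) (y : Ω → γ) : Ω × γ → ℝ := att P c (ker P c y)

variable {P : Ω → ℝ} (hP : ∀ ω, 0 ≤ P ω) (c : Ω → δ) (y : Ω → γ)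

include hP

theorem ker_one (ω : Ω) (h0 : P ω ≠ 0) : ∑ b, ker P c y (c ω) b = 1 :=
  sum_ker c y (mar_ne_zero hP c h0)

theorem cop_nonneg (x) : 0 ≤ cop P c y x := att_nonneg hP (fun _ _ => ker_nonneg hP _ _ _ _) x

theorem cop_law : mar (cop P c y) (fun x => (c x.1, x.2)) = mar P (fun ω => (c ω, y ω)) := by
  funext ⟨d, u⟩
  have h := mar_att (P := P) (f := c) (K := ker P c y) c (fun d => d) (fun _ => rfl) d u
  unfold cop
  rw [h]
  unfold ker
  by_cases h0 : mar P c d = 0
  · rw [h0]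
    have := mar_fst P c y d
    rw [h0] at this
    rw [(Finset.sum_eq_zero_iff_of_nonneg fun u _ => mar_nonneg hP _ _).1 this u (mem_univ u)]
    simp
  · field_simp

theorem cop_fst {α : Type} (g : Ω → α) : mar (cop P c y) (fun x => g x.1) = mar P g :=
  mar_att_fst (fun ω h0 => ker_one hP c y ω h0) g

theorem cop_ent_fst {α : Type} [Fintype α] (g : Ω → α) :
    ent (cop P c y) (fun x => g x.1) = ent P g :=
  ent_att_fst (fun ω h0 => ker_one hP c y ω h0) g

theorem cop_total (h1 : ∑ ω, P ω = 1) : ∑ x, cop P c y x = 1 :=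
  att_total h1 fun ω h0 => ker_one hP c y ω h0

theorem cop_ent {α : Type} [Fintype α] (g : Ω → α) (k : α → δ) (hk : ∀ ω, c ω = k (g ω)) :
    ent (cop P c y) (fun x => (g x.1, x.2)) =
      ent P g + (ent P (fun ω => (c ω, y ω)) - ent P c) := by
  have h := ent_att (f := c) (K := ker P c y) hP (fun d b => ker_nonneg hP c y d b)
    (fun ω h0 => ker_one hP c y ω h0) g k hk
  have e1 : ent (att P c (ker P c y)) (fun x => (c x.1, x.2)) = ent P (fun ω => (c ω, y ω)) := by
    unfold ent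
    have := cop_law hP c y
    unfold cop at this
    rw [this]
  rw [e1] at h
  unfold cop
  linarith

/-- the support -/
theorem cop_ne_zero {x : Ω × γ} (h : cop P c y x ≠ 0) :
    P x.1 ≠ 0 ∧ ∃ ω, P ω ≠ 0 ∧ c ω = c x.1 ∧ y ω = x.2 := by
  classical
  unfold cop att ker at h
  have h1 := left_ne_zero_of_mul h
  have h2 := (div_ne_zero_iff.1 (right_ne_zero_of_mul h)).1
  refine ⟨h1, ?_⟩
  unfold mar at h2
  obtain ⟨ω, -, hω⟩ := Finset.exists_ne_zero_of_sum_ne_zero h2
  have h3 : (c ω, y ω) = (c x.1, x.2) := by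
    by_contra hh
    rw [if_neg hh] at hω
    exact hω rfl
  rw [if_pos h3] at hω
  simp only [Prod.mk.injEq] at h3
  exact ⟨ω, hω, h3.1, h3.2⟩

end cop

variable {U : Type} [Fintype U]

/-- `Q` is a symmetric law on pairs -/
structure Edge (Q : U × U → ℝ) : Prop where
  nn : ∀ e, 0 ≤ Q e
  tot : ∑ e, Q e = 1
  sym : ∀ x y, Q (x, y) = Q (y, x)

/-- the law of a vertex -/
def mm (Q : U × U → ℝ) (x : U) : ℝ := ∑ y, Q (x, y)

/-- the law of a neighbour of `y` -/
noncomputable def nb (Q : U × U → ℝ) (y z : U) : ℝ := Q (y, z) / mm Q y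

/-- the law of a cherry `((x, y), z)` -/
noncomputable def C3 (Q : U × U → ℝ) : (U × U) × U → ℝ := att Q (fun e => e.2) (nb Q)

/-- the conditional law of the middle of a cherry, given the ends -/
noncomputable def kap (Q : U × U → ℝ) : U × U → U → ℝ :=
  ker (C3 Q) (fun x => (x.1.1, x.2)) (fun x => x.1.2)

/-- the kernel of the chain: from `(s, f)` to `(s', f')`, where `f'` is a neighbour of `f` and `s'`
is a copy of `f` given `s` and `f'` -/
noncomputable def kk (Q : U × U → ℝ) (e e' : U × U) : ℝ := nb Q e.2 e'.2 * kap Q (e.1, e'.2) e'.1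

variable {Q : U × U → ℝ}

namespace Edge

variable (h : Edge Q)
include h

theorem mm_nn (x : U) : 0 ≤ mm Q x := Finset.sum_nonneg fun _ _ => h.nn _

theorem mm_zero {x : U} (hx : mm Q x = 0) (y : U) : Q (x, y) = 0 :=
  (Finset.sum_eq_zero_iff_of_nonneg fun _ _ => h.nn _).1 hx y (mem_univ y)

theorem mm_ne {x y : U} (hx : Q (x, y) ≠ 0) : mm Q x ≠ 0 ∧ mm Q y ≠ 0 := by
  refine ⟨fun h0 => hx (h.mm_zero h0 y), fun h0 => hx ?_⟩
  rw [h.sym]
  exact h.mm_zero h0 x

theorem nb_nn (y z : U) : 0 ≤ nb Q y z := div_nonneg (h.nn _) (h.mm_nn _)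

theorem nb_one {y : U} (hy : mm Q y ≠ 0) : ∑ z, nb Q y z = 1 := by
  unfold nb
  rw [← Finset.sum_div]
  exact div_self hy

theorem nb_one' (e : U × U) (he : Q e ≠ 0) : ∑ z, nb Q e.2 z = 1 :=
  h.nb_one (h.mm_ne (x := e.1) (y := e.2) he).2

theorem mm_mul_nb (y z : U) : mm Q y * nb Q y z = Q (y, z) := by
  unfold nb
  by_cases h0 : mm Q y = 0
  · rw [h0, h.mm_zero h0]; simp
  · field_simp

theorem mar_snd_Q : mar Q (fun e => e.2) = mm Q := by
  funext y
  rw [mar_prod_snd]
  unfold mm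
  exact Finset.sum_congr rfl fun x _ => h.sym _ _

theorem mar_fst_Q : mar Q (fun e => e.1) = mm Q := by
  funext y
  rw [mar_prod_fst]
  rfl

theorem C3_nn (x) : 0 ≤ C3 Q x := att_nonneg h.nn h.nb_nn x

theorem C3_tot : ∑ x, C3 Q x = 1 := att_total h.tot h.nb_one'

theorem C3_val (x y z : U) : C3 Q ((x, y), z) = Q (x, y) * nb Q y z := rfl

theorem C3_sym (x y z : U) : C3 Q ((x, y), z) = C3 Q ((z, y), x) := by
  rw [h.C3_val, h.C3_val]
  unfold nb
  rw [h.sym x y, h.sym z y]
  ring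

/-- the law of `(x, y)` in a cherry -/
theorem C3_12 : mar (C3 Q) (fun x => x.1) = Q := by
  have := mar_att_fst (P := Q) (f := fun e => e.2) (K := nb Q) h.nb_one' (fun e => e)
  funext e
  unfold C3
  rw [this, mar_id]

/-- the law of `(y, z)` in a cherry -/
theorem C3_23 : mar (C3 Q) (fun x => (x.1.2, x.2)) = Q := by
  funext ⟨y, z⟩
  have := mar_att (P := Q) (f := fun e => e.2) (K := nb Q) (fun e => e.2) (fun y => y)
    (fun _ => rfl) y z
  unfold C3
  rw [this, h.mar_snd_Q]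
  exact h.mm_mul_nb y z

/-- the law of `(x, z)` -/
theorem C3_13 (x z : U) : mar (C3 Q) (fun x => (x.1.1, x.2)) (x, z) = ∑ y, C3 Q ((x, y), z) := by
  classical
  unfold mar
  rw [Fintype.sum_prod_type, Fintype.sum_prod_type, Finset.sum_eq_single x]
  · refine Finset.sum_congr rfl fun y _ => ?_
    rw [Finset.sum_eq_single z]
    · simp
    · intro z' _ hz
      rw [if_neg]
      simp only [Prod.mk.injEq, true_and]
      exact hz
    · intro hn; exact absurd (mem_univ _) hn
  · intro x' _ hx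
    refine Finset.sum_eq_zero fun y _ => Finset.sum_eq_zero fun z' _ => ?_
    rw [if_neg]
    simp only [Prod.mk.injEq, not_and]
    exact fun hh => absurd hh hx
  · intro hn; exact absurd (mem_univ _) hn

theorem C2_sym (x z : U) : mar (C3 Q) (fun x => (x.1.1, x.2)) (x, z) =
    mar (C3 Q) (fun x => (x.1.1, x.2)) (z, x) := by
  rw [h.C3_13, h.C3_13]
  exact Finset.sum_congr rfl fun y _ => h.C3_sym x y z

theorem C3_full (x y z : U) : mar (C3 Q) (fun x => ((x.1.1, x.2), x.1.2)) ((x, z), y) =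
    C3 Q ((x, y), z) := by
  have := mar_inj (C3 Q) (fun x => x) (e := fun x : (U × U) × U => ((x.1.1, x.2), x.1.2))
    (fun a b hab => by
      simp only [Prod.mk.injEq] at hab
      exact Prod.ext (Prod.ext hab.1.1 hab.2) hab.1.2) ((x, y), z)
  rw [mar_id] at this
  exact this

theorem kap_val (x z y : U) : kap Q (x, z) y =
    C3 Q ((x, y), z) / mar (C3 Q) (fun x => (x.1.1, x.2)) (x, z) := by
  unfold kap ker
  rw [h.C3_full]

theorem kap_nn (d u) : 0 ≤ kap Q d u := ker_nonneg h.C3_nn _ _ _ _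

theorem kap_sym (x z y : U) : kap Q (x, z) y = kap Q (z, x) y := by
  rw [h.kap_val, h.kap_val, h.C2_sym x z, h.C3_sym]

theorem kk_nn (e e' : U × U) : 0 ≤ kk Q e e' := mul_nonneg (h.nb_nn _ _) (h.kap_nn _ _)

theorem Q_sw (e : U × U) : Q e.swap = Q e := h.sym _ _

/-- reversibility up to a swap -/
theorem kk_rev (e e' : U × U) : Q e * kk Q e e' = Q e' * kk Q e'.swap e.swap := by
  obtain ⟨s, f⟩ := e
  obtain ⟨s', f'⟩ := e'
  unfold kk
  simp only [Prod.swap]
  rw [← mul_assoc, ← mul_assoc]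
  have e1 : Q (s, f) * nb Q f f' = C3 Q ((s, f), f') := rfl
  have e2 : Q (s', f') * nb Q s' s = C3 Q ((f', s'), s) := by
    rw [h.C3_val, h.sym f' s']
  rw [e1, e2, h.kap_val, h.kap_val, h.C2_sym f' s, h.C3_sym f' s' s, h.C3_sym f' f s]
  ring

end Edge

end Vale.Agent.P050.M18
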