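import Vale.Agent.P050.Join.Copy
import Vale.Agent.P050.Cart.Info

/-!
Entropy calculus on a finite probability space: partitions, submodularity, attaching a variable by
a kernel.
-/

set_option linter.unusedSectionVars false

namespace Vale.Agent.P050.M18

open Finset Vale.Agent.P050.Cart Vale.Agent.P050.Join

section partition

variable {Ω α β γ δ : Type} [Fintype Ω] [Fintype α] [Fintype β] [Fintype γ] [Fintype δ]

/-- the entropy of a function depends only on its partition -/
theorem ent_same (P : Ω → ℝ) {f : Ω → α} {g : Ω → β} (h : ∀ ω ω', f ω = f ω' ↔ g ω = g ω') :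
    ent P f = ent P g := by
  classical
  rw [ent_eq, ent_eq]
  congr 1
  refine Finset.sum_congr rfl fun ω _ => ?_
  have : mar P f (f ω) = mar P g (g ω) := by
    unfold mar
    refine Finset.sum_congr rfl fun ω' _ => ?_
    simp only [h ω' ω]
  rw [this]

theorem ent_mono {P : Ω → ℝ} (hP : ∀ ω, 0 ≤ P ω) {f : Ω → α} {g : Ω → β}
    (h : ∀ ω ω', f ω = f ω' → g ω = g ω') : ent P g ≤ ent P f := by
  have h1 := ent_submod hP f f g
  have e1 : ent P (fun ω => (f ω, f ω, g ω)) = ent P f := ent_same P fun ω ω' => by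
    simp only [Prod.mk.injEq]
    exact ⟨fun a => a.1, fun a => ⟨a, a, h _ _ a⟩⟩
  have e2 : ent P (fun ω => (f ω, g ω)) = ent P f := ent_same P fun ω ω' => by
    simp only [Prod.mk.injEq]
    exact ⟨fun a => a.1, fun a => ⟨a, h _ _ a⟩⟩
  rw [e1, e2] at h1
  linarith

/-- submodularity, in terms of partitions -/
theorem subm {P : Ω → ℝ} (hP : ∀ ω, 0 ≤ P ω) {A : Ω → α} {B : Ω → β} {C : Ω → γ} {D : Ω → δ}
    (hC : ∀ ω ω', A ω = A ω' → B ω = B ω' → C ω = C ω')
    (hA : ∀ ω ω', A ω = A ω' → D ω = D ω') (hB : ∀ ω ω', B ω = B ω' → D ω = D ω') :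
    ent P C + ent P D ≤ ent P A + ent P B := by
  have h1 := ent_submod hP A B D
  have e1 : ent P (fun ω => (A ω, D ω)) = ent P A := ent_same P fun ω ω' => by
    simp only [Prod.mk.injEq]
    exact ⟨fun a => a.1, fun a => ⟨a, hA _ _ a⟩⟩
  have e2 : ent P (fun ω => (B ω, D ω)) = ent P B := ent_same P fun ω ω' => by
    simp only [Prod.mk.injEq]
    exact ⟨fun a => a.1, fun a => ⟨a, hB _ _ a⟩⟩
  have e3 : ent P C ≤ ent P (fun ω => (A ω, B ω, D ω)) := ent_mono hP fun ω ω' h => by
    simp only [Prod.mk.injEq] at h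
    exact hC _ _ h.1 h.2.1
  rw [e1, e2] at h1
  linarith

/-- subadditivity, in terms of partitions -/
theorem suba {P : Ω → ℝ} (hP : ∀ ω, 0 ≤ P ω) (h1 : ∑ ω, P ω = 1) {A : Ω → α} {B : Ω → β}
    {C : Ω → γ} (hC : ∀ ω ω', A ω = A ω' → B ω = B ω' → C ω = C ω') :
    ent P C ≤ ent P A + ent P B := by
  have h := subm hP (A := A) (B := B) (C := C) (D := fun _ => ()) hC (fun _ _ _ => rfl)
    (fun _ _ _ => rfl)
  rw [ent_const h1] at h
  linarith

end partition

section att

variable {Ω β δ : Type} [Fintype Ω] [Fintype β] [Fintype δ]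

/-- attach a variable with values in `β` by a kernel -/
def att (P : Ω → ℝ) (f : Ω → δ) (K : δ → β → ℝ) (x : Ω × β) : ℝ := P x.1 * K (f x.1) x.2

variable {P : Ω → ℝ} {f : Ω → δ} {K : δ → β → ℝ}

theorem att_nonneg (hP : ∀ ω, 0 ≤ P ω) (hK : ∀ d b, 0 ≤ K d b) (x) : 0 ≤ att P f K x :=
  mul_nonneg (hP _) (hK _ _)

theorem sum_att (G : Ω × β → ℝ) : ∑ x, att P f K x * G x = ∑ ω, P ω * ∑ b, K (f ω) b * G (ω, b) := by
  rw [Fintype.sum_prod_type]
  refine Finset.sum_congr rfl fun ω _ => ?_
  rw [Finset.mul_sum]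
  refine Finset.sum_congr rfl fun b _ => ?_
  unfold att
  ring

theorem sum_att_fst (h1 : ∀ ω, P ω ≠ 0 → ∑ b, K (f ω) b = 1) (G : Ω → ℝ) :
    ∑ x, att P f K x * G x.1 = ∑ ω, P ω * G ω := by
  rw [sum_att]
  refine Finset.sum_congr rfl fun ω _ => ?_
  simp only
  rw [← Finset.sum_mul]
  by_cases h0 : P ω = 0
  · rw [h0]; ring
  · rw [h1 ω h0, one_mul]

theorem mar_att_fst {α : Type} (h1 : ∀ ω, P ω ≠ 0 → ∑ b, K (f ω) b = 1) (g : Ω → α) :
    mar (att P f K) (fun x => g x.1) = mar P g := by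
  funext a
  exact mar_of_sum (fun F => sum_att_fst h1 fun ω => F (g ω)) a

theorem ent_att_fst {α : Type} [Fintype α] (h1 : ∀ ω, P ω ≠ 0 → ∑ b, K (f ω) b = 1) (g : Ω → α) :
    ent (att P f K) (fun x => g x.1) = ent P g := by
  unfold ent
  rw [mar_att_fst h1]

theorem att_total (hP1 : ∑ ω, P ω = 1) (h1 : ∀ ω, P ω ≠ 0 → ∑ b, K (f ω) b = 1) :
    ∑ x, att P f K x = 1 := by
  have := sum_att_fst (f := f) (K := K) h1 fun _ => 1
  simp only [mul_one] at this
  rw [this, hP1]

/-- the law of a function of `ω` and the new variable -/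
theorem mar_att {α : Type} (g : Ω → α) (k : α → δ) (hk : ∀ ω, f ω = k (g ω)) (a : α) (b : β) :
    mar (att P f K) (fun x => (g x.1, x.2)) (a, b) = mar P g a * K (k a) b := by
  classical
  unfold mar
  rw [Fintype.sum_prod_type, Finset.sum_mul]
  refine Finset.sum_congr rfl fun ω _ => ?_
  rw [Finset.sum_eq_single b]
  · simp only [Prod.mk.injEq, and_true]
    by_cases h : g ω = a
    · rw [if_pos h, if_pos h]
      unfold att
      rw [hk, h]
    · rw [if_neg h, if_neg h, zero_mul]
  · intro b' _ hb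
    rw [if_neg]
    simp only [Prod.mk.injEq, not_and]
    exact fun _ => hb
  · intro hn
    exact absurd (mem_univ _) hn

/-- the new variable is independent of the rest, given `f` -/
theorem ent_att {α : Type} [Fintype α] (hP : ∀ ω, 0 ≤ P ω) (hK : ∀ d b, 0 ≤ K d b)
    (h1 : ∀ ω, P ω ≠ 0 → ∑ b, K (f ω) b = 1) (g : Ω → α) (k : α → δ)
    (hk : ∀ ω, f ω = k (g ω)) :
    ent (att P f K) (fun x => (g x.1, x.2)) + ent P f =
      ent P g + ent (att P f K) (fun x => (f x.1, x.2)) := by
  have hA : ∀ x, 0 ≤ att P f K x := att_nonneg hP hK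
  have hm := ent_markov hA (fun x => g x.1) (fun x => x.2) (fun x => f x.1) (fun a b d => by
    have e1 : mar (att P f K) (fun x => (g x.1, x.2, f x.1)) (a, b, d) =
        mar P (fun ω => (g ω, f ω)) (a, d) * K d b := by
      rw [← mar_att (f := f) (K := K) (fun ω => (g ω, f ω)) (fun y => y.2) (fun ω => rfl)]
      exact mar_inj (att P f K) (fun x => ((g x.1, f x.1), x.2))
        (e := fun y : (α × δ) × β => (y.1.1, y.2, y.1.2)) (fun y z hyz => by
          simp only [Prod.mk.injEq] at hyz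
          exact Prod.ext (Prod.ext hyz.1 hyz.2.2) hyz.2.1) ((a, d), b)
    have e2 : mar (att P f K) (fun x => f x.1) d = mar P f d := by rw [mar_att_fst h1]
    have e3 : mar (att P f K) (fun x => (g x.1, f x.1)) (a, d) =
        mar P (fun ω => (g ω, f ω)) (a, d) := by
      rw [mar_att_fst h1 (fun ω => (g ω, f ω))]
    have e4 : mar (att P f K) (fun x => (x.2, f x.1)) (b, d) = mar P f d * K d b := by
      rw [← mar_att (f := f) (K := K) f (fun y => y) (fun ω => rfl)]
      exact mar_inj (att P f K) (fun x => (f x.1, x.2)) (e := fun y : δ × β => (y.2, y.1))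
        (fun y z hyz => by
          simp only [Prod.mk.injEq] at hyz
          exact Prod.ext hyz.2 hyz.1) (d, b)
    rw [e1, e2, e3, e4]
    ring)
  have e1 : ent (att P f K) (fun x => (g x.1, x.2, f x.1)) =
      ent (att P f K) (fun x => (g x.1, x.2)) := ent_same _ fun x y => by
    simp only [Prod.mk.injEq]
    constructor
    · rintro ⟨h, h', -⟩; exact ⟨h, h'⟩
    · rintro ⟨h, h'⟩; exact ⟨h, h', by rw [hk, hk, h]⟩
  have e2 : ent (att P f K) (fun x => f x.1) = ent P f := ent_att_fst h1 f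
  have e3 : ent (att P f K) (fun x => (g x.1, f x.1)) = ent P g := by
    rw [← ent_att_fst h1 g]
    exact ent_same _ fun x y => by
      simp only [Prod.mk.injEq]
      constructor
      · rintro ⟨h, -⟩; exact h
      · intro h; exact ⟨h, by rw [hk, hk, h]⟩
  have e4 : ent (att P f K) (fun x => (x.2, f x.1)) = ent (att P f K) (fun x => (f x.1, x.2)) :=
    ent_same _ fun x y => by
      simp only [Prod.mk.injEq]
      exact and_comm
  rw [e1, e2, e3, e4] at hm
  exact hm

end att

end Vale.Agent.P050.M18
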