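import Vale.Agent.P050.H148.Defs

/-!
Statement-level definitions.
-/

namespace Vale.Agent.P050.M18

open Vale.Agent.P050.H148

/-- The indices of the rungs of `bouquet N k`: the residues modulo 4, and `N` copies (the first
coordinate tells which copy) of the nonzero residues modulo `k`. -/
abbrev BRung (N k : ℕ) : Type := ZMod 4 ⊕ (Fin N × {i : ZMod k // i ≠ 0})

/-- The rungs of the copy `c` of the Moebius ladder with `k` rungs; its rung `0` is the rung `0` of
the cube. -/
def petal (N k : ℕ) (c : Fin N) (i : ZMod k) : BRung N k :=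
  if h : i = 0 then Sum.inl 0 else Sum.inr (c, ⟨i, h⟩)

/-- The graph of the cube (`moebiusLadder 4`) and `N` copies of the Moebius ladder with `k` rungs
(`k` odd), all having one rung in common and nothing else. -/
def bouquet (N k : ℕ) : SimpleGraph (BRung N k × Bool) where
  Adj u v := (∃ a b, (moebiusLadder 4).Adj a b ∧ u = (Sum.inl a.1, a.2) ∧ v = (Sum.inl b.1, b.2)) ∨
    ∃ c a b, (moebiusLadder k).Adj a b ∧ u = (petal N k c a.1, a.2) ∧ v = (petal N k c b.1, b.2)
  symm := ⟨fun u v h => by
    rcases h with ⟨a, b, h, hu, hv⟩ | ⟨c, a, b, h, hu, hv⟩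
    · exact Or.inl ⟨b, a, h.symm, hv, hu⟩
    · exact Or.inr ⟨c, b, a, h.symm, hv, hu⟩⟩
  loopless := ⟨fun u h => by
    rcases h with ⟨a, b, h, hu, hv⟩ | ⟨c, a, b, h, hu, hv⟩
    · exact h.1 ((congrArg Prod.snd hu).symm.trans (congrArg Prod.snd hv))
    · exact h.1 ((congrArg Prod.snd hu).symm.trans (congrArg Prod.snd hv))⟩

end Vale.Agent.P050.M18
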