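import Vale.Agent.P050.M18.Final
import Vale.Agent.P050.H180.Sharp

/-!
Consequences for Moebius ladders.
-/

set_option linter.unusedSectionVars false

namespace Vale.Agent.P050.M18

open Finset Vale.Agent.P050.Cart Vale.Agent.P050.Join Vale.Agent.P050.H148 Vale.Agent.P050.H180

variable {X : Type} [Fintype X] [Nonempty X] (G : SimpleGraph X)

/-- the main inequality -/
theorem main_ineq (k s : ℕ) (hk : Odd k) (hs : 2 ≤ s) (h : 4 ^ (s + 1) + 11 ≤ k) :
    edgeDensity G ^ 48 * homDensity (SimpleGraph.cycleGraph 4) G ^ (3 * k * 2 ^ (s.choose 2)) ≤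
      homDensity (moebiusLadder k) G ^ (4 * 2 ^ (s.choose 2)) * homDensity cubeGraph G ^ 4 := by
  obtain ⟨m, rfl⟩ := hk
  obtain ⟨t, rfl⟩ : ∃ t, s = t + 2 := ⟨s - 2, by omega⟩
  refine ladder_density_pos_pow G t m ?_
  have e : 4 ^ (t + 2 + 1) = 16 * 4 ^ (t + 1) := by ring
  rw [e] at h
  omega

/-- many copies of the ladder and one cube -/
theorem copies_cube (k s : ℕ) (hk : Odd k) (hs : 2 ≤ s) (h : 4 ^ (s + 1) + 11 ≤ k) :
    edgeDensity G ^ (3 * k * 2 ^ (s.choose 2) + 12) ≤
      homDensity (moebiusLadder k) G ^ (2 ^ (s.choose 2)) * homDensity cubeGraph G := by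
  have h1 := main_ineq G k s hk hs h
  have h2 := pow_le_pow_left₀ (by have := edge_nn G; positivity) (four_ge G)
    (3 * k * 2 ^ (s.choose 2))
  have h3 : (edgeDensity G ^ (3 * k * 2 ^ (s.choose 2) + 12)) ^ 4 ≤
      (homDensity (moebiusLadder k) G ^ (2 ^ (s.choose 2)) * homDensity cubeGraph G) ^ 4 := by
    calc (edgeDensity G ^ (3 * k * 2 ^ (s.choose 2) + 12)) ^ 4
        = edgeDensity G ^ 48 * (edgeDensity G ^ 4) ^ (3 * k * 2 ^ (s.choose 2)) := by
          rw [← pow_mul, ← pow_mul, ← pow_add]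
          congr 1
          ring
      _ ≤ edgeDensity G ^ 48 *
          homDensity (SimpleGraph.cycleGraph 4) G ^ (3 * k * 2 ^ (s.choose 2)) :=
          mul_le_mul_of_nonneg_left h2 (pow_nonneg (edge_nn G) _)
      _ ≤ _ := h1
      _ = _ := by
          rw [mul_pow, ← pow_mul]
          congr 2
          ring
  exact le_of_pow_le_pow_left₀ (by norm_num) (mul_nonneg (pow_nonneg (hom_nn G _) _)
    (hom_nn G _)) h3

/-- the ladder and 4-cycles -/
theorem ladder_four (k s : ℕ) (hk : Odd k) (hs : 2 ≤ s) (h : 4 ^ (s + 1) + 11 ≤ k) :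
    edgeDensity G ^ 32 * homDensity (SimpleGraph.cycleGraph 4) G ^ (3 * k * 2 ^ (s.choose 2)) ≤
      homDensity (moebiusLadder k) G ^ (4 * 2 ^ (s.choose 2)) := by
  have h1 := main_ineq G k s hk hs h
  rcases (edge_nn G).lt_or_eq with hp | hp
  · have h2 := pow_le_pow_left₀ (hom_nn G _) (cube_le G) 4
    have h3 : edgeDensity G ^ 16 * (edgeDensity G ^ 32 *
        homDensity (SimpleGraph.cycleGraph 4) G ^ (3 * k * 2 ^ (s.choose 2))) ≤
        edgeDensity G ^ 16 * homDensity (moebiusLadder k) G ^ (4 * 2 ^ (s.choose 2)) := by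
      calc _ = edgeDensity G ^ 48 *
            homDensity (SimpleGraph.cycleGraph 4) G ^ (3 * k * 2 ^ (s.choose 2)) := by ring
        _ ≤ _ := h1
        _ ≤ homDensity (moebiusLadder k) G ^ (4 * 2 ^ (s.choose 2)) * (edgeDensity G ^ 4) ^ 4 :=
            mul_le_mul_of_nonneg_left h2 (pow_nonneg (hom_nn G _) _)
        _ = _ := by ring
    exact le_of_mul_le_mul_left h3 (by positivity)
  · rw [← hp]
    have : (0 : ℝ) ^ 32 *
        homDensity (SimpleGraph.cycleGraph 4) G ^ (3 * k * 2 ^ (s.choose 2)) = 0 := by norm_num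
    rw [this]
    exact pow_nonneg (hom_nn G _) _

/-- the exponent -/
theorem ladder_exp (k s : ℕ) (hk : Odd k) (hs : 2 ≤ s) (h : 4 ^ (s + 1) + 11 ≤ k) :
    edgeDensity G ^ (3 * k * 2 ^ (s.choose 2) + 8) ≤
      homDensity (moebiusLadder k) G ^ (2 ^ (s.choose 2)) := by
  have h1 := ladder_four G k s hk hs h
  have h2 := pow_le_pow_left₀ (by have := edge_nn G; positivity) (four_ge G)
    (3 * k * 2 ^ (s.choose 2))
  have h3 : (edgeDensity G ^ (3 * k * 2 ^ (s.choose 2) + 8)) ^ 4 ≤
      (homDensity (moebiusLadder k) G ^ (2 ^ (s.choose 2))) ^ 4 := by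
    calc (edgeDensity G ^ (3 * k * 2 ^ (s.choose 2) + 8)) ^ 4
        = edgeDensity G ^ 32 * (edgeDensity G ^ 4) ^ (3 * k * 2 ^ (s.choose 2)) := by
          rw [← pow_mul, ← pow_mul, ← pow_add]
          congr 1
          ring
      _ ≤ edgeDensity G ^ 32 *
          homDensity (SimpleGraph.cycleGraph 4) G ^ (3 * k * 2 ^ (s.choose 2)) :=
          mul_le_mul_of_nonneg_left h2 (pow_nonneg (edge_nn G) _)
      _ ≤ _ := h1
      _ = _ := by
          rw [← pow_mul]
          congr 1
          ring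
  exact le_of_pow_le_pow_left₀ (by norm_num) (pow_nonneg (hom_nn G _) _) h3

/-- Sidorenko's inequality in graphs with slightly more 4-cycles than a random graph -/
theorem ladder_rich (k s : ℕ) (hk : Odd k) (hs : 2 ≤ s) (h : 4 ^ (s + 1) + 11 ≤ k)
    (hr : edgeDensity G ^ (12 * k * 2 ^ (s.choose 2)) ≤ edgeDensity G ^ 32 *
      homDensity (SimpleGraph.cycleGraph 4) G ^ (3 * k * 2 ^ (s.choose 2))) :
    edgeDensity G ^ (3 * k) ≤ homDensity (moebiusLadder k) G := by
  have h1 := hr.trans (ladder_four G k s hk hs h)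
  have e : 12 * k * 2 ^ (s.choose 2) = 3 * k * (4 * 2 ^ (s.choose 2)) := by ring
  rw [e, pow_mul] at h1
  exact le_of_pow_le_pow_left₀ (by positivity) (hom_nn G _) h1

theorem edge_le_one : edgeDensity G ≤ 1 := by
  have hn := card_pos' (X := X)
  have h1 : ∑ x, ∑ y, adj G x y ≤ ∑ x : X, ∑ y : X, (1 : ℝ) :=
    Finset.sum_le_sum fun x _ => Finset.sum_le_sum fun y _ => by
      simp only [adj]; split_ifs <;> norm_num
  rw [adj_sum'] at h1
  simp only [Finset.sum_const, Finset.card_univ, nsmul_eq_mul, mul_one] at h1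
  have h2 : edgeDensity G * (Fintype.card X : ℝ) ^ 2 ≤ 1 * (Fintype.card X : ℝ) ^ 2 := by
    rw [one_mul, sq (Fintype.card X : ℝ)]
    rw [sq (Fintype.card X : ℝ)] at h1
    exact h1
  exact le_of_mul_le_mul_right h2 (by positivity)

/-- the exponent is nearly `3 k` -/
theorem ladder_real (k : ℕ) (hk : Odd k) (h5 : 5 ≤ k) :
    edgeDensity G ^ (3 * k + 4096 * Real.exp (-(Real.log k) ^ 2 / 10)) ≤
      homDensity (moebiusLadder k) G := by
  have hk0 : (5 : ℝ) ≤ k := by exact_mod_cast h5
  rcases (edge_nn G).lt_or_eq with hp | hp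
  swap
  · rw [← hp, Real.zero_rpow (by positivity)]
    exact hom_nn G _
  have hp1 := edge_le_one G
  -- it suffices to have a smaller exponent
  have red : ∀ e : ℝ, e ≤ 3 * k + 4096 * Real.exp (-(Real.log k) ^ 2 / 10) →
      edgeDensity G ^ e ≤ homDensity (moebiusLadder k) G →
      edgeDensity G ^ (3 * k + 4096 * Real.exp (-(Real.log k) ^ 2 / 10)) ≤
        homDensity (moebiusLadder k) G := fun e he h =>
    (Real.rpow_le_rpow_of_exponent_ge hp hp1 he).trans h
  have hl0 : 0 ≤ Real.log k := Real.log_nonneg (by linarith)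
  have hl2 : Real.log 2 < 0.6931471808 := Real.log_two_lt_d9
  have hl2' : 0.6931471803 < Real.log 2 := Real.log_two_gt_d9
  by_cases hk75 : k < 4 ^ 3 + 11
  · refine red (3 * k + 1) ?_ ?_
    · have h1 : Real.log k ≤ 5 := by
        have h2 : Real.log k ≤ Real.log (2 ^ 7 : ℝ) := by
          refine Real.log_le_log (by linarith) ?_
          have : (k : ℝ) < 4 ^ 3 + 11 := by exact_mod_cast hk75
          linarith
        rw [Real.log_pow] at h2
        push_cast at h2
        linarith
      have h2 : Real.exp (-3) ≤ Real.exp (-(Real.log k) ^ 2 / 10) := by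
        rw [Real.exp_le_exp]
        nlinarith
      have h3 : (1 : ℝ) / 4096 ≤ Real.exp (-3) := by
        rw [Real.exp_neg, one_div]
        refine inv_anti₀ (Real.exp_pos _) ?_
        have h4 : Real.exp 3 = Real.exp 1 ^ 3 := by
          rw [← Real.exp_nat_mul]; norm_num
        rw [h4]
        have h5 := Real.exp_one_lt_d9
        have h6 := Real.exp_pos 1
        calc Real.exp 1 ^ 3 ≤ 3 ^ 3 := pow_le_pow_left₀ h6.le (by linarith) 3
          _ ≤ 4096 := by norm_num
      linarith
    · have h1 := (sharp_graph G k hk h5).2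
      have e : (3 * k + 1 : ℝ) = ((3 * k + 1 : ℕ) : ℝ) := by push_cast; ring
      rw [e, Real.rpow_natCast]
      exact h1
  -- the scale
  obtain ⟨s, hs, hs1, hs2⟩ : ∃ s, 2 ≤ s ∧ 4 ^ (s + 1) + 11 ≤ k ∧ k < 4 ^ (s + 2) + 11 := by
    have hex : ∃ s, k < 4 ^ (s + 2) + 11 := by
      refine ⟨k, ?_⟩
      have : k < 4 ^ k := Nat.lt_pow_self (by norm_num)
      have h2 : 4 ^ k ≤ 4 ^ (k + 2) := Nat.pow_le_pow_right (by norm_num) (by omega)
      omega
    classical
    set s := Nat.find hex with hsdef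
    have hs0 := Nat.find_spec hex
    rw [← hsdef] at hs0
    have hs2 : 2 ≤ s := by
      by_contra hlt
      have : s ≤ 1 := by omega
      have h3 : 4 ^ (s + 2) ≤ 4 ^ 3 := Nat.pow_le_pow_right (by norm_num) (by omega)
      omega
    refine ⟨s, hs2, ?_, hs0⟩
    have h3 := Nat.find_min hex (m := s - 1) (by omega)
    have e : s - 1 + 2 = s + 1 := by omega
    rw [e] at h3
    omega
  have h1 := ladder_exp G k s hk hs hs1
  set N : ℕ := 2 ^ (s.choose 2) with hN
  have hN0 : (0 : ℝ) < N := by rw [hN]; positivity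
  refine red ((3 * k * N + 8) / N) ?_ ?_
  · have e1 : ((3 * k * N + 8) / N : ℝ) = 3 * k + 8 / N := by field_simp
    rw [e1]
    have h2 : 8 / (N : ℝ) ≤ 4096 * Real.exp (-(Real.log k) ^ 2 / 10) := by
      rw [div_le_iff₀ hN0]
      have h3 : Real.log k ≤ (2 * s + 5) * Real.log 2 := by
        have h4 : Real.log k ≤ Real.log ((2 : ℝ) ^ (2 * s + 5)) := by
          refine Real.log_le_log (by linarith) ?_
          have h5 : k ≤ 2 ^ (2 * s + 5) := by
            have e2 : 2 ^ (2 * s + 5) = 2 * 4 ^ (s + 2) := by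
              have : (4 : ℕ) ^ (s + 2) = 2 ^ (2 * (s + 2)) := by rw [pow_mul]; norm_num
              rw [this]
              ring
            have h6 : 4 ^ 4 ≤ 4 ^ (s + 2) := Nat.pow_le_pow_right (by norm_num) (by omega)
            omega
          exact_mod_cast h5
        rw [Real.log_pow] at h4
        push_cast at h4
        exact h4
      have hch : (s.choose 2 : ℝ) = s * (s - 1) / 2 := by
        rw [Nat.cast_choose_two]
      have h4 : (N : ℝ) = Real.exp ((s * (s - 1) / 2) * Real.log 2) := by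
        rw [hN]
        push_cast
        rw [← hch, mul_comm, Real.exp_mul, Real.exp_log (by norm_num), Real.rpow_natCast]
      rw [h4]
      have h5 : (4096 : ℝ) = 8 * Real.exp (9 * Real.log 2) := by
        rw [mul_comm (9 : ℝ), Real.exp_mul, Real.exp_log (by norm_num)]
        norm_num
      rw [h5]
      have h6 : 8 * Real.exp (9 * Real.log 2) * Real.exp (-(Real.log k) ^ 2 / 10) *
          Real.exp ((s * (s - 1) / 2) * Real.log 2) =
          8 * Real.exp (9 * Real.log 2 + -(Real.log k) ^ 2 / 10 +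
            (s * (s - 1) / 2) * Real.log 2) := by
        rw [Real.exp_add, Real.exp_add]
        ring
      rw [h6]
      have h7 : (0 : ℝ) ≤ 9 * Real.log 2 + -(Real.log k) ^ 2 / 10 +
          (s * (s - 1) / 2) * Real.log 2 := by
        have hs' : (2 : ℝ) ≤ s := by exact_mod_cast hs
        have h8 : (Real.log k) ^ 2 ≤ ((2 * s + 5) * Real.log 2) ^ 2 :=
          pow_le_pow_left₀ hl0 h3 2
        have h9 : ((2 * s + 5) * Real.log 2) ^ 2 / 10 ≤
            (9 + s * (s - 1) / 2) * Real.log 2 := by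
          have h10 : ((2 * s + 5) * Real.log 2) ^ 2 / 10 =
              ((2 * s + 5) ^ 2 / 10 * Real.log 2) * Real.log 2 := by ring
          rw [h10]
          refine mul_le_mul_of_nonneg_right ?_ (by linarith)
          have h11 : (2 * (s : ℝ) + 5) ^ 2 / 10 * Real.log 2 ≤ (2 * (s : ℝ) + 5) ^ 2 / 10 * 0.7 :=
            mul_le_mul_of_nonneg_left (by linarith) (by positivity)
          nlinarith [sq_nonneg ((s : ℝ) - 5)]
        linarith
      have h8 := Real.one_le_exp h7
      linarith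
    linarith
  · have e2 : ((3 * k * N + 8) / N : ℝ) = ((3 * k * N + 8 : ℕ) : ℝ) * (1 / N) := by
      push_cast; ring
    rw [e2, Real.rpow_mul hp.le, Real.rpow_natCast]
    have h2 : (edgeDensity G ^ (3 * k * N + 8)) ^ (1 / (N : ℝ)) ≤
        (homDensity (moebiusLadder k) G ^ N) ^ (1 / (N : ℝ)) :=
      Real.rpow_le_rpow (by positivity) h1 (by positivity)
    refine h2.trans (le_of_eq ?_)
    rw [← Real.rpow_natCast, ← Real.rpow_mul (hom_nn G _), mul_one_div_cancel hN0.ne',
      Real.rpow_one]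

end Vale.Agent.P050.M18
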