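import Vale.Agent.P050.M18.Pin2
import Vale.Agent.P050.M18.BouquetDefs
import Vale.Agent.P050.M18.Coro
import Vale.Agent.P050.H180.Glue2

/-!
Moebius ladders and a cube with a common rung: the number of homomorphisms.
-/

set_option linter.unusedSectionVars false

namespace Vale.Agent.P050.M18

open Finset Vale.Agent.P050.Cart Vale.Agent.P050.Join Vale.Agent.P050.H148 Vale.Agent.P050.H180

section weights

variable {X : Type} [Fintype X] [DecidableEq X] {W : X → X → ℝ}
variable {l : X × X → ℝ} {f : X × X → X × X → ℝ}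

/-- the weight of a map from the bouquet -/
def bouqSum (W : X → X → ℝ) (N k : ℕ) [NeZero k] : ℝ :=
  ∑ z : BRung N k → X × X, clos W 4 (fun i => z (Sum.inl i)) *
    ∏ c : Fin N, clos W k (fun i => z (petal N k c i))

theorem bouqSum_eq (h0 : ∀ x y, 0 ≤ W x y) (hL : Eig (lad W) l f) (N k : ℕ) [NeZero k] :
    bouqSum W N k = ∑ y, (∑ i, l i ^ 4 * f i y ^ 2) * (∑ i, l i ^ k * f i y ^ 2) ^ N := by
  classical
  unfold bouqSum
  rw [← (Equiv.sumArrowEquivProdArrow (ZMod 4) (Fin N × {i : ZMod k // i ≠ 0})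
    (X × X)).symm.sum_comp, Fintype.sum_prod_type]
  have h1 : ∀ (a : ZMod 4 → X × X) (b : Fin N × {i : ZMod k // i ≠ 0} → X × X) (c : Fin N),
      (fun i => (Equiv.sumArrowEquivProdArrow (ZMod 4) (Fin N × {i : ZMod k // i ≠ 0})
        (X × X)).symm (a, b) (petal N k c i)) = H180.ext k (a 0) (fun j => b (c, j)) := by
    intro a b c
    funext i
    unfold petal H180.ext
    split_ifs <;> rfl
  have h2 : ∀ (a : ZMod 4 → X × X) (b : Fin N × {i : ZMod k // i ≠ 0} → X × X),
      (fun i => (Equiv.sumArrowEquivProdArrow (ZMod 4) (Fin N × {i : ZMod k // i ≠ 0})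
        (X × X)).symm (a, b) (Sum.inl i)) = a := fun a b => rfl
  simp only [h1, h2]
  have h3 : ∀ a : ZMod 4 → X × X, ∑ b : Fin N × {i : ZMod k // i ≠ 0} → X × X,
      clos W 4 a * ∏ c : Fin N, clos W k (H180.ext k (a 0) (fun j => b (c, j))) =
      (∑ i, l i ^ k * f i (a 0) ^ 2) ^ N * clos W 4 a := by
    intro a
    rw [← mul_sum, mul_comm]
    congr 1
    rw [← (Equiv.curry (Fin N) {i : ZMod k // i ≠ 0} (X × X)).symm.sum_comp]
    have h4 : ∀ b : Fin N → {i : ZMod k // i ≠ 0} → X × X,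
        ∏ c : Fin N, clos W k (H180.ext k (a 0)
          (fun j => (Equiv.curry (Fin N) {i : ZMod k // i ≠ 0} (X × X)).symm b (c, j))) =
        ∏ c : Fin N, clos W k (H180.ext k (a 0) (b c)) := fun b => rfl
    simp only [h4]
    have h5 := Finset.prod_univ_sum (fun _ : Fin N => (univ : Finset
      ({i : ZMod k // i ≠ 0} → X × X)))
      (fun (_ : Fin N) v => clos W k (H180.ext k (a 0) v))
    rw [Fintype.piFinset_univ] at h5
    rw [← h5]
    simp only [ext_sum h0 hL, prod_const, card_univ, Fintype.card_fin]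
  simp only [h3]
  rw [clos_root h0 hL 4 (fun y => (∑ i, l i ^ k * f i y ^ 2) ^ N)]
  exact sum_congr rfl fun y _ => by ring

end weights

section pinned

variable {X : Type} [Fintype X] [DecidableEq X] (G : SimpleGraph X)
variable {l : X × X → ℝ} {f : X × X → X × X → ℝ}

theorem pw_pin (hL : Eig (lad (adj G)) l f) (m n : ℕ) (R : X × X) :
    ∑ e, pw (adj G) m R e * pw (adj G) n R e = ∑ i, l i ^ (m + n) * f i R ^ 2 := by
  have h2 : ∀ e, pw (adj G) m R e * pw (adj G) n R e =
      ∑ i, l i ^ m * f i R * (f i e * pw (adj G) n R e) := by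
    intro e
    rw [pw_eig hL m, Finset.sum_mul]
    exact Finset.sum_congr rfl fun i _ => by ring
  simp only [h2]
  rw [Finset.sum_comm]
  simp only [← Finset.mul_sum, pw_coef hL]
  exact Finset.sum_congr rfl fun i _ => by ring

theorem prR_eq (hL : Eig (lad (adj G)) l f) (n : ℕ) (R : X × X) :
    prR (CG G) n R = ∑ i, l i ^ (2 * n) * f i R ^ 2 := by
  unfold prR
  have h1 : ∑ e, zp (CG G) n R e ^ 2 = ∑ e, pw (adj G) n R e * pw (adj G) n R e := by
    rw [← (sgE n).sum_comp (fun e => pw (adj G) n R e * pw (adj G) n R e)]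
    refine Finset.sum_congr rfl fun e _ => ?_
    have e' : (sgE n) e = sg n e := rfl
    rw [e', zp_pw, sq]
  rw [h1, pw_pin G hL, two_mul]

theorem twR_eq (hL : Eig (lad (adj G)) l f) (n : ℕ) (R : X × X) :
    twR (CG G) n R = ∑ i, l i ^ (2 * n + 1) * f i R ^ 2 := by
  unfold twR
  rw [Fintype.sum_prod_type]
  have h1 : ∑ e, ∑ e', zp (CG G) n R e * CG G e e'.swap * zp (CG G) n R e' =
      ∑ e', pw (adj G) (n + 1) R e' * pw (adj G) n R e' := by
    have h2 : ∀ e', pw (adj G) (n + 1) R e' * pw (adj G) n R e' =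
        ∑ e, pw (adj G) n R e * lad (adj G) e e' * pw (adj G) n R e' := by
      intro e'
      show (∑ e, pw (adj G) n R e * lad (adj G) e e') * pw (adj G) n R e' = _
      rw [Finset.sum_mul]
    simp only [h2]
    conv_rhs => rw [Finset.sum_comm]
    rw [← (sgE n).sum_comp (fun e => ∑ e', pw (adj G) n R e * lad (adj G) e e' *
      pw (adj G) n R e')]
    refine Finset.sum_congr rfl fun e _ => ?_
    rw [← (sgE n).sum_comp (fun e' => pw (adj G) n R ((sgE n) e) * lad (adj G) ((sgE n) e) e' *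
      pw (adj G) n R e')]
    refine Finset.sum_congr rfl fun e' _ => ?_
    have i1 : (sgE n) e = sg n e := rfl
    have i2 : (sgE n) e' = sg n e' := rfl
    rw [i1, i2, lad_sg, zp_pw, zp_pw, lad_CG]
  rw [h1, pw_pin G hL]
  refine Finset.sum_congr rfl fun i _ => ?_
  congr 2
  ring

theorem bouq_pin (N m : ℕ) [NeZero (2 * m + 1)] :
    bouqSum (adj G) N (2 * m + 1) = ∑ R, twR (CG G) m R ^ N * prR (CG G) 2 R := by
  obtain ⟨l, f, hL⟩ := exists_eig (lad (adj G)) (lad_symm (adj G))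
  rw [bouqSum_eq (adj_nn G) hL]
  refine Finset.sum_congr rfl fun R _ => ?_
  rw [twR_eq G hL, prR_eq G hL]
  ring

end pinned

section graph

variable {X : Type} [Fintype X]

/-- homomorphisms from the bouquet -/
def bouqEquiv (G : SimpleGraph X) (N k : ℕ) :
    (bouquet N k →g G) ≃ {z : BRung N k → X × X // Walk G 4 (fun i => z (Sum.inl i)) ∧
      ∀ c, Walk G k (fun i => z (petal N k c i))} where
  toFun φ := ⟨fun r => (φ (r, false), φ (r, true)),
    fun i => ⟨φ.map_rel (Or.inl ⟨(i, false), (i, true), ⟨by simp, Or.inl rfl⟩, rfl, rfl⟩),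
      φ.map_rel (Or.inl ⟨(i, false), (i + 1, true), ⟨by simp, Or.inr (Or.inr rfl)⟩, rfl, rfl⟩),
      φ.map_rel (Or.inl ⟨(i + 1, false), (i, true), ⟨by simp, Or.inr (Or.inl rfl)⟩, rfl, rfl⟩)⟩,
    fun c i => ⟨φ.map_rel (Or.inr ⟨c, (i, false), (i, true), ⟨by simp, Or.inl rfl⟩, rfl, rfl⟩),
      φ.map_rel (Or.inr ⟨c, (i, false), (i + 1, true), ⟨by simp, Or.inr (Or.inr rfl)⟩, rfl, rfl⟩),
      φ.map_rel (Or.inr ⟨c, (i + 1, false), (i, true), ⟨by simp, Or.inr (Or.inl rfl)⟩, rfl,
        rfl⟩)⟩⟩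
  invFun z := ⟨fun v => side (z.1 v.1) v.2, by
    rintro u v (⟨a, b, hab, rfl, rfl⟩ | ⟨c, a, b, hab, rfl, rfl⟩)
    · exact walk_adj z.2.1 hab
    · exact walk_adj (z.2.2 c) hab⟩
  left_inv φ := by
    ext ⟨r, a⟩
    cases a <;> rfl
  right_inv z := by
    apply Subtype.ext
    rfl

theorem bouq_card (N k : ℕ) [NeZero k] :
    Nat.card (BRung N k × Bool) = 8 + 2 * N * (k - 1) := by
  have h1 : Nat.card {i : ZMod k // i ≠ 0} = k - 1 := by
    rw [Nat.card_eq_fintype_card, Fintype.card_subtype_compl, Fintype.card_subtype_eq, ZMod.card]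
  rw [Nat.card_prod, Nat.card_sum, Nat.card_prod, h1, Nat.card_zmod, Nat.card_eq_fintype_card,
    Nat.card_eq_fintype_card, Fintype.card_bool, Fintype.card_fin]
  ring

theorem bouq_count [DecidableEq X] (G : SimpleGraph X) (N k : ℕ) [NeZero k] :
    (Nat.card (bouquet N k →g G) : ℝ) = bouqSum (adj G) N k := by
  classical
  rw [Nat.card_congr (bouqEquiv G N k), Nat.card_eq_fintype_card, Fintype.card_subtype,
    card_eq_sum_ones, sum_filter]
  push_cast
  unfold bouqSum
  refine sum_congr rfl fun z _ => ?_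
  simp only [clos_walk, prod_ite_zero]
  by_cases a : Walk G 4 (fun i => z (Sum.inl i)) <;>
    by_cases b : ∀ c, Walk G k (fun i => z (petal N k c i)) <;>
    simp [a, b]

theorem bouq_num [Nonempty X] [DecidableEq X] (G : SimpleGraph X) (N m : ℕ) :
    ∑ R, twR (CG G) m R ^ N * prR (CG G) 2 R =
      homDensity (bouquet N (2 * m + 1)) G * (Fintype.card X : ℝ) ^ (8 + 4 * N * m) := by
  have : NeZero (2 * m + 1) := ⟨by omega⟩
  have hn := card_pos' (X := X)
  rw [← bouq_pin, ← bouq_count]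
  unfold homDensity
  rw [bouq_card]
  have e : 8 + 2 * N * (2 * m + 1 - 1) = 8 + 4 * N * m := by
    rw [Nat.add_sub_cancel]
    ring
  rw [e, Nat.card_eq_fintype_card (α := X)]
  field_simp

end graph

end Vale.Agent.P050.M18
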