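import Vale.Agent.P050.M18.Bouquet

/-!
Moebius ladders and a cube with a common rung: homomorphism densities.
-/

set_option linter.unusedSectionVars false

namespace Vale.Agent.P050.M18

open Finset Vale.Agent.P050.Cart Vale.Agent.P050.Join Vale.Agent.P050.H148 Vale.Agent.P050.H180

/-- the graph of the cube is the ladder with four rungs -/
theorem cube_iso : Nonempty (moebiusLadder 4 ≃g
    (SimpleGraph.cycleGraph 4).boxProd (⊤ : SimpleGraph Bool)) := prism_iso 2 ⟨1, rfl⟩

variable {X : Type} [Fintype X] [Nonempty X] (G : SimpleGraph X)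

/-- the inequality between logarithms -/
theorem bouq_log (hp : 0 < edgeDensity G) (t m N : ℕ) (hN : N = 2 ^ ((t + 2).choose 2))
    (hm : 8 * 4 ^ (t + 1) + 5 ≤ m) :
    48 * Real.log (edgeDensity G) + 3 * (2 * m + 1) * N *
      Real.log (homDensity (SimpleGraph.cycleGraph 4) G) ≤
    4 * Real.log (homDensity (bouquet N (2 * m + 1)) G) + 4 * N * Real.log (edgeDensity G) ∧
    0 < homDensity (SimpleGraph.cycleGraph 4) G ∧
    0 < homDensity (bouquet N (2 * m + 1)) G := by
  classical
  have hG := exists_adj G hp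
  have hn := card_pos' (X := X)
  obtain ⟨i, j, hij, hi, h1, h2⟩ := main_pin G hG t m N hN hm
  have h4 := tot_pos G hG
  rw [tot_num] at h4 h1
  rw [bouq_num] at h2 h1
  rw [adj_sum'] at h1
  have hC : 0 < homDensity (SimpleGraph.cycleGraph 4) G := by
    rcases (hom_nn G (SimpleGraph.cycleGraph 4)).lt_or_eq with h | h
    · exact h
    · rw [← h, zero_mul] at h4; exact absurd h4 (lt_irrefl _)
  have hB : 0 < homDensity (bouquet N (2 * m + 1)) G := by
    rcases (hom_nn G (bouquet N (2 * m + 1))).lt_or_eq with h | h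
    · exact h
    · rw [← h, zero_mul] at h2; exact absurd h2 (lt_irrefl _)
  refine ⟨?_, hC, hB⟩
  rw [Real.log_mul hp.ne' (by positivity), Real.log_mul hC.ne' (by positivity),
    Real.log_mul hB.ne' (by positivity), Real.log_pow, Real.log_pow, Real.log_pow] at h1
  have h5 : 4 * Real.log (edgeDensity G) ≤ Real.log (homDensity (SimpleGraph.cycleGraph 4) G) := by
    have h6 := Real.log_le_log (by positivity) (four_ge G)
    rw [Real.log_pow] at h6
    push_cast at h6
    exact h6
  push_cast at h1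
  set lp := Real.log (edgeDensity G) with hlp
  set lC := Real.log (homDensity (SimpleGraph.cycleGraph 4) G) with hlC
  set lB := Real.log (homDensity (bouquet N (2 * m + 1)) G) with hlB
  set ℓ := Real.log (Fintype.card X) with hℓ
  have hD0 : (0 : ℝ) ≤ N := Nat.cast_nonneg N
  have hmij : (m : ℝ) = i + 1 + j := by exact_mod_cast hij
  have hi' : (4 * i + 9 : ℝ) ≤ m := by exact_mod_cast hi
  -- `8 j ≥ 3 (2 m + 1)`
  have h7 : 0 ≤ (8 * j - 3 * (2 * m + 1) : ℝ) * (N * (lC - 4 * lp)) := by
    refine mul_nonneg ?_ (mul_nonneg hD0 (by linarith))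
    linarith
  rw [hmij] at h7 h1 ⊢
  nlinarith [h1, h7]

/-- the bouquet and 4-cycles -/
theorem bouq_four (k s : ℕ) (hk : Odd k) (hs : 2 ≤ s) (h : 4 ^ (s + 1) + 11 ≤ k) :
    edgeDensity G ^ 48 * homDensity (SimpleGraph.cycleGraph 4) G ^ (3 * k * 2 ^ (s.choose 2)) ≤
      edgeDensity G ^ (4 * 2 ^ (s.choose 2)) *
        homDensity (bouquet (2 ^ (s.choose 2)) k) G ^ 4 := by
  obtain ⟨m, rfl⟩ := hk
  obtain ⟨t, rfl⟩ : ∃ t, s = t + 2 := ⟨s - 2, by omega⟩
  have hm : 8 * 4 ^ (t + 1) + 5 ≤ m := by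
    have e : 4 ^ (t + 2 + 1) = 16 * 4 ^ (t + 1) := by ring
    rw [e] at h
    omega
  obtain ⟨N, hN⟩ : ∃ N, N = 2 ^ ((t + 2).choose 2) := ⟨_, rfl⟩
  rw [← hN]
  rcases (edge_nn G).lt_or_eq with hp | hp
  · obtain ⟨h1, h2, h3⟩ := bouq_log G hp t m N hN hm
    rw [← Real.log_le_log_iff (by positivity) (by positivity),
      Real.log_mul (by positivity) (by positivity), Real.log_mul (by positivity) (by positivity),
      Real.log_pow, Real.log_pow, Real.log_pow, Real.log_pow]
    push_cast
    linarith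
  · have h3 := hom_nn G (bouquet N (2 * m + 1))
    have h4 := edge_nn G
    have : edgeDensity G ^ 48 * homDensity (SimpleGraph.cycleGraph 4) G ^
        (3 * (2 * m + 1) * N) = 0 := by rw [← hp]; norm_num
    rw [this]
    positivity

/-- the bouquet satisfies Sidorenko's inequality -/
theorem bouq_sidorenko (k s : ℕ) (hk : Odd k) (hs : 2 ≤ s) (h : 4 ^ (s + 1) + 11 ≤ k) :
    edgeDensity G ^ (12 + 2 ^ (s.choose 2) * (3 * k - 1)) ≤
      homDensity (bouquet (2 ^ (s.choose 2)) k) G := by
  have h1 := bouq_four G k s hk hs h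
  obtain ⟨N, hN⟩ : ∃ N, N = 2 ^ (s.choose 2) := ⟨_, rfl⟩
  rw [← hN] at h1 ⊢
  rcases (edge_nn G).lt_or_eq with hp | hp
  · have h2 := pow_le_pow_left₀ (by positivity) (four_ge G) (3 * k * N)
    have h3 : edgeDensity G ^ (4 * N) * (edgeDensity G ^ (12 + N * (3 * k - 1))) ^ 4 ≤
        edgeDensity G ^ (4 * N) * homDensity (bouquet N k) G ^ 4 := by
      calc edgeDensity G ^ (4 * N) * (edgeDensity G ^ (12 + N * (3 * k - 1))) ^ 4
          = edgeDensity G ^ 48 * (edgeDensity G ^ 4) ^ (3 * k * N) := by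
            rw [← pow_mul, ← pow_mul, ← pow_add, ← pow_add]
            congr 1
            obtain ⟨q, hq⟩ : ∃ q, 3 * k = q + 1 := ⟨3 * k - 1, by have := hk.pos; omega⟩
            rw [hq, Nat.add_sub_cancel]
            ring
        _ ≤ edgeDensity G ^ 48 * homDensity (SimpleGraph.cycleGraph 4) G ^ (3 * k * N) :=
            mul_le_mul_of_nonneg_left h2 (by positivity)
        _ ≤ _ := h1
    exact le_of_pow_le_pow_left₀ (by norm_num) (hom_nn G _)
      (le_of_mul_le_mul_left h3 (by positivity))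
  · rw [← hp, zero_pow (by omega)]
    exact hom_nn G _

end Vale.Agent.P050.M18
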