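import Vale.Agent.P050.M18.Step

/-!
The law of the two ends of the chain.
-/

set_option linter.unusedSectionVars false

namespace Vale.Agent.P050.M18

open Finset Vale.Agent.P050.Cart Vale.Agent.P050.Join

section zp

variable {E : Type} [Fintype E] [DecidableEq E]

theorem zp_one (C : E → E → ℝ) (a b : E) : zp C 1 a b = C a b := by
  show ∑ c, (if a = c then (1 : ℝ) else 0) * C c b = _
  simp

theorem zp_add (C : E → E → ℝ) (m n : ℕ) (a b : E) :
    zp C (m + n) a b = ∑ c, zp C m a c * zp C n c b := by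
  induction n generalizing b with
  | zero =>
    show zp C m a b = ∑ c, zp C m a c * (if c = b then (1 : ℝ) else 0)
    simp
  | succ n ih =>
    show ∑ c, zp C (m + n) a c * C c b = ∑ c, zp C m a c * ∑ d, zp C n c d * C d b
    simp only [ih, Finset.sum_mul, Finset.mul_sum]
    rw [Finset.sum_comm]
    refine Finset.sum_congr rfl fun c _ => Finset.sum_congr rfl fun d _ => by ring

theorem zp_left (C : E → E → ℝ) (n : ℕ) (a b : E) :
    zp C (n + 1) a b = ∑ c, C a c * zp C n c b := by
  rw [add_comm, zp_add]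
  simp only [zp_one]

end zp

variable {U ρ : Type} [Fintype U] [Fintype ρ]

section nx

variable {Q : U × U → ℝ} {F : ρ × (U × U) → ℝ} (h : Lab Q F) (hE : Edge Q)
include h hE

theorem A2_eq : A2 Q F = att (A1 Q F) (fun x => (x.1.2.1, x.2)) (kap Q) := by
  have e1 : ker (A1 Q F) (fun x => (x.1.2.1, x.2)) (fun x => x.1.2.2) = kap Q := by
    funext d u
    unfold kap ker
    have h1 := h.A1_of_C3 hE (fun y => (y.1.1, y.2))
    have h2 := h.A1_of_C3 hE (fun y => ((y.1.1, y.2), y.1.2))
    rw [← h1, ← h2]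
  unfold A2 cop
  rw [e1]

theorem nx_sum (G : ρ × (U × U) → ℝ) : ∑ x, nx Q F x * G x =
    ∑ R, ∑ e, F (R, e) * ∑ e', kk Q e e' * G (R, e') := by
  have e0 : ∑ x, nx Q F x * G x = ∑ x, A2 Q F x * G (x.1.1.1, (x.2, x.1.2)) :=
    sum_mar (A2 Q F) (fun x => (x.1.1.1, (x.2, x.1.2))) G
  have e1 : ∀ y : (ρ × (U × U)) × U, A1 Q F y * ∑ b, kap Q (y.1.2.1, y.2) b * G (y.1.1, (b, y.2)) =
      att F (fun x => x.2.2) (nb Q) y *
        (fun y : (ρ × (U × U)) × U => ∑ b, kap Q (y.1.2.1, y.2) b * G (y.1.1, (b, y.2))) y :=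
    fun y => rfl
  rw [e0, A2_eq h hE, sum_att]
  simp only
  rw [Finset.sum_congr rfl fun y _ => e1 y, sum_att, Fintype.sum_prod_type]
  refine Finset.sum_congr rfl fun R _ => Finset.sum_congr rfl fun e _ => ?_
  congr 1
  rw [Fintype.sum_prod_type, Finset.sum_comm]
  refine Finset.sum_congr rfl fun f' _ => ?_
  simp only
  rw [Finset.mul_sum]
  refine Finset.sum_congr rfl fun s' _ => ?_
  unfold kk
  ring

theorem nx_apply (R : ρ) (e' : U × U) : nx Q F (R, e') = ∑ e, F (R, e) * kk Q e e' := by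
  classical
  have h1 := nx_sum h hE (fun x => if x = (R, e') then 1 else 0)
  simp only [mul_ite, mul_one, mul_zero, Finset.sum_ite_eq', mem_univ, if_true] at h1
  rw [h1, Finset.sum_eq_single R]
  · refine Finset.sum_congr rfl fun e _ => ?_
    congr 1
    rw [Finset.sum_eq_single e']
    · simp
    · intro e'' _ he
      rw [if_neg]
      simp only [Prod.mk.injEq, true_and]
      exact he
    · intro hn; exact absurd (mem_univ _) hn
  · intro R' _ hR
    refine Finset.sum_eq_zero fun e _ => ?_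
    rw [Finset.sum_eq_zero, mul_zero]
    intro e'' _
    rw [if_neg]
    simp only [Prod.mk.injEq, not_and]
    exact fun hh => absurd hh hR
  · intro hn; exact absurd (mem_univ _) hn

end nx

/-- the law of the two ends of a chain of length `n` -/
noncomputable def PP (Q : U × U → ℝ) : ℕ → (U × U) × (U × U) → ℝ
  | 0 => mar Q (fun e => (e, e))
  | n + 1 => nx Q (PP Q n)

variable {Q : U × U → ℝ} (hE : Edge Q)
include hE

theorem PP_lab (n : ℕ) : Lab Q (PP Q n) := by
  induction n with
  | zero =>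
    refine ⟨mar_nonneg hE.nn _, ?_⟩
    funext a
    show mar (mar Q (fun e => (e, e))) (fun x => x.2) a = _
    rw [mar_mar, mar_id]
  | succ n ih => exact ih.nx_lab hE

theorem PP_apply [DecidableEq U] (n : ℕ) (R e : U × U) : PP Q n (R, e) = Q R * zp (kk Q) n R e := by
  classical
  induction n generalizing e with
  | zero =>
    show mar Q (fun e => (e, e)) (R, e) = Q R * (if R = e then 1 else 0)
    unfold mar
    by_cases hRe : R = e
    · subst hRe
      rw [if_pos rfl, mul_one, Finset.sum_eq_single R]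
      · simp
      · intro e' _ he
        rw [if_neg]
        simp only [Prod.mk.injEq, and_self]
        exact he
      · intro hn; exact absurd (mem_univ _) hn
    · rw [if_neg hRe, mul_zero]
      refine Finset.sum_eq_zero fun e' _ => ?_
      rw [if_neg]
      simp only [Prod.mk.injEq, not_and]
      rintro rfl; exact hRe
  | succ n ih =>
    show nx Q (PP Q n) (R, e) = Q R * ∑ c, zp (kk Q) n R c * kk Q c e
    rw [nx_apply (PP_lab hE n) hE, Finset.mul_sum]
    refine Finset.sum_congr rfl fun c _ => ?_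
    rw [ih]; ring

/-- reversibility -/
theorem zp_rev [DecidableEq U] (n : ℕ) (a b : U × U) :
    Q a * zp (kk Q) n a b = Q b * zp (kk Q) n b.swap a.swap := by
  induction n generalizing b with
  | zero =>
    show Q a * (if a = b then 1 else 0) = Q b * (if b.swap = a.swap then 1 else 0)
    by_cases hab : a = b
    · rw [hab, if_pos rfl, if_pos rfl]
    · rw [if_neg hab, if_neg]
      · simp
      · intro hh
        exact hab (Prod.swap_injective hh).symm
  | succ n ih =>
    have e1 : Q a * zp (kk Q) (n + 1) a b = ∑ c, Q a * zp (kk Q) n a c * kk Q c b := by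
      show Q a * ∑ c, zp (kk Q) n a c * kk Q c b = _
      rw [Finset.mul_sum]
      exact Finset.sum_congr rfl fun c _ => by ring
    rw [e1, zp_left, Finset.mul_sum]
    rw [← (Equiv.prodComm U U).sum_comp]
    refine Finset.sum_congr rfl fun c _ => ?_
    have e2 : (Equiv.prodComm U U) c = c.swap := rfl
    rw [e2, ih c.swap, hE.Q_sw c]
    have h1 := hE.kk_rev c.swap b
    rw [Prod.swap_swap, hE.Q_sw] at h1
    rw [Prod.swap_swap]
    have e3 : Q c * zp (kk Q) n c a.swap * kk Q c.swap b =
        (Q c * kk Q c.swap b) * zp (kk Q) n c a.swap := by ring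
    rw [e3, h1]
    ring

theorem PP_fst [DecidableEq U] (n : ℕ) : mar (PP Q n) (fun x => x.1) = Q := by
  funext R
  have h1 : mar (PP Q n) (fun x => x.1) R = ∑ e, PP Q n (R, e) := mar_prod_fst _ _
  have h2 : Q R.swap = ∑ e, PP Q n (e, R.swap) := by
    rw [← mar_prod_snd]
    exact (congrFun (PP_lab hE n).snd R.swap).symm
  rw [h1, ← hE.Q_sw R, h2, ← (Equiv.prodComm U U).sum_comp]
  refine Finset.sum_congr rfl fun e _ => ?_
  have e2 : (Equiv.prodComm U U) e = e.swap := rfl
  rw [e2, PP_apply hE, PP_apply hE, zp_rev hE, Prod.swap_swap, hE.Q_sw e]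

/-- entropy of the two ends -/
noncomputable def hP (Q : U × U → ℝ) (n : ℕ) : ℝ := ent (PP Q n) (fun x => x)

/-- entropy of the first end and the second vertex of the second end -/
noncomputable def hB (Q : U × U → ℝ) (n : ℕ) : ℝ := ent (PP Q n) (fun x => (x.1, x.2.2))

theorem PP_label [DecidableEq U] (n : ℕ) : ent (PP Q n) (fun x => x.1) = hQ Q := by
  unfold hQ ent
  rw [PP_fst hE]
  simp_rw [mar_id]

theorem hP_zero : hP Q 0 = hQ Q := by
  unfold hP
  show ent (mar Q (fun e => (e, e))) (fun x => x) = _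
  rw [ent_mar]
  exact ent_same _ fun x y => by
    simp only [Prod.mk.injEq, and_self]

theorem hP_mono (n : ℕ) : hP Q n ≤ hP Q (n + 1) := (PP_lab hE n).ent_le_nx hE

theorem hP_mono' {m n : ℕ} (hmn : m ≤ n) : hP Q m ≤ hP Q n := by
  induction n, hmn using Nat.le_induction with
  | base => exact le_rfl
  | succ n _ ih => exact ih.trans (hP_mono hE n)

/-- the first step -/
theorem hP_one : hP Q 1 = hQ Q + gQ Q := by
  have h1 := (PP_lab hE 0).A2_ent_all hE
  have h2 := hP_zero hE
  unfold hP at h2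
  rw [h2] at h1
  rw [← h1]
  show ent (nx Q (PP Q 0)) (fun x => x) = _
  rw [(PP_lab hE 0).nx_ent hE]
  -- on the support the label is the first edge
  have hsup : ∀ x, A2 Q (PP Q 0) x ≠ 0 → x.1.1.1 = x.1.1.2 := by
    intro x hx
    classical
    have h3 : PP Q 0 x.1.1 ≠ 0 := by
      unfold A2 cop att A1 at hx
      exact left_ne_zero_of_mul (left_ne_zero_of_mul hx)
    have h4 : PP Q 0 x.1.1 = mar Q (fun e => (e, e)) x.1.1 := rfl
    rw [h4] at h3
    unfold mar at h3
    obtain ⟨ω, -, hω⟩ := Finset.exists_ne_zero_of_sum_ne_zero h3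
    have h5 : (ω, ω) = x.1.1 := by
      by_contra hh
      rw [if_neg hh] at hω
      exact hω rfl
    rw [← h5]
  rw [ent_eq, ent_eq]
  congr 1
  refine Finset.sum_congr rfl fun x _ => ?_
  by_cases h0 : A2 Q (PP Q 0) x = 0
  · rw [h0]; ring
  congr 2
  classical
  unfold mar
  refine Finset.sum_congr rfl fun y _ => ?_
  by_cases h3 : A2 Q (PP Q 0) y = 0
  · rw [h3]; simp
  have h4 := hsup x h0
  have h5 := hsup y h3
  have h6 : ((y.1.1.1, (y.2, y.1.2)) = (x.1.1.1, (x.2, x.1.2))) ↔
      ((y.1.1, (y.2, y.1.2)) = (x.1.1, (x.2, x.1.2))) := by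
    simp only [Prod.ext_iff] at h4 h5 ⊢
    constructor
    · rintro ⟨a, b⟩
      refine ⟨⟨a, ?_⟩, b⟩
      rw [← h4.1, ← h4.2, ← h5.1, ← h5.2]
      exact a
    · rintro ⟨a, b⟩
      exact ⟨a.1, b⟩
  by_cases h7 : ((y.1.1.1, (y.2, y.1.2)) = (x.1.1.1, (x.2, x.1.2)))
  · rw [if_pos h7, if_pos (h6.1 h7)]
  · rw [if_neg h7, if_neg (fun h8 => h7 (h6.2 h8))]

end Vale.Agent.P050.M18
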