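import Vale.Agent.P050.M18.State

/-!
Closing two walks of length `n` to a Moebius ladder or to a prism.
-/

set_option linter.unusedSectionVars false

namespace Vale.Agent.P050.M18

open Finset Vale.Agent.P050.Cart Vale.Agent.P050.Join

variable {U : Type} [Fintype U] [DecidableEq U]

/-- the number of Moebius ladders with `2 n + 1` rungs -/
def tw (C : U × U → U × U → ℝ) (n : ℕ) : ℝ :=
  ∑ R, ∑ e, ∑ e', zp C n R e * C e e'.swap * zp C n R e'

/-- the number of prisms with `2 n` rungs -/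
def pr (C : U × U → U × U → ℝ) (n : ℕ) : ℝ := ∑ R, ∑ e, zp C n R e ^ 2

variable {C : U × U → U × U → ℝ} {Q : U × U → ℝ} (hE : Edge Q) (hC : Four C Q)
include hE hC

theorem St.prism {n : ℕ} {F : (U × U) × (U × U) → ℝ} {v : ℝ} (h : St C Q n F v) :
    0 < pr C n ∧ 2 * v - ent F (fun x => x) ≤ Real.log (pr C n) := by
  have hl := h.lab
  have key := ent_log_sum hl.nn (hl.tot hE) (fun x => x) (fun x => zp C n x.1 x.2 ^ 2)
    (fun x => sq_nonneg _) (fun x hx => pow_ne_zero 2 (h.sup x hx))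
  have e1 : ∑ x : (U × U) × (U × U), zp C n x.1 x.2 ^ 2 = pr C n := by
    rw [Fintype.sum_prod_type]
    rfl
  rw [e1] at key
  refine ⟨key.1, ?_⟩
  have h2 := key.2
  have h3 := h.va
  unfold val at h3
  have e2 : ∑ x, F x * Real.log (zp C n x.1 x.2 ^ 2) =
      2 * ∑ x, F x * Real.log (zp C n x.1 x.2) := by
    rw [Finset.mul_sum]
    refine Finset.sum_congr rfl fun x _ => ?_
    rw [Real.log_pow]
    push_cast
    ring
  have e3 : ent F (fun x => (x.1, x.2)) = ent F (fun x => x) := rfl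
  rw [e2] at h2
  rw [e3] at h3
  linarith

theorem St.twist {n : ℕ} {F : (U × U) × (U × U) → ℝ} {v : ℝ} (h : St C Q n F v) :
    0 < tw C n ∧ 2 * v + 2 * ent F (fun x => x) - 3 * hQ Q - 4 * aQ Q ≤ Real.log (tw C n) := by
  have hl := h.lab
  have hF0 := hl.nn
  have hF1 := hl.tot hE
  set P1 := cop F (fun x => (x.1, x.2.1)) (fun x => x.2.2) with hP1
  have p0 : ∀ x, 0 ≤ P1 x := cop_nonneg hF0 _ _
  have p1 : ∑ x, P1 x = 1 := cop_total hF0 _ _ hF1
  set P2 := cop P1 (fun x => (x.1.1, x.1.2.2, x.2)) (fun x => x.1.2.1) with hP2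
  have q0 : ∀ x, 0 ≤ P2 x := cop_nonneg p0 _ _
  have q1 : ∑ x, P2 x = 1 := cop_total p0 _ _ p1
  -- the law of the second walk
  have l1 : mar P1 (fun x => ((x.1.1, x.1.2.1), x.2)) = mar F (fun x => ((x.1, x.2.1), x.2.2)) :=
    cop_law hF0 _ _
  have l2 : mar P2 (fun x => ((x.1.1.1, x.1.1.2.2, x.1.2), x.2)) =
      mar P1 (fun x => ((x.1.1, x.1.2.2, x.2), x.1.2.1)) := cop_law p0 _ _
  have l3 : mar P2 (fun x => (x.1.1.1, (x.2, x.1.2))) = F := by
    have e1 : mar P2 (fun x => (x.1.1.1, (x.2, x.1.2))) =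
        mar (mar P2 (fun x => ((x.1.1.1, x.1.1.2.2, x.1.2), x.2)))
          (fun y => (y.1.1, (y.2, y.1.2.2))) := by
      funext a
      rw [mar_mar]
    have e2 : mar (mar P1 (fun x => ((x.1.1, x.1.2.2, x.2), x.1.2.1)))
          (fun y => (y.1.1, (y.2, y.1.2.2))) =
        mar (mar P1 (fun x => ((x.1.1, x.1.2.1), x.2))) (fun y => (y.1.1, (y.1.2, y.2))) := by
      funext a
      rw [mar_mar, mar_mar]
    have e3 : mar (mar F (fun x => ((x.1, x.2.1), x.2.2))) (fun y => (y.1.1, (y.1.2, y.2))) = F := by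
      funext a
      rw [mar_mar]
      have : (fun x : (U × U) × (U × U) => (x.1, (x.2.1, x.2.2))) = fun x => x := rfl
      exact mar_id F a
    rw [e1, l2, e2, l1, e3]
  have l4 : mar P2 (fun x => x.1.1) = F := by
    have h1 : mar P2 (fun x => x.1.1) = mar P1 (fun x => x.1) := cop_fst p0 _ _ (fun x => x.1)
    have h2 : mar P1 (fun x => x.1) = mar F (fun x => x) := cop_fst hF0 _ _ (fun x => x)
    rw [h1, h2]
    funext a
    exact mar_id F a
  -- the support
  have sup1 : ∀ x, P2 x ≠ 0 → F x.1.1 ≠ 0 ∧ F (x.1.1.1, (x.2, x.1.2)) ≠ 0 ∧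
      Q (x.1.1.2.1, x.1.2) ≠ 0 ∧ Q (x.2, x.1.1.2.2) ≠ 0 := by
    intro x hx
    obtain ⟨h1, ω, h2, h3, h4⟩ := cop_ne_zero p0 _ _ hx
    obtain ⟨h5, ω', h6, h7, h8⟩ := cop_ne_zero hF0 _ _ h1
    obtain ⟨h9, -⟩ := cop_ne_zero hF0 _ _ h2
    refine ⟨h5, ?_, ?_, ?_⟩
    · have := mar_ne_zero q0 (fun x => (x.1.1.1, (x.2, x.1.2))) hx
      rw [l3] at this
      exact this
    · have h10 := hl.ne_zero hE h6
      simp only [Prod.mk.injEq] at h7
      have h11 : ω'.2 = (x.1.1.2.1, x.1.2) := Prod.ext h7.2 h8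
      rw [h11] at h10
      exact h10
    · have h10 := hl.ne_zero hE h9
      simp only [Prod.mk.injEq] at h3
      have h11 : ω.1.2 = (x.2, x.1.1.2.2) := Prod.ext h4 h3.2.1
      rw [h11] at h10
      exact h10
  have sup2 : ∀ x, P2 x ≠ 0 → C x.1.1.2 (x.1.2, x.2) = 1 := by
    intro x hx
    obtain ⟨h1, h2, h3, h4⟩ := sup1 x hx
    have h5 := hl.ne_zero hE h1
    have h6 := hl.ne_zero hE h2
    rw [hE.sym] at h4 h6
    exact hC.c1 x.1.1.2.1 x.1.1.2.2 x.2 x.1.2 h5 h4 h3 h6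
  -- the inequality between the entropy and the number
  have key := ent_log_sum q0 q1 (fun x => (x.1.1.1, x.1.1.2, (x.2, x.1.2)))
    (fun y : (U × U) × (U × U) × (U × U) => zp C n y.1 y.2.1 * C y.2.1 y.2.2.swap *
      zp C n y.1 y.2.2)
    (fun y => mul_nonneg (mul_nonneg (zp_nonneg hC.c0 _ _ _) (hC.c0 _ _)) (zp_nonneg hC.c0 _ _ _))
    (fun x hx => by
      obtain ⟨h1, h2, -⟩ := sup1 x hx
      have h5 := sup2 x hx
      refine mul_ne_zero (mul_ne_zero (h.sup _ h1) ?_) (h.sup _ h2)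
      have h6 : C x.1.1.2 (x.2, x.1.2).swap = 1 := h5
      rw [h6]
      exact one_ne_zero)
  have e1 : ∑ y : (U × U) × (U × U) × (U × U), zp C n y.1 y.2.1 * C y.2.1 y.2.2.swap *
      zp C n y.1 y.2.2 = tw C n := by
    rw [Fintype.sum_prod_type]
    refine Finset.sum_congr rfl fun R _ => ?_
    rw [Fintype.sum_prod_type]
  rw [e1] at key
  refine ⟨key.1, ?_⟩
  have h2 := key.2
  have e2 : ∑ x, P2 x * Real.log (zp C n x.1.1.1 x.1.1.2 * C x.1.1.2 (x.2, x.1.2).swap *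
      zp C n x.1.1.1 (x.2, x.1.2)) = 2 * ∑ x, F x * Real.log (zp C n x.1 x.2) := by
    have e3 : ∀ x, P2 x * Real.log (zp C n x.1.1.1 x.1.1.2 * C x.1.1.2 (x.2, x.1.2).swap *
        zp C n x.1.1.1 (x.2, x.1.2)) = P2 x * Real.log (zp C n x.1.1.1 x.1.1.2) +
        P2 x * Real.log (zp C n x.1.1.1 (x.2, x.1.2)) := by
      intro x
      by_cases hx : P2 x = 0
      · rw [hx]; ring
      obtain ⟨h1, h2, -⟩ := sup1 x hx
      have h5 := sup2 x hx
      have h6 : C x.1.1.2 (x.2, x.1.2).swap = 1 := h5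
      rw [h6, mul_one, Real.log_mul (h.sup _ h1) (h.sup _ h2)]
      ring
    rw [Finset.sum_congr rfl fun x _ => e3 x, Finset.sum_add_distrib]
    have e4 := sum_mar P2 (fun x => x.1.1) (fun y => Real.log (zp C n y.1 y.2))
    have e5 := sum_mar P2 (fun x => (x.1.1.1, (x.2, x.1.2))) (fun y => Real.log (zp C n y.1 y.2))
    rw [l4] at e4
    rw [l3] at e5
    rw [← e4, ← e5]
    ring
  -- entropies
  have f1 := cop_ent p0 (fun x => (x.1.1, x.1.2.2, x.2)) (fun x => x.1.2.1) (fun x => x)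
    (fun x => (x.1.1, x.1.2.2, x.2)) (fun _ => rfl)
  rw [← hP2] at f1
  have f2 := cop_ent hF0 (fun x => (x.1, x.2.1)) (fun x => x.2.2) (fun x => x)
    (fun x => (x.1, x.2.1)) (fun _ => rfl)
  rw [← hP1] at f2
  have f3 : ent P2 (fun x => (x.1.1.1, x.1.1.2, (x.2, x.1.2))) = ent P2 (fun x => (x.1, x.2)) :=
    ent_same _ fun x y => by
      simp only [Prod.ext_iff]
      tauto
  have f4 : ent P1 (fun ω => ((ω.1.1, ω.1.2.2, ω.2), ω.1.2.1)) = ent P1 (fun x => (x.1, x.2)) :=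
    ent_same _ fun x y => by
      simp only [Prod.ext_iff]
      tauto
  have f5 : ent F (fun ω => ((ω.1, ω.2.1), ω.2.2)) = ent F (fun x => x) :=
    ent_same _ fun x y => by
      simp only [Prod.ext_iff]
      tauto
  have f6 : ent P1 (fun x => x) = ent P1 (fun x => (x.1, x.2)) := rfl
  -- the entropy of `(R, f, f')`
  have f7 := subm p0 (A := fun x => (x.1.1, x.1.2.2)) (B := fun x => (x.1.1, x.2))
    (C := fun x => (x.1.1, x.1.2.2, x.2)) (D := fun x => x.1.1) (fun x y => by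
      simp only [Prod.mk.injEq]
      tauto) (fun x y => by
      simp only [Prod.mk.injEq]
      tauto) (fun x y => by
      simp only [Prod.mk.injEq]
      tauto)
  have f8 : ent P1 (fun x => (x.1.1, x.1.2.2)) = ent F (fun x => (x.1, x.2.2)) :=
    cop_ent_fst hF0 _ _ (fun x => (x.1, x.2.2))
  have f9 : ent P1 (fun x => x.1.1) = hQ Q := by
    rw [← h.fst]
    exact cop_ent_fst hF0 _ _ (fun x => x.1)
  have f10 : ent P1 (fun x => (x.1.1, x.2)) = ent F (fun x => (x.1, x.2.2)) := by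
    have g1 : ent P1 (fun x => (x.1.1, x.2)) =
        ent (mar P1 (fun x => ((x.1.1, x.1.2.1), x.2))) (fun y => (y.1.1, y.2)) := by
      rw [ent_mar]
    rw [g1, l1, ent_mar]
  have f11 := suba hF0 hF1 (A := fun x => x.1) (B := fun x => x.2.2)
    (C := fun x => (x.1, x.2.2)) (fun x y => by
      simp only [Prod.mk.injEq]
      tauto)
  have f12 := suba hF0 hF1 (A := fun x => x.1) (B := fun x => x.2.1)
    (C := fun x => (x.1, x.2.1)) (fun x y => by
      simp only [Prod.mk.injEq]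
      tauto)
  have f13 : ent F (fun x => x.2.2) = aQ Q := by
    rw [← hE.ent_snd]
    exact hl.ent_edge hE fun e => e.2
  have f14 : ent F (fun x => x.2.1) = aQ Q := by
    rw [← hE.ent_fst]
    exact hl.ent_edge hE fun e => e.1
  rw [h.fst, f13] at f11
  rw [h.fst, f14] at f12
  have h3 := h.va
  unfold val at h3
  have e3 : ent F (fun x => (x.1, x.2)) = ent F (fun x => x) := rfl
  rw [e3] at h3
  rw [e2, f3] at h2
  rw [f4, f6] at f1
  rw [f5] at f2
  rw [f8, f9, f10] at f7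
  linarith

end Vale.Agent.P050.M18
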