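import Vale.Agent.P050.M18.Fresh

/-!
Many copies of the middle of a cherry, with labels.
-/

set_option linter.unusedSectionVars false

namespace Vale.Agent.P050.M18

open Finset Vale.Agent.P050.Cart Vale.Agent.P050.Join

variable {U : Type} [Fintype U] [DecidableEq U]

/-- the law of the ends of a cherry -/
noncomputable def c2 (Q : U × U → ℝ) : U × U → ℝ := mar (C3 Q) (fun x => (x.1.1, x.2))

/-- the kernels: `some j` is a vertex `y` with a label at the edge `(x, y)`, `none` is a vertex `y`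
with a label at the edge `(x', y)` -/
noncomputable def gg (Q : U × U → ℝ) (n : ℕ) {J : Type} (i : Option J) (c : U × U)
    (z : U × (U × U)) : ℝ :=
  kap Q c z.1 * (PP Q n (z.2, (if i = none then c.2 else c.1, z.1)) /
    Q (if i = none then c.2 else c.1, z.1))

variable {Q : U × U → ℝ} (hE : Edge Q)
include hE

theorem c2_mul_kap (c : U × U) (y : U) : c2 Q c * kap Q c y = C3 Q ((c.1, y), c.2) := by
  obtain ⟨x, z⟩ := c
  rw [hE.kap_val]
  unfold c2
  by_cases h0 : mar (C3 Q) (fun x => (x.1.1, x.2)) (x, z) = 0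
  · rw [h0]
    have h1 := hE.C3_13 x z
    rw [h0] at h1
    rw [(Finset.sum_eq_zero_iff_of_nonneg fun _ _ => hE.C3_nn _).1 h1.symm y (mem_univ y)]
    simp
  · field_simp

theorem kap_zero {c : U × U} {y : U} (h0 : Q (c.1, y) = 0 ∨ Q (c.2, y) = 0) : kap Q c y = 0 := by
  obtain ⟨x, z⟩ := c
  rw [hE.kap_val]
  have : C3 Q ((x, y), z) = 0 := by
    rcases h0 with h0 | h0
    · rw [hE.C3_val, h0, zero_mul]
    · rw [hE.C3_sym, hE.C3_val, h0, zero_mul]
  rw [this, zero_div]

theorem PP_zero (n : ℕ) {R e : U × U} (h0 : Q e = 0) : PP Q n (R, e) = 0 := by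
  by_contra hne
  exact (PP_lab hE n).ne_zero hE hne h0

theorem sum_PP (n : ℕ) (e : U × U) : ∑ R, PP Q n (R, e) = Q e := by
  rw [← mar_prod_snd]
  exact congrFun (PP_lab hE n).snd e

/-- the kernel, integrated over the label -/
theorem gg_label (n : ℕ) {J : Type} (i : Option J) (c : U × U) (y : U) :
    ∑ R, gg Q n i c (y, R) = kap Q c y := by
  unfold gg
  simp only
  rw [← Finset.mul_sum, ← Finset.sum_div, sum_PP hE]
  by_cases h0 : Q (if i = none then c.2 else c.1, y) = 0
  · rw [kap_zero hE, zero_mul]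
    by_cases hi : i = none
    · rw [if_pos hi] at h0; exact Or.inr h0
    · rw [if_neg hi] at h0; exact Or.inl h0
  · rw [div_self h0, mul_one]

theorem star_ok (n : ℕ) {J : Type} : StarOk (c2 Q) (gg Q n (J := J)) where
  p0 := mar_nonneg hE.C3_nn _
  p1 := by
    unfold c2
    rw [mar_total]
    exact hE.C3_tot
  g0 := fun i c z => mul_nonneg (hE.kap_nn _ _) (div_nonneg ((PP_lab hE n).nn _) (hE.nn _))
  g1 := by
    intro i c hc
    rw [Fintype.sum_prod_type]
    simp only [gg_label hE]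
    exact sum_ker _ _ hc

/-- the joint law of the ends of the cherry and a vertex with its label, in terms of the chain -/
theorem gg_some (n : ℕ) {J : Type} (j : J) (s f f' : U) (R : U × U) :
    c2 Q (s, f') * gg Q n (some j) (s, f') (f, R) = A1 Q (PP Q n) ((R, (s, f)), f') := by
  unfold gg A1 att
  simp only [reduceCtorEq, if_false]
  rw [← mul_assoc, c2_mul_kap hE, hE.C3_val]
  simp only
  by_cases h0 : Q (s, f) = 0
  · rw [h0, PP_zero hE n h0]; simp
  · field_simp

theorem gg_none (n : ℕ) {J : Type} (s f f' : U) (R : U × U) :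
    c2 Q (f', s) * gg Q n (none : Option J) (f', s) (f, R) = A1 Q (PP Q n) ((R, (s, f)), f') := by
  unfold gg A1 att
  simp only [if_true]
  rw [← mul_assoc, c2_mul_kap hE, hE.C3_sym, hE.C3_val]
  simp only
  by_cases h0 : Q (s, f) = 0
  · rw [h0, PP_zero hE n h0]; simp
  · field_simp

/-- two vertices, one with a label at the first end and one with a label at the second end -/
theorem gg_two (n : ℕ) {J : Type} (j : J) (x x' y₁ y : U) (D R : U × U) :
    c2 Q (x, x') * gg Q n (none : Option J) (x, x') (y₁, D) * gg Q n (some j) (x, x') (y, R) =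
      PP Q n (D, (x', y₁)) * kk Q (x', y₁) (y, x) * zp (kk Q) n (y, x) R.swap := by
  rw [gg_none hE]
  have ek : kk Q (x', y₁) (y, x) = nb Q y₁ x * kap Q (x', x) y := rfl
  rw [ek]
  unfold A1 att gg
  simp only [reduceCtorEq, if_false]
  rw [hE.kap_sym x' x]
  have key : kap Q (x, x') y * (PP Q n (R, (x, y)) / Q (x, y)) =
      kap Q (x, x') y * zp (kk Q) n (y, x) R.swap := by
    by_cases h0 : Q (x, y) = 0
    · rw [kap_zero hE (Or.inl h0)]; simp
    · congr 1
      rw [PP_apply hE]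
      have h1 := zp_rev hE n (y, x) R.swap
      rw [Prod.swap_swap, hE.Q_sw] at h1
      simp only [Prod.swap] at h1 ⊢
      rw [hE.sym y x] at h1
      rw [← h1]
      field_simp
  calc PP Q n (D, (x', y₁)) * nb Q y₁ x * (kap Q (x, x') y * (PP Q n (R, (x, y)) / Q (x, y)))
      = PP Q n (D, (x', y₁)) * nb Q y₁ x * (kap Q (x, x') y * zp (kk Q) n (y, x) R.swap) := by
        rw [key]
    _ = _ := by ring

section laws

variable (n : ℕ) {J : Type} [Fintype J] [DecidableEq J]

/-- entropies which involve one vertex with a label at the first end -/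
theorem ent_some {α : Type} [Fintype α] (j : J) (φ : (U × U) × (U × (U × U)) → α) :
    ent (star (c2 Q) (gg Q n (J := J))) (fun x => φ (x.1, x.2 (some j))) =
      ent (A1 Q (PP Q n)) (fun x => φ ((x.1.2.1, x.2), (x.1.2.2, x.1.1))) := by
  refine ent_law fun a => mar_of_sum (fun F => ?_) a
  rw [sum_star_one (star_ok hE n) (some j) fun c u => F (φ (c, u)), ← Fintype.sum_prod_type'
    (f := fun c u => c2 Q c * gg Q n (some j) c u * F (φ (c, u)))]
  refine (Fintype.sum_equiv
    { toFun := fun x : ((U × U) × (U × U)) × U => ((x.1.2.1, x.2), (x.1.2.2, x.1.1))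
      invFun := fun y => ((y.2.2, (y.1.1, y.2.1)), y.1.2)
      left_inv := fun x => rfl
      right_inv := fun y => rfl } _ _ fun x => ?_).symm
  obtain ⟨⟨R, s, f⟩, f'⟩ := x
  simp only [Equiv.coe_fn_mk]
  rw [gg_some hE]

theorem ent_none {α : Type} [Fintype α] (φ : (U × U) × (U × (U × U)) → α) :
    ent (star (c2 Q) (gg Q n (J := J))) (fun x => φ (x.1, x.2 none)) =
      ent (A1 Q (PP Q n)) (fun x => φ ((x.2, x.1.2.1), (x.1.2.2, x.1.1))) := by
  refine ent_law fun a => mar_of_sum (fun F => ?_) a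
  rw [sum_star_one (star_ok hE n) none fun c u => F (φ (c, u)), ← Fintype.sum_prod_type'
    (f := fun c u => c2 Q c * gg Q n none c u * F (φ (c, u)))]
  refine (Fintype.sum_equiv
    { toFun := fun x : ((U × U) × (U × U)) × U => ((x.2, x.1.2.1), (x.1.2.2, x.1.1))
      invFun := fun y => ((y.2.2, (y.1.2, y.2.1)), y.1.1)
      left_inv := fun x => rfl
      right_inv := fun y => rfl } _ _ fun x => ?_).symm
  obtain ⟨⟨R, s, f⟩, f'⟩ := x
  simp only [Equiv.coe_fn_mk]
  rw [gg_none hE]

/-- the law of a label and another vertex -/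
theorem ent_other {i j : J} (hij : i ≠ j) :
    ent (star (c2 Q) (gg Q n (J := J))) (fun x => ((x.2 (some i)).2, ((x.2 (some j)).1, x.1.2))) =
      hP Q (n + 1) := by
  have hij' : (some i : Option J) ≠ some j := fun h => hij (Option.some_injective _ h)
  have e0 : hP Q (n + 1) = ent (nx Q (PP Q n)) (fun x => x) := rfl
  rw [e0]
  refine ent_law fun a => mar_of_sum (fun F => ?_) a
  rw [nx_sum (PP_lab hE n) hE, sum_star_two (star_ok hE n) hij' fun c u v => F (u.2, (v.1, c.2))]
  have e1 : ∀ c : U × U, ∑ u, ∑ v, c2 Q c * gg Q n (some i) c u * gg Q n (some j) c v *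
      F (u.2, (v.1, c.2)) = ∑ f, ∑ R, ∑ s', c2 Q c * gg Q n (some i) c (f, R) * kap Q c s' *
        F (R, (s', c.2)) := by
    intro c
    rw [Fintype.sum_prod_type]
    refine Finset.sum_congr rfl fun f _ => Finset.sum_congr rfl fun R _ => ?_
    rw [Fintype.sum_prod_type]
    refine Finset.sum_congr rfl fun s' _ => ?_
    simp only
    rw [← gg_label hE n (some j) c s', Finset.mul_sum, Finset.sum_mul]
  simp only [e1]
  rw [Fintype.sum_prod_type]
  have e2 : ∀ s f' : U, ∑ f, ∑ R, ∑ s', c2 Q (s, f') * gg Q n (some i) (s, f') (f, R) *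
      kap Q (s, f') s' * F (R, (s', (s, f').2)) = ∑ f, ∑ R, ∑ s', PP Q n (R, (s, f)) *
        (kk Q (s, f) (s', f') * F (R, (s', f'))) := by
    intro s f'
    refine Finset.sum_congr rfl fun f _ => Finset.sum_congr rfl fun R _ =>
      Finset.sum_congr rfl fun s' _ => ?_
    rw [gg_some hE]
    unfold A1 att kk
    simp only
    ring
  simp only [e2]
  -- reorder
  have e3 : ∀ s : U, ∑ f', ∑ f, ∑ R, ∑ s', PP Q n (R, (s, f)) * (kk Q (s, f) (s', f') *
      F (R, (s', f'))) = ∑ R, ∑ f, PP Q n (R, (s, f)) * ∑ e', kk Q (s, f) e' * F (R, e') := by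
    intro s
    rw [Finset.sum_comm]
    have e4 : ∀ f, ∑ f', ∑ R, ∑ s', PP Q n (R, (s, f)) * (kk Q (s, f) (s', f') *
        F (R, (s', f'))) = ∑ R, PP Q n (R, (s, f)) * ∑ e', kk Q (s, f) e' * F (R, e') := by
      intro f
      rw [Finset.sum_comm]
      refine Finset.sum_congr rfl fun R _ => ?_
      rw [Finset.sum_comm, Fintype.sum_prod_type, Finset.mul_sum]
      refine Finset.sum_congr rfl fun s' _ => ?_
      rw [Finset.mul_sum]
    simp only [e4]
    rw [Finset.sum_comm]
  simp only [e3]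
  rw [Finset.sum_comm]
  refine Finset.sum_congr rfl fun R _ => ?_
  rw [Fintype.sum_prod_type]

/-- the law of two labels -/
theorem ent_far (j : J) :
    ent (star (c2 Q) (gg Q n (J := J))) (fun x => ((x.2 none).2, (x.2 (some j)).2)) =
      hP Q (2 * n + 1) := by
  have h1 : ent (PP Q (2 * n + 1)) (fun x => x) =
      ent (PP Q (2 * n + 1)) (fun x => (x.1, x.2.swap)) := ent_same _ fun x y => by
    simp only [Prod.ext_iff, Prod.fst_swap, Prod.snd_swap]
    tauto
  unfold hP
  rw [h1]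
  refine ent_law fun a => mar_of_sum (fun F => ?_) a
  rw [sum_star_two (star_ok hE n) (by simp : (none : Option J) ≠ some j)
    fun c u v => F (u.2, v.2)]
  have e1 : ∀ D R : U × U, PP Q (2 * n + 1) (D, R) = ∑ e, ∑ e', PP Q n (D, e) *
      (kk Q e e' * zp (kk Q) n e' R) := by
    intro D R
    rw [PP_apply hE]
    have e2 : 2 * n + 1 = n + (n + 1) := by ring
    rw [e2, zp_add, Finset.mul_sum]
    refine Finset.sum_congr rfl fun e _ => ?_
    rw [zp_left, PP_apply hE, ← mul_assoc, Finset.mul_sum]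
  have e2 : ∑ x, PP Q (2 * n + 1) x * F (x.1, x.2.swap) =
      ∑ D, ∑ R, ∑ e, ∑ e', PP Q n (D, e) * (kk Q e e' * zp (kk Q) n e' R.swap) * F (D, R) := by
    rw [Fintype.sum_prod_type]
    refine Finset.sum_congr rfl fun D _ => ?_
    rw [← (Equiv.prodComm U U).sum_comp]
    refine Finset.sum_congr rfl fun R _ => ?_
    have e3 : (Equiv.prodComm U U) R = R.swap := rfl
    simp only [e3, e1, Prod.swap_swap, Finset.sum_mul]
  rw [e2]
  have e4 : ∀ c : U × U, ∑ u, ∑ v, c2 Q c * gg Q n (none : Option J) c u *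
      gg Q n (some j) c v * F (u.2, v.2) = ∑ y₁, ∑ D, ∑ y, ∑ R, PP Q n (D, (c.2, y₁)) *
        (kk Q (c.2, y₁) (y, c.1) * zp (kk Q) n (y, c.1) R.swap) * F (D, R) := by
    intro c
    rw [Fintype.sum_prod_type]
    refine Finset.sum_congr rfl fun y₁ _ => Finset.sum_congr rfl fun D _ => ?_
    rw [Fintype.sum_prod_type]
    refine Finset.sum_congr rfl fun y _ => Finset.sum_congr rfl fun R _ => ?_
    simp only
    obtain ⟨x, x'⟩ := c
    rw [gg_two hE]
    ring
  simp only [e4]
  -- reorder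
  rw [← Fintype.sum_prod_type' (f := fun D R : U × U => ∑ e, ∑ e', PP Q n (D, e) *
    (kk Q e e' * zp (kk Q) n e' R.swap) * F (D, R))]
  have e5 : ∀ z : (U × U) × (U × U), ∑ e, ∑ e', PP Q n (z.1, e) *
      (kk Q e e' * zp (kk Q) n e' z.2.swap) * F (z.1, z.2) =
      ∑ w : (U × U) × (U × U), PP Q n (z.1, w.1) *
      (kk Q w.1 w.2 * zp (kk Q) n w.2 z.2.swap) * F (z.1, z.2) := fun z =>
    (Fintype.sum_prod_type' (f := fun e e' => PP Q n (z.1, e) *
      (kk Q e e' * zp (kk Q) n e' z.2.swap) * F (z.1, z.2))).symm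
  simp only [e5]
  rw [← Fintype.sum_prod_type' (f := fun (z : (U × U) × (U × U)) (w : (U × U) × (U × U)) =>
    PP Q n (z.1, w.1) * (kk Q w.1 w.2 * zp (kk Q) n w.2 z.2.swap) * F (z.1, z.2))]
  have e6 : ∑ c : U × U, ∑ y₁, ∑ D, ∑ y, ∑ R, PP Q n (D, (c.2, y₁)) *
        (kk Q (c.2, y₁) (y, c.1) * zp (kk Q) n (y, c.1) R.swap) * F (D, R) =
      ∑ t : (U × U) × (U × ((U × U) × (U × (U × U)))), PP Q n (t.2.2.1, (t.1.2, t.2.1)) *
        (kk Q (t.1.2, t.2.1) (t.2.2.2.1, t.1.1) * zp (kk Q) n (t.2.2.2.1, t.1.1)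
          t.2.2.2.2.swap) * F (t.2.2.1, t.2.2.2.2) := by
    simp only [Fintype.sum_prod_type (α₁ := U × U) (α₂ := U × ((U × U) × (U × (U × U)))),
      Fintype.sum_prod_type (α₁ := U) (α₂ := (U × U) × (U × (U × U))),
      Fintype.sum_prod_type (α₁ := U × U) (α₂ := U × (U × U)),
      Fintype.sum_prod_type (α₁ := U) (α₂ := U × U)]
  rw [e6]
  exact Fintype.sum_equiv
    { toFun := fun t => ((t.2.2.1, t.2.2.2.2), ((t.1.2, t.2.1), (t.2.2.2.1, t.1.1)))
      invFun := fun w => ((w.2.2.2, w.2.1.1), (w.2.1.2, (w.1.1, (w.2.2.1, w.1.2))))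
      left_inv := fun x => rfl
      right_inv := fun y => rfl } _ _ fun x => rfl

end laws

end Vale.Agent.P050.M18
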