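import Vale.Agent.P050.M18.Main

/-!
Moebius ladders, 4-cycles and the cube: homomorphism densities.
-/

set_option linter.unusedSectionVars false

namespace Vale.Agent.P050.M18

open Finset Vale.Agent.P050.Cart Vale.Agent.P050.Join Vale.Agent.P050.H148 Vale.Agent.P050.H180

/-- the graph of the 3-dimensional cube -/
abbrev cubeGraph : SimpleGraph (Fin 4 × Bool) :=
  (SimpleGraph.cycleGraph 4).boxProd (⊤ : SimpleGraph Bool)

variable {X : Type} [Fintype X] [Nonempty X] (G : SimpleGraph X)

theorem card_pos' : (0 : ℝ) < Fintype.card X := by exact_mod_cast Fintype.card_pos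

theorem adj_sum' : ∑ x, ∑ y, adj G x y = edgeDensity G * (Fintype.card X : ℝ) ^ 2 := by
  have hn := card_pos' (X := X)
  rw [← adj_sum G]
  field_simp

theorem ladder_num [DecidableEq X] (k : ℕ) [NeZero k] :
    ladSum (adj G) k = homDensity (moebiusLadder k) G * (Fintype.card X : ℝ) ^ (2 * k) := by
  have hn := card_pos' (X := X)
  rw [hom_ladder]
  unfold ladderDensity
  rw [← ladSum_two]
  field_simp

theorem tot_num [DecidableEq X] : tot G =
    homDensity (SimpleGraph.cycleGraph 4) G * (Fintype.card X : ℝ) ^ 4 := by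
  obtain ⟨e⟩ := four_iso
  rw [tot_eq, ladder_num, homDensity_congr e]

theorem cube_num [DecidableEq X] : pr (CG G) 2 =
    homDensity cubeGraph G * (Fintype.card X : ℝ) ^ 8 := by
  obtain ⟨e⟩ := prism_iso 2 ⟨1, rfl⟩
  haveI : NeZero (2 * 2) := ⟨by norm_num⟩
  have h1 := pr_eq G 2
  have h2 := ladder_num G (2 * 2)
  have h3 : homDensity (moebiusLadder (2 * 2)) G = homDensity cubeGraph G := homDensity_congr e G
  rw [h1, h2, h3]

theorem tw_num [DecidableEq X] (m : ℕ) : tw (CG G) m =
    homDensity (moebiusLadder (2 * m + 1)) G * (Fintype.card X : ℝ) ^ (2 * (2 * m + 1)) := by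
  haveI : NeZero (2 * m + 1) := ⟨by omega⟩
  rw [tw_eq, ladder_num]

theorem edge_nn : 0 ≤ edgeDensity G := by unfold edgeDensity; positivity

theorem hom_nn {V : Type} (H : SimpleGraph V) : 0 ≤ homDensity H G := by
  unfold homDensity; positivity

theorem exists_adj (h : 0 < edgeDensity G) : ∃ x y, G.Adj x y := by
  by_contra hcon
  push Not at hcon
  have h1 : ∑ x, ∑ y, adj G x y = 0 := by
    refine Finset.sum_eq_zero fun x _ => Finset.sum_eq_zero fun y _ => ?_
    unfold adj
    rw [if_neg (hcon x y)]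
  rw [adj_sum'] at h1
  have hn := card_pos' (X := X)
  have : 0 < edgeDensity G * (Fintype.card X : ℝ) ^ 2 := by positivity
  linarith

/-- the inequality between logarithms -/
theorem final_log (hp : 0 < edgeDensity G) (t m : ℕ) (hm : 8 * 4 ^ (t + 1) + 5 ≤ m) :
    48 * Real.log (edgeDensity G) + 3 * (2 * m + 1) * 2 ^ ((t + 2).choose 2) *
      Real.log (homDensity (SimpleGraph.cycleGraph 4) G) ≤
    4 * 2 ^ ((t + 2).choose 2) * Real.log (homDensity (moebiusLadder (2 * m + 1)) G) +
      4 * Real.log (homDensity cubeGraph G) ∧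
    0 < homDensity (SimpleGraph.cycleGraph 4) G ∧
    0 < homDensity (moebiusLadder (2 * m + 1)) G ∧ 0 < homDensity cubeGraph G := by
  classical
  have hG := exists_adj G hp
  have hn := card_pos' (X := X)
  obtain ⟨i, j, hij, hi, h1, h2, h3⟩ := main_log G hG t m hm
  have h4 := tot_pos G hG
  rw [tot_num] at h4 h1
  rw [tw_num] at h2 h1
  rw [cube_num] at h3 h1
  rw [adj_sum'] at h1
  have hC : 0 < homDensity (SimpleGraph.cycleGraph 4) G := by
    rcases (hom_nn G (SimpleGraph.cycleGraph 4)).lt_or_eq with h | h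
    · exact h
    · rw [← h, zero_mul] at h4; exact absurd h4 (lt_irrefl _)
  have hM : 0 < homDensity (moebiusLadder (2 * m + 1)) G := by
    rcases (hom_nn G (moebiusLadder (2 * m + 1))).lt_or_eq with h | h
    · exact h
    · rw [← h, zero_mul] at h2; exact absurd h2 (lt_irrefl _)
  have hQ : 0 < homDensity cubeGraph G := by
    rcases (hom_nn G cubeGraph).lt_or_eq with h | h
    · exact h
    · rw [← h, zero_mul] at h3; exact absurd h3 (lt_irrefl _)
  refine ⟨?_, hC, hM, hQ⟩
  rw [Real.log_mul hp.ne' (by positivity), Real.log_mul hC.ne' (by positivity),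
    Real.log_mul hM.ne' (by positivity), Real.log_mul hQ.ne' (by positivity),
    Real.log_pow, Real.log_pow, Real.log_pow, Real.log_pow] at h1
  have h5 : 4 * Real.log (edgeDensity G) ≤ Real.log (homDensity (SimpleGraph.cycleGraph 4) G) := by
    have h6 := Real.log_le_log (by positivity) (four_ge G)
    rw [Real.log_pow] at h6
    push_cast at h6
    exact h6
  push_cast at h1
  set D : ℝ := 2 ^ ((t + 2).choose 2) with hD
  set lp := Real.log (edgeDensity G) with hlp
  set lC := Real.log (homDensity (SimpleGraph.cycleGraph 4) G) with hlC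
  set lM := Real.log (homDensity (moebiusLadder (2 * m + 1)) G) with hlM
  set lQ := Real.log (homDensity cubeGraph G) with hlQ
  set ℓ := Real.log (Fintype.card X) with hℓ
  have hD0 : 0 < D := by positivity
  have hmij : (m : ℝ) = i + 1 + j := by exact_mod_cast hij
  have hi' : (4 * i + 9 : ℝ) ≤ m := by exact_mod_cast hi
  -- `8 j ≥ 3 (2 m + 1)`
  have h7 : 0 ≤ (8 * j - 3 * (2 * m + 1) : ℝ) * (D * (lC - 4 * lp)) := by
    refine mul_nonneg ?_ (mul_nonneg hD0.le (by linarith))
    linarith
  rw [hmij] at h7 h1 ⊢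
  nlinarith [h1, h7]

theorem ladder_density_pos_pow (t m : ℕ) (hm : 8 * 4 ^ (t + 1) + 5 ≤ m) :
    edgeDensity G ^ 48 * homDensity (SimpleGraph.cycleGraph 4) G ^
        (3 * (2 * m + 1) * 2 ^ ((t + 2).choose 2)) ≤
      homDensity (moebiusLadder (2 * m + 1)) G ^ (4 * 2 ^ ((t + 2).choose 2)) *
        homDensity cubeGraph G ^ 4 := by
  rcases (edge_nn G).lt_or_eq with hp | hp
  · obtain ⟨h1, h2, h3, h4⟩ := final_log G hp t m hm
    rw [← Real.log_le_log_iff (by positivity) (by positivity),
      Real.log_mul (by positivity) (by positivity), Real.log_mul (by positivity) (by positivity),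
      Real.log_pow, Real.log_pow, Real.log_pow, Real.log_pow]
    push_cast
    linarith
  · rw [← hp]
    have h3 := hom_nn G (moebiusLadder (2 * m + 1))
    have h4 := hom_nn G cubeGraph
    have : (0 : ℝ) ^ 48 * homDensity (SimpleGraph.cycleGraph 4) G ^
        (3 * (2 * m + 1) * 2 ^ ((t + 2).choose 2)) = 0 := by norm_num
    rw [this]
    positivity

/-- the density of the cube is at most that of four disjoint edges -/
theorem cube_le : homDensity cubeGraph G ≤ edgeDensity G ^ 4 := by
  classical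
  obtain ⟨e⟩ := prism_iso 2 ⟨1, rfl⟩
  haveI : NeZero (2 + 2) := ⟨by norm_num⟩
  have hn := card_pos' (X := X)
  have h2 := ladder_num G (2 + 2)
  have h3 : homDensity (moebiusLadder (2 + 2)) G = homDensity cubeGraph G := homDensity_congr e G
  rw [h3] at h2
  have h4 : ladSum (adj G) (2 + 2) ≤ (∑ a : X × X, adj G a.1 a.2) ^ 4 := by
    unfold ladSum
    have e1 : (∑ a : X × X, adj G a.1 a.2) ^ 4 =
        ∑ w : ZMod (2 + 2) → X × X, ∏ i, adj G (w i).1 (w i).2 := by
      have := (Finset.prod_univ_sum (fun _ : ZMod (2 + 2) => (univ : Finset (X × X)))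
        (fun _ a => adj G a.1 a.2))
      rw [Fintype.piFinset_univ] at this
      rw [← this, Finset.prod_const, Finset.card_univ, ZMod.card]
    rw [e1]
    refine Finset.sum_le_sum fun w _ => Finset.prod_le_prod (fun i _ => ?_) fun i _ => ?_
    · exact mul_nonneg (adj_nn G _ _) (mul_nonneg (adj_nn G _ _) (adj_nn G _ _))
    · have a1 : ∀ x y, adj G x y ≤ 1 := fun x y => by
        simp only [adj]; split_ifs <;> norm_num
      have := adj_nn G (w i).1 (w i).2
      have h5 := mul_le_one₀ (a1 (w i).1 (w (i + 1)).2) (adj_nn G (w (i + 1)).1 (w i).2)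
        (a1 (w (i + 1)).1 (w i).2)
      calc _ ≤ adj G (w i).1 (w i).2 * 1 := mul_le_mul_of_nonneg_left h5 this
        _ = _ := mul_one _
  have e2 : ∑ a : X × X, adj G a.1 a.2 = edgeDensity G * (Fintype.card X : ℝ) ^ 2 := by
    rw [← adj_sum', Fintype.sum_prod_type]
  rw [h2, e2] at h4
  have e3 : (edgeDensity G * (Fintype.card X : ℝ) ^ 2) ^ 4 =
      edgeDensity G ^ 4 * (Fintype.card X : ℝ) ^ (2 * (2 + 2)) := by
    rw [mul_pow, ← pow_mul]
  rw [e3] at h4
  exact le_of_mul_le_mul_right h4 (by positivity)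

end Vale.Agent.P050.M18
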