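import Vale.Agent.P050.M18.Chain

/-!
The second vertex of the state forgets the label.
-/

set_option linter.unusedSectionVars false

namespace Vale.Agent.P050.M18

open Finset Vale.Agent.P050.Cart Vale.Agent.P050.Join

theorem mar_drop {α β γ : Type} [Fintype α] [Fintype β] [Fintype γ] (P : (α × β) × γ → ℝ)
    (a : α) (c : γ) : mar P (fun y => (y.1.1, y.2)) (a, c) = ∑ b, P ((a, b), c) := by
  classical
  unfold mar
  rw [Fintype.sum_prod_type, Fintype.sum_prod_type, Finset.sum_eq_single a]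
  · refine Finset.sum_congr rfl fun y _ => ?_
    rw [Finset.sum_eq_single c]
    · simp
    · intro z' _ hz
      rw [if_neg]
      simp only [Prod.mk.injEq, true_and]
      exact hz
    · intro hn; exact absurd (mem_univ _) hn
  · intro x' _ hx
    refine Finset.sum_eq_zero fun y _ => Finset.sum_eq_zero fun z' _ => ?_
    rw [if_neg]
    simp only [Prod.mk.injEq, not_and]
    exact fun hh => absurd hh hx
  · intro hn; exact absurd (mem_univ _) hn

variable {U ρ : Type} [Fintype U] [Fintype ρ]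

theorem att_drop {P : ρ × (U × U) → ℝ} {K : U → U → ℝ} (R : ρ) (z : U) :
    mar (att P (fun x => x.2.2) K) (fun x => (x.1.1, x.2)) (R, z) =
      ∑ y, mar P (fun x => (x.1, x.2.2)) (R, y) * K y z := by
  have h1 : mar (att P (fun x => x.2.2) K) (fun x => (x.1.1, x.2)) =
      mar (mar (att P (fun x => x.2.2) K) (fun x => ((x.1.1, x.1.2.2), x.2)))
        (fun y => (y.1.1, y.2)) := by
    funext a
    rw [mar_mar]
  rw [h1, mar_drop]
  refine Finset.sum_congr rfl fun y _ => ?_
  exact mar_att (P := P) (f := fun x => x.2.2) (K := K) (fun x => (x.1, x.2.2)) (fun y => y.2)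
    (fun _ => rfl) (R, y) z

variable {Q : U × U → ℝ} {F : ρ × (U × U) → ℝ}

/-- two steps of the walk on the vertices -/
noncomputable def nb2 (Q : U × U → ℝ) (x z : U) : ℝ := ∑ y, nb Q x y * nb Q y z

namespace Lab

variable (h : Lab Q F) (hE : Edge Q)
include h hE

theorem nx_fresh (R : ρ) (z : U) : mar (nx Q F) (fun x => (x.1, x.2.2)) (R, z) =
    ∑ y, mar F (fun x => (x.1, x.2.2)) (R, y) * nb Q y z := by
  have h1 : mar (nx Q F) (fun x => (x.1, x.2.2)) = mar (A2 Q F) (fun x => (x.1.1.1, x.1.2)) := by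
    funext a
    unfold nx
    rw [mar_mar]
  have h2 := cop_fst (h.A1_nn hE) (fun x => (x.1.2.1, x.2)) (fun x => x.1.2.2)
    (fun x => (x.1.1, x.2))
  have h3 : mar (A2 Q F) (fun x => (x.1.1.1, x.1.2)) = mar (A1 Q F) (fun x => (x.1.1, x.2)) := h2
  rw [h1, h3]
  exact att_drop R z

/-- the second vertex forgets the label in two steps -/
theorem fresh : ent F (fun x => x.1) + h2Q Q - aQ Q ≤
    ent (nx Q (nx Q F)) (fun x => (x.1, x.2.2)) := by
  have hl := h.nx_lab hE
  set W := att F (fun x => x.2.2) (nb2 Q) with hW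
  have k0 : ∀ x y, 0 ≤ nb2 Q x y := fun x y =>
    Finset.sum_nonneg fun _ _ => mul_nonneg (hE.nb_nn _ _) (hE.nb_nn _ _)
  have k1 : ∀ x : ρ × (U × U), F x ≠ 0 → ∑ z, nb2 Q x.2.2 z = 1 := by
    intro x hx
    unfold nb2
    rw [Finset.sum_comm]
    have h1 := h.nb_one hE x hx
    refine Eq.trans ?_ h1
    refine Finset.sum_congr rfl fun y _ => ?_
    rw [← Finset.mul_sum]
    by_cases h0 : nb Q x.2.2 y = 0
    · rw [h0, zero_mul]
    · have h2 : Q (x.2.2, y) ≠ 0 := by
        unfold nb at h0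
        exact (div_ne_zero_iff.1 h0).1
      rw [hE.nb_one (hE.mm_ne h2).2, mul_one]
  have hWn : ∀ x, 0 ≤ W x := att_nonneg h.nn k0
  have e1 : ent (nx Q (nx Q F)) (fun x => (x.1, x.2.2)) = ent W (fun x => (x.1.1, x.2)) := by
    refine ent_law fun a => ?_
    obtain ⟨R, z⟩ := a
    rw [hl.nx_fresh hE, hW, att_drop]
    simp only [h.nx_fresh hE, nb2, Finset.mul_sum, Finset.sum_mul]
    rw [Finset.sum_comm]
    refine Finset.sum_congr rfl fun y _ => Finset.sum_congr rfl fun y' _ => by ring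
  have e2 := ent_att (P := F) (f := fun x => x.2.2) (K := nb2 Q) h.nn k0 k1
    (fun x => (x.1, x.2.2)) (fun y => y.2) (fun _ => rfl)
  have e3 : ent W (fun x => (x.1.2.2, x.2)) = h2Q Q := by
    unfold h2Q
    refine ent_law fun a => ?_
    obtain ⟨x, z⟩ := a
    have := mar_att (P := F) (f := fun x => x.2.2) (K := nb2 Q) (fun x => x.2.2) (fun y => y)
      (fun _ => rfl) x z
    have e4 : mar F (fun x => x.2.2) x = mm Q x := by
      have := h.mar_edge hE fun e => e.2
      rw [hE.mar_snd_Q] at this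
      exact congrFun this x
    rw [hW, this, e4, hE.C3_13]
    unfold nb2
    rw [Finset.mul_sum]
    refine Finset.sum_congr rfl fun y _ => ?_
    rw [hE.C3_val, ← hE.mm_mul_nb x y]
    ring
  have e5 : ent F (fun x => x.2.2) = aQ Q := by
    rw [← hE.ent_snd]
    exact h.ent_edge hE fun e => e.2
  rw [← hW, e3, e5] at e2
  have e6 := subm hWn (A := fun x => (x.1.1, x.2)) (B := fun x => (x.1.1, x.1.2.2))
    (C := fun x => ((x.1.1, x.1.2.2), x.2)) (D := fun x => x.1.1) (fun x y => by
      simp only [Prod.ext_iff]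
      tauto) (fun x y => by
      simp only [Prod.ext_iff]
      tauto) (fun x y => by
      simp only [Prod.ext_iff]
      tauto)
  have e7 : ent W (fun x => (x.1.1, x.1.2.2)) = ent F (fun x => (x.1, x.2.2)) :=
    ent_att_fst k1 fun x => (x.1, x.2.2)
  have e8 : ent W (fun x => x.1.1) = ent F (fun x => x.1) := ent_att_fst k1 fun x => x.1
  rw [e7, e8] at e6
  rw [e1]
  linarith

end Lab

/-- for the chain -/
theorem hB_ge [DecidableEq U] (hE : Edge Q) (n : ℕ) (hn : 2 ≤ n) :
    hQ Q + h2Q Q - aQ Q ≤ hB Q n := by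
  obtain ⟨k, rfl⟩ : ∃ k, n = k + 2 := ⟨n - 2, by omega⟩
  have h1 := (PP_lab hE k).fresh hE
  rw [PP_label hE] at h1
  exact h1

end Vale.Agent.P050.M18
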