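import Mathlib.Tactic
import Mathlib.Analysis.SpecialFunctions.Log.Basic

/-!
A recursive inequality for a decreasing sequence.
-/

namespace Vale.Agent.P050.M18

open Finset

section rec

variable {A : ℕ → ℝ} {r : ℝ} (h0 : ∀ n, 0 ≤ A n) (hm : ∀ n, A (n + 1) ≤ A n)

include hm in
theorem anti_of_succ {m n : ℕ} (hmn : m ≤ n) : A n ≤ A m := antitone_nat_of_succ_le hm hmn

include h0 in
/-- a small decrement in a window -/
theorem exists_small (n w : ℕ) (hw : 0 < w) :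
    ∃ i, n ≤ i ∧ i < n + w ∧ w * (A i - A (i + 1)) ≤ A n := by
  by_contra hcon
  push Not at hcon
  have h1 : ∑ i ∈ range w, (A (n + i) - A (n + i + 1)) = A n - A (n + w) := by
    have := Finset.sum_range_sub' (fun i => A (n + i)) w
    simpa [add_assoc] using this
  have h2 : ∑ i ∈ range w, A n < ∑ i ∈ range w, (w : ℝ) * (A (n + i) - A (n + i + 1)) := by
    refine Finset.sum_lt_sum_of_nonempty ⟨0, mem_range.2 hw⟩ fun i hi => ?_
    exact hcon (n + i) (by omega) (by have := mem_range.1 hi; omega)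
  rw [← Finset.mul_sum, h1, Finset.sum_const, Finset.card_range, nsmul_eq_mul] at h2
  have h3 : (0 : ℝ) < w := by exact_mod_cast hw
  have h4 := h0 (n + w)
  have h5 := lt_of_mul_lt_mul_left h2 h3.le
  linarith

variable (hr : 0 ≤ r) (key : ∀ n, 2 ≤ n → ∀ N : ℕ, (N : ℝ) * A (2 * n + 1) ≤
  A n + (N * (N - 1) / 2 : ℝ) * (A n - A (n + 1)) + N * r)

include h0 hm hr key

omit hr in
/-- from `n` to `4 n` -/
theorem rec_four (n N : ℕ) (hn : 2 ≤ n) (hN : 1 ≤ N) (hNn : (N : ℝ) * (N - 1) ≤ 2 * n) :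
    (N : ℝ) * A (4 * n) ≤ 2 * A n + N * r := by
  obtain ⟨i, hi1, hi2, hi3⟩ := exists_small h0 n n (by omega)
  have h1 := key i (by omega) N
  have h2 : A (4 * n) ≤ A (2 * i + 1) := anti_of_succ hm (by omega)
  have h3 : A i ≤ A n := anti_of_succ hm hi1
  have hN' : (1 : ℝ) ≤ N := by exact_mod_cast hN
  have hd : 0 ≤ A i - A (i + 1) := by linarith [hm i]
  have h4 : (N * (N - 1) / 2 : ℝ) * (A i - A (i + 1)) ≤ A n := by
    have : (N * (N - 1) / 2 : ℝ) * (A i - A (i + 1)) ≤ n * (A i - A (i + 1)) :=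
      mul_le_mul_of_nonneg_right (by linarith) hd
    linarith
  have h5 : (N : ℝ) * A (4 * n) ≤ N * A (2 * i + 1) := mul_le_mul_of_nonneg_left h2 (by linarith)
  linarith

/-- the values at powers of `4` -/
theorem rec_pow (t : ℕ) : A (4 ^ (t + 1)) ≤ A 4 / 2 ^ (t.choose 2) + 2 * r := by
  induction t with
  | zero =>
    simp only [zero_add, pow_one, Nat.choose_zero_succ, pow_zero, div_one]
    linarith
  | succ t ih =>
    have h1 := rec_four h0 hm key (4 ^ (t + 1)) (2 ^ (t + 1)) (by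
      calc 2 ≤ 4 ^ 1 := by norm_num
        _ ≤ 4 ^ (t + 1) := Nat.pow_le_pow_right (by norm_num) (by omega)) Nat.one_le_two_pow (by
      push_cast
      have e : (4 : ℝ) ^ (t + 1) = 2 ^ (t + 1) * 2 ^ (t + 1) := by
        rw [← mul_pow]; norm_num
      rw [e]
      have : (0 : ℝ) < 2 ^ (t + 1) := by positivity
      nlinarith)
    have e1 : 4 * 4 ^ (t + 1) = 4 ^ (t + 1 + 1) := by ring
    rw [e1] at h1
    push_cast at h1
    have e2 : (t + 1).choose 2 = t + t.choose 2 := by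
      rw [Nat.choose_succ_succ' t 1, Nat.choose_one_right]
    have e4 : (2 : ℝ) ^ (t + t.choose 2) = 2 ^ t * 2 ^ (t.choose 2) := pow_add _ _ _
    rw [e2, e4]
    have hp : (0 : ℝ) < 2 ^ (t + 1) := by positivity
    have hp' : (0 : ℝ) < 2 ^ t := by positivity
    have hq : (0 : ℝ) < 2 ^ (t.choose 2) := by positivity
    -- divide by `2 ^ (t + 1)`
    have h2 : A (4 ^ (t + 1 + 1)) ≤ A (4 ^ (t + 1)) / 2 ^ t + r := by
      have e3 : (2 : ℝ) ^ (t + 1) = 2 * 2 ^ t := by rw [pow_succ]; ring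
      rw [e3] at h1
      rw [← sub_le_iff_le_add, le_div_iff₀ hp']
      linarith
    rcases Nat.eq_zero_or_pos t with ht | ht
    · subst ht
      have h3 : A (4 ^ (0 + 1 + 1)) ≤ A 4 := anti_of_succ hm (by norm_num)
      simpa using by linarith
    · have h4 : A (4 ^ (t + 1)) / 2 ^ t ≤ (A 4 / 2 ^ (t.choose 2) + 2 * r) / 2 ^ t :=
        div_le_div_of_nonneg_right ih hp'.le
      have h5 : (A 4 / 2 ^ (t.choose 2) + 2 * r) / 2 ^ t =
          A 4 / (2 ^ t * 2 ^ (t.choose 2)) + 2 * r / 2 ^ t := by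
        field_simp
      have h6 : 2 * r / 2 ^ t ≤ r := by
        rw [div_le_iff₀ hp']
        have : (2 : ℝ) ^ 1 ≤ 2 ^ t := pow_le_pow_right₀ (by norm_num) ht
        nlinarith
      linarith

/-- a small decrement far away -/
theorem rec_small (t : ℕ) : ∃ i, 4 ^ (t + 1) ≤ i ∧ i < 2 * 4 ^ (t + 1) ∧
    2 * (A i - A (i + 1)) ≤ A 4 / 2 ^ ((t + 2).choose 2) + r := by
  obtain ⟨i, hi1, hi2, hi3⟩ := exists_small h0 (4 ^ (t + 1)) (4 ^ (t + 1)) (by positivity)
  refine ⟨i, hi1, by omega, ?_⟩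
  have h1 := rec_pow h0 hm hr key t
  have hp : (0 : ℝ) < 4 ^ (t + 1) := by positivity
  push_cast at hi3
  have e2 : (t + 2).choose 2 = t + 1 + (t + t.choose 2) := by
    rw [Nat.choose_succ_succ' (t + 1) 1, Nat.choose_one_right, Nat.choose_succ_succ' t 1,
      Nat.choose_one_right]
  have e3 : (4 : ℝ) ^ (t + 1) * 2 ^ (t.choose 2) = 2 * 2 ^ ((t + 2).choose 2) := by
    have e4 : (2 : ℝ) ^ (t + 1 + (t + t.choose 2)) = 2 ^ t * 2 * (2 ^ t * 2 ^ (t.choose 2)) := by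
      rw [pow_add, pow_add, pow_add, pow_one]
    have e5 : (4 : ℝ) ^ (t + 1) = 4 * (2 ^ t * 2 ^ t) := by
      rw [pow_succ, ← mul_pow]
      norm_num
      ring
    rw [e2, e4, e5]
    ring
  have h2 : A i - A (i + 1) ≤ (A 4 / 2 ^ (t.choose 2) + 2 * r) / 4 ^ (t + 1) := by
    rw [le_div_iff₀ hp]
    linarith
  have h3 : (A 4 / 2 ^ (t.choose 2) + 2 * r) / 4 ^ (t + 1) =
      A 4 / (4 ^ (t + 1) * 2 ^ (t.choose 2)) + 2 * r / 4 ^ (t + 1) := by
    field_simp
  have h4 : 2 * r / 4 ^ (t + 1) ≤ r / 2 := by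
    rw [div_le_iff₀ hp]
    have : (4 : ℝ) ^ 1 ≤ 4 ^ (t + 1) := pow_le_pow_right₀ (by norm_num) (by omega)
    nlinarith
  rw [h3, e3] at h2
  have h5 : A 4 / (2 * 2 ^ ((t + 2).choose 2)) = A 4 / 2 ^ ((t + 2).choose 2) / 2 := by
    rw [mul_comm, ← div_div]
  rw [h5] at h2
  linarith

end rec

end Vale.Agent.P050.M18
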