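import Vale.Agent.P050.M18.Cyc4
import Vale.Agent.P050.M18.Rec
import Vale.Agent.P050.H180.Ent3

/-!
Moebius ladders, 4-cycles and the cube.
-/

set_option linter.unusedSectionVars false

namespace Vale.Agent.P050.M18

open Finset Vale.Agent.P050.Cart Vale.Agent.P050.Join Vale.Agent.P050.H148 Vale.Agent.P050.H180

section abstract

variable {U : Type} [Fintype U] [DecidableEq U]
variable {C : U × U → U × U → ℝ} {Q : U × U → ℝ} (hE : Edge Q)

include hE

theorem r_nonneg : 0 ≤ 2 * aQ Q - h2Q Q := by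
  have h1 := suba hE.C3_nn hE.C3_tot (A := fun x => x.1.1) (B := fun x => x.2)
    (C := fun x => (x.1.1, x.2)) (fun x y => by
      simp only [Prod.mk.injEq]
      tauto)
  have h2 : ent (C3 Q) (fun x => x.1.1) = aQ Q := by
    have h3 : ent (C3 Q) (fun x => x.1.1) = ent (mar (C3 Q) (fun x => x.1)) (fun e => e.1) := by
      rw [ent_mar]
    rw [h3, hE.C3_12, hE.ent_fst]
  have h4 : ent (C3 Q) (fun x => x.2) = aQ Q := by
    have h3 : ent (C3 Q) (fun x => x.2) = ent (mar (C3 Q) (fun x => (x.1.2, x.2)))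
        (fun e => e.2) := by
      rw [ent_mar]
    rw [h3, hE.C3_23, hE.ent_snd]
  rw [h2, h4] at h1
  have h5 : ent (C3 Q) (fun x => (x.1.1, x.2)) = h2Q Q := rfl
  linarith

theorem hP_le (n : ℕ) : hP Q n ≤ 2 * hQ Q := by
  have hl := PP_lab hE n
  have h1 := suba hl.nn (hl.tot hE) (A := fun x => x.1) (B := fun x => x.2)
    (C := fun x => x) (fun x y h1 h2 => Prod.ext h1 h2)
  have h2 : ent (PP Q n) (fun x => x.2) = hQ Q := hl.ent_edge hE fun e => e
  rw [PP_label hE, h2] at h1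
  unfold hP
  linarith

/-- the mutual information after `n` steps -/
noncomputable def AA (Q : U × U → ℝ) (n : ℕ) : ℝ := 2 * hQ Q - hP Q n

theorem AA_key (n : ℕ) (hn : 2 ≤ n) (N : ℕ) : (N : ℝ) * AA Q (2 * n + 1) ≤
    AA Q n + (N * (N - 1) / 2 : ℝ) * (AA Q n - AA Q (n + 1)) + N * (2 * aQ Q - h2Q Q) := by
  have h1 := copies_ineq hE n N
  have h2 := hB_ge hE n hn
  have h3 : (N : ℝ) * (hQ Q + aQ Q - hB Q n) ≤ N * (2 * aQ Q - h2Q Q) :=
    mul_le_mul_of_nonneg_left (by linarith) (Nat.cast_nonneg N)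
  unfold AA
  have e : hP Q (n + 1) - hP Q n = 2 * hQ Q - hP Q n - (2 * hQ Q - hP Q (n + 1)) := by ring
  rw [e] at h1
  linarith

theorem AA_small (t : ℕ) : ∃ i, 4 ^ (t + 1) ≤ i ∧ i < 2 * 4 ^ (t + 1) ∧
    2 * (hP Q (i + 1) - hP Q i) ≤ AA Q 2 / 2 ^ ((t + 2).choose 2) + (2 * aQ Q - h2Q Q) := by
  obtain ⟨i, h1, h2, h3⟩ := rec_small (A := AA Q) (r := 2 * aQ Q - h2Q Q)
    (fun n => by unfold AA; linarith [hP_le hE n])
    (fun n => by unfold AA; linarith [hP_mono hE n]) (r_nonneg hE)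
    (fun n hn N => AA_key hE n hn N) t
  refine ⟨i, h1, h2, ?_⟩
  have h4 : AA Q 4 ≤ AA Q 2 := by
    unfold AA
    linarith [hP_mono' hE (show 2 ≤ 4 by norm_num)]
  have h5 : AA Q 4 / 2 ^ ((t + 2).choose 2) ≤ AA Q 2 / 2 ^ ((t + 2).choose 2) :=
    div_le_div_of_nonneg_right h4 (by positivity)
  have h6 : AA Q i - AA Q (i + 1) = hP Q (i + 1) - hP Q i := by unfold AA; ring
  rw [h6] at h3
  linarith

variable (hC : Four C Q)
include hC

theorem steps {T : (U × U) × (U × U) → ℝ} (hT0 : ∀ x, 0 ≤ T x)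
    (hT1 : ∀ e, ∑ e', T (e, e') = Q e) (hT2 : ∀ e', ∑ e, T (e, e') = Q e')
    (hTC : ∀ x, T x ≠ 0 → C x.1 x.2 = 1) {n : ℕ} {F : (U × U) × (U × U) → ℝ} {v : ℝ}
    (h : St C Q n F v) (j : ℕ) :
    ∃ F', St C Q (n + j) F' (v + j * (ent T (fun x => x) - hQ Q)) ∧
      ent F (fun x => x) ≤ ent F' (fun x => x) := by
  induction j with
  | zero => exact ⟨F, by simpa using h, le_rfl⟩
  | succ j ih =>
    obtain ⟨F1, h1, h2⟩ := ih
    obtain ⟨F2, h3, h4⟩ := h1.step hE hC hT0 hT1 hT2 hTC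
    refine ⟨F2, ?_, h2.trans h4⟩
    have e : v + (j + 1 : ℕ) * (ent T (fun x => x) - hQ Q) =
        v + j * (ent T (fun x => x) - hQ Q) + (ent T (fun x => x) - hQ Q) := by
      push_cast; ring
    rw [e]
    exact h3

/-- the number of Moebius ladders -/
theorem ladder_log {T : (U × U) × (U × U) → ℝ} (hT0 : ∀ x, 0 ≤ T x)
    (hT1 : ∀ e, ∑ e', T (e, e') = Q e) (hT2 : ∀ e', ∑ e, T (e, e') = Q e')
    (hTC : ∀ x, T x ≠ 0 → C x.1 x.2 = 1) (i j : ℕ) (hi : 2 ≤ i) :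
    0 < tw C (i + 1 + j) ∧
    (2 * i + 3) * (3 * hQ Q - 4 * aQ Q) + 2 * i * (2 * aQ Q - h2Q Q) +
      2 * j * (ent T (fun x => x) - hQ Q) - 2 * (hP Q (i + 1) - hP Q i) ≤
        Real.log (tw C (i + 1 + j)) := by
  have h1 := (st_PP hE hC i).aw hE hC
  have h2 : ent (aw Q (PP Q i)) (fun x => x) = hB Q i + (hQ Q - aQ Q) := (PP_lab hE i).aw_ent hE
  have h3 := hB_ge hE i hi
  obtain ⟨F, h4, h5⟩ := steps hE hC hT0 hT1 hT2 hTC h1 j
  have h6 := h4.twist hE hC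
  refine ⟨h6.1, ?_⟩
  have h7 := h6.2
  have e1 : ent (nx Q (PP Q i)) (fun x => x) = hP Q (i + 1) := rfl
  have e2 : ent (PP Q i) (fun x => x) = hP Q i := rfl
  rw [e1, e2] at h7
  have e3 : gQ Q = 3 * hQ Q - 2 * aQ Q - h2Q Q := rfl
  rw [e3] at h7
  rw [h2] at h5
  nlinarith [h7, h5, h3]

/-- the number of prisms over a 4-cycle -/
theorem cube_log : 0 < pr C 2 ∧ AA Q 2 + 4 * (3 * hQ Q - 4 * aQ Q) ≤ Real.log (pr C 2) := by
  have h1 := (st_PP hE hC 2).prism hE hC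
  refine ⟨h1.1, ?_⟩
  have h2 := h1.2
  have e2 : ent (PP Q 2) (fun x => x) = hP Q 2 := rfl
  have e3 : gQ Q = 3 * hQ Q - 2 * aQ Q - h2Q Q := rfl
  rw [e2, e3] at h2
  have h3 := r_nonneg hE
  unfold AA
  push_cast at h2
  linarith

end abstract

section graph

variable {X : Type} [Fintype X] (G : SimpleGraph X) (hG : ∃ x y, G.Adj x y)
include hG

/-- the inequality in terms of logarithms of numbers -/
theorem main_log [DecidableEq X] (t m : ℕ) (hm : 8 * 4 ^ (t + 1) + 5 ≤ m) :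
    ∃ i j : ℕ, m = i + 1 + j ∧ 4 * i + 9 ≤ m ∧
    (2 ^ ((t + 2).choose 2) * (2 * i + 3) + 4) *
      (3 * Real.log (∑ x, ∑ y, adj G x y) - 4 * Real.log (Fintype.card X)) +
      2 * j * 2 ^ ((t + 2).choose 2) * (Real.log (tot G) - Real.log (∑ x, ∑ y, adj G x y)) ≤
      2 ^ ((t + 2).choose 2) * Real.log (tw (CG G) m) + Real.log (pr (CG G) 2) ∧
    0 < tw (CG G) m ∧ 0 < pr (CG G) 2 := by
  have hE := Q4_edge G hG
  have hC := Q4_four G hG
  obtain ⟨i, hi1, hi2, hi3⟩ := AA_small hE t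
  have h4 : 4 ^ 1 ≤ 4 ^ (t + 1) := Nat.pow_le_pow_right (by norm_num) (by omega)
  obtain ⟨j, hj⟩ : ∃ j, m = i + 1 + j := ⟨m - i - 1, by omega⟩
  have h5 := ladder_log hE hC (T4_nn G hG) (fun e => rfl) (T4_right G hG)
    (fun x hx => T4_ne G hG hx) i j (by omega)
  have h6 := cube_log hE hC
  rw [← hj] at h5
  refine ⟨i, j, hj, by omega, ?_, h5.1, h6.1⟩
  have h7 := h5.2
  rw [T4_ent G hG] at h7
  have h8 := r_nonneg hE
  have h9 := hQ4_le G hG
  have h10 := aQ4_le G hG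
  set D : ℝ := 2 ^ ((t + 2).choose 2) with hD
  set E := Real.log (∑ x, ∑ y, adj G x y) with hEd
  set ℓ := Real.log (Fintype.card X) with hℓ
  set c4 := Real.log (tot G) with hc4
  set hh := hQ (Q4 G) with hhd
  set a := aQ (Q4 G) with had
  set r := 2 * a - h2Q (Q4 G) with hrd
  have hD2 : (2 : ℝ) ≤ D := by
    have : (2 : ℝ) ^ 1 ≤ 2 ^ ((t + 2).choose 2) := pow_le_pow_right₀ (by norm_num) (by
      have : Nat.choose 2 2 ≤ (t + 2).choose 2 := Nat.choose_le_choose 2 (by omega)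
      simpa using this)
    rw [hD]
    linarith
  -- the small decrement
  have h11 : D * (2 * (hP (Q4 G) (i + 1) - hP (Q4 G) i)) ≤ AA (Q4 G) 2 + D * r := by
    have h12 := mul_le_mul_of_nonneg_left hi3 (by linarith : (0 : ℝ) ≤ D)
    rw [mul_add, mul_div_cancel₀ _ (by linarith : D ≠ 0)] at h12
    exact h12
  have hi0 : (4 : ℝ) ≤ i := by
    have : 4 ≤ i := by omega
    exact_mod_cast this
  have hj0 : (3 * i + 8 : ℝ) ≤ j := by
    have : 3 * i + 8 ≤ j := by omega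
    exact_mod_cast this
  have h13 := mul_le_mul_of_nonneg_left h7 (by linarith : (0 : ℝ) ≤ D)
  have h14 := h6.2
  -- coefficient of the entropy of an edge
  have h15 : 0 ≤ (2 * j * D - 3 * (D * (2 * i + 3) + 4)) * (E - hh) := by
    refine mul_nonneg ?_ (by linarith)
    nlinarith
  have h16 : 0 ≤ (D * (2 * i + 3) + 4) * (ℓ - a) := by
    refine mul_nonneg ?_ (by linarith)
    nlinarith
  have h17 : 0 ≤ D * ((2 * i - 1) * r) := by
    refine mul_nonneg (by linarith) (mul_nonneg (by linarith) h8)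
  nlinarith [h11, h13, h14, h15, h16, h17]

end graph

end Vale.Agent.P050.M18
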