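import Vale.Agent.P050.M18.Copies

/-!
The mutual information of the ends of a chain of length `2 n + 1`.
-/

set_option linter.unusedSectionVars false

namespace Vale.Agent.P050.M18

open Finset Vale.Agent.P050.Cart Vale.Agent.P050.Join

variable {U : Type} [Fintype U] [DecidableEq U]

/-- the joint law of the ends of a cherry and many vertices with labels -/
noncomputable def SS (Q : U × U → ℝ) (n : ℕ) (J : Type) [Fintype J] [DecidableEq J] :
    (U × U) × (Option J → U × (U × U)) → ℝ := star (c2 Q) (gg Q n (J := J))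

variable {Q : U × U → ℝ} (hE : Edge Q) (n : ℕ) {J : Type} [Fintype J] [DecidableEq J]
include hE

theorem SS_nn (x) : 0 ≤ SS Q n J x := star_nonneg (star_ok hE n) x

theorem SS_tot : ∑ x, SS Q n J x = 1 := star_total (star_ok hE n)

theorem SS_c : ent (SS Q n J) (fun x => x.1) = h2Q Q := by
  have h1 := ent_star_fst (star_ok hE n (J := J)) (fun c => c)
  unfold SS
  rw [h1]
  unfold c2 h2Q
  rw [ent_mar]

theorem c2_ent : ent (c2 Q) (fun c => c) = h2Q Q := by
  unfold c2 h2Q
  rw [ent_mar]

theorem A1_all : ent (A1 Q (PP Q n)) (fun x => x) = hP Q n + (hQ Q - aQ Q) := by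
  have h2 := (PP_lab hE n).A1_ent hE (fun x => x) (fun x => x.2.2) (fun _ => rfl)
  exact h2

theorem SS_some (j : J) : ent (SS Q n J) (fun x => (x.1, x.2 (some j))) =
    hP Q n + (hQ Q - aQ Q) := by
  have h1 := ent_some hE n j (fun y => y)
  have h2 : ent (A1 Q (PP Q n)) (fun x => ((x.1.2.1, x.2), (x.1.2.2, x.1.1))) =
      ent (A1 Q (PP Q n)) (fun x => x) := ent_same _ fun x y => by
    simp only [Prod.ext_iff]
    tauto
  rw [← A1_all hE n, ← h2]
  exact h1

theorem SS_some_y (j : J) : ent (SS Q n J) (fun x => (x.1, (x.2 (some j)).1)) =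
    2 * hQ Q - aQ Q := by
  have h1 := ent_some hE n j (fun y => (y.1, y.2.1))
  rw [← (PP_lab hE n).A1_ent_mid hE]
  exact h1

theorem SS_none : ent (SS Q n J) (fun x => (x.1, x.2 none)) = hP Q n + (hQ Q - aQ Q) := by
  have h1 := ent_none hE n (J := J) (fun y => y)
  have h2 : ent (A1 Q (PP Q n)) (fun x => ((x.2, x.1.2.1), (x.1.2.2, x.1.1))) =
      ent (A1 Q (PP Q n)) (fun x => x) := ent_same _ fun x y => by
    simp only [Prod.ext_iff]
    tauto
  rw [← A1_all hE n, ← h2]
  exact h1

theorem SS_none_y : ent (SS Q n J) (fun x => (x.1, (x.2 none).1)) = 2 * hQ Q - aQ Q := by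
  have h1 := ent_none hE n (J := J) (fun y => (y.1, y.2.1))
  rw [← (PP_lab hE n).A1_ent_mid hE]
  have h2 : ent (A1 Q (PP Q n)) (fun x => ((x.2, x.1.2.1), x.1.2.2)) =
      ent (A1 Q (PP Q n)) (fun x => ((x.1.2.1, x.2), x.1.2.2)) := ent_same _ fun x y => by
    simp only [Prod.ext_iff]
    tauto
  rw [← h2]
  exact h1

theorem SS_edge (j : J) : ent (SS Q n J) (fun x => ((x.2 (some j)).1, x.1.2)) = hQ Q := by
  have h1 := ent_some hE n j (fun y => (y.2.1, y.1.2))
  have h2 : ent (A1 Q (PP Q n)) (fun x => (x.1.2.2, x.2)) = hQ Q := by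
    unfold ent
    rw [(PP_lab hE n).A1_edge hE]
    unfold hQ ent
    simp_rw [mar_id]
  rw [← h2]
  exact h1

theorem SS_edge_label (j : J) :
    ent (SS Q n J) (fun x => ((x.2 (some j)).2, ((x.2 (some j)).1, x.1.2))) =
      hB Q n + (hQ Q - aQ Q) := by
  have h1 := ent_some hE n j (fun y => (y.2.2, (y.2.1, y.1.2)))
  have h2 := (PP_lab hE n).A1_ent hE (fun x => (x.1, x.2.2)) (fun y => y.2) (fun _ => rfl)
  have h3 : ent (A1 Q (PP Q n)) (fun x => (x.1.1, (x.1.2.2, x.2))) =
      ent (A1 Q (PP Q n)) (fun x => ((x.1.1, x.1.2.2), x.2)) := ent_same _ fun x y => by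
    simp only [Prod.ext_iff]
    tauto
  have h4 : hB Q n = ent (PP Q n) (fun x => (x.1, x.2.2)) := rfl
  rw [h4, ← h2, ← h3]
  exact h1

theorem SS_label (i : Option J) : ent (SS Q n J) (fun x => (x.2 i).2) = hQ Q := by
  have h2 : ent (A1 Q (PP Q n)) (fun x => x.1.1) = hQ Q := by
    rw [(PP_lab hE n).A1_ent_fst hE (fun x => x.1), PP_label hE]
  rw [← h2]
  cases i with
  | none => exact ent_none hE n (J := J) (fun y => y.2.2)
  | some j => exact ent_some hE n j (fun y => y.2.2)

/-- the conditional entropy of a label given the ends of the cherry -/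
theorem SS_c_label (j : J) : hP Q n - hQ Q ≤
    ent (SS Q n J) (fun x => (x.1, (x.2 (some j)).2)) - h2Q Q := by
  have h1 := subm (SS_nn hE n (J := J)) (A := fun x => (x.1, (x.2 (some j)).2))
    (B := fun x => (x.1, (x.2 (some j)).1)) (C := fun x => (x.1, x.2 (some j)))
    (D := fun x => x.1) (fun x y => by
      simp only [Prod.ext_iff]
      tauto) (fun x y => by
      simp only [Prod.ext_iff]
      tauto) (fun x y => by
      simp only [Prod.ext_iff]
      tauto)
  rw [SS_some hE, SS_some_y hE, SS_c hE] at h1
  linarith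

/-- the labels in a set -/
def lab (A : Finset (Option J)) (x : (U × U) × (Option J → U × (U × U))) :
    Option J → Option (U × U) := fun i => if i ∈ A then some (x.2 i).2 else none

omit hE in
theorem lab_eq_iff (A : Finset (Option J)) (x y : (U × U) × (Option J → U × (U × U))) :
    lab A x = lab A y ↔ ∀ i ∈ A, (x.2 i).2 = (y.2 i).2 := by
  unfold lab
  constructor
  · intro h i hi
    have := congrFun h i
    simp only [if_pos hi, Option.some.injEq] at this
    exact this
  · intro h
    funext i
    by_cases hi : i ∈ A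
    · simp only [if_pos hi, h i hi]
    · simp only [if_neg hi]

/-- conditional entropies of labels -/
theorem sum_lab {α : Type} [Fintype α] (A : Finset (Option J))
    (w : (U × U) × (Option J → U × (U × U)) → α) :
    ent (SS Q n J) (fun x => (w x, lab A x)) ≤ ent (SS Q n J) w +
      ∑ i ∈ A, (ent (SS Q n J) (fun x => (w x, (x.2 i).2)) - ent (SS Q n J) w) := by
  have h1 := ent_chain (SS_nn hE n (J := J)) (SS_tot hE n) w (fun x i => lab A x i) (fun _ y => y)
  have e1 : ∀ i, ent (SS Q n J) (fun x => (w x, lab A x i)) - ent (SS Q n J) w =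
      if i ∈ A then (ent (SS Q n J) (fun x => (w x, (x.2 i).2)) - ent (SS Q n J) w) else 0 := by
    intro i
    by_cases hi : i ∈ A
    · rw [if_pos hi]
      congr 1
      exact ent_same _ fun x y => by
        simp only [Prod.mk.injEq, lab, if_pos hi, Option.some.injEq]
    · rw [if_neg hi, sub_eq_zero]
      exact ent_same _ fun x y => by
        simp only [Prod.mk.injEq, lab, if_neg hi, and_true]
  have e2 : ∑ i, (ent (SS Q n J) (fun x => (w x, lab A x i)) - ent (SS Q n J) w) =
      ∑ i ∈ A, (ent (SS Q n J) (fun x => (w x, (x.2 i).2)) - ent (SS Q n J) w) := by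
    rw [Finset.sum_congr rfl fun i _ => e1 i, Finset.sum_ite_mem, Finset.univ_inter]
  have e3 : ∑ j, (ent (SS Q n J) (fun ω => (w ω, lab A ω j)) - ent (SS Q n J) (fun ω => w ω)) =
      ∑ i ∈ A, (ent (SS Q n J) (fun x => (w x, (x.2 i).2)) - ent (SS Q n J) w) := e2
  rw [e3] at h1
  exact h1

/-- the labels in a set are conditionally independent of another vertex with its label -/
theorem indep_lab (A : Finset (Option J)) (j : Option J) (hj : j ∉ A) :
    ent (SS Q n J) (fun x => ((x.1, x.2 j), lab A x)) =
      ent (SS Q n J) (fun x => (x.1, x.2 j)) +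
        ∑ i ∈ A, (ent (SS Q n J) (fun x => (x.1, (x.2 i).2)) - h2Q Q) := by
  have h1 := star_coarse (star_ok hE n (J := J)) (fun i z =>
    ((if i = j then some z.1 else none, if i = j ∨ i ∈ A then some z.2 else none) :
      Option U × Option (U × U)))
  rw [c2_ent hE] at h1
  have e1 : ent (star (c2 Q) (gg Q n (J := J))) (fun x => (x.1, fun i =>
      ((if i = j then some (x.2 i).1 else none, if i = j ∨ i ∈ A then some (x.2 i).2 else none) :
        Option U × Option (U × U)))) = ent (SS Q n J) (fun x => ((x.1, x.2 j), lab A x)) :=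
    ent_same _ fun x y => by
      simp only [Prod.mk.injEq, lab_eq_iff]
      constructor
      · rintro ⟨a, b⟩
        have b' := fun i => congrFun b i
        simp only [Prod.mk.injEq] at b'
        refine ⟨⟨a, ?_⟩, fun i hi => ?_⟩
        · have := b' j
          simp only [if_true, true_or, Option.some.injEq] at this
          exact Prod.ext this.1 this.2
        · have := (b' i).2
          simp only [if_pos (Or.inr hi), Option.some.injEq] at this
          exact this
      · rintro ⟨⟨a, b⟩, c⟩
        refine ⟨a, funext fun i => ?_⟩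
        by_cases hi : i = j
        · subst hi; rw [b]
        · by_cases hiA : i ∈ A
          · simp only [if_neg hi, hiA, or_true, if_true, c i hiA]
          · have : ¬ (i = j ∨ i ∈ A) := by tauto
            simp only [if_neg hi, if_neg this]
  have e2 : ∀ i, ent (star (c2 Q) (gg Q n (J := J))) (fun x => (x.1,
      ((if i = j then some (x.2 i).1 else none, if i = j ∨ i ∈ A then some (x.2 i).2 else none) :
        Option U × Option (U × U)))) - h2Q Q =
      (if i = j then ent (SS Q n J) (fun x => (x.1, x.2 j)) - h2Q Q else 0) +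
      (if i ∈ A then ent (SS Q n J) (fun x => (x.1, (x.2 i).2)) - h2Q Q else 0) := by
    intro i
    by_cases hi : i = j
    · subst hi
      rw [if_pos rfl, if_neg hj, add_zero]
      congr 1
      exact ent_same _ fun x y => by
        simp only [if_true, true_or, Prod.mk.injEq, Option.some.injEq]
        constructor
        · rintro ⟨a, b⟩; exact ⟨a, Prod.ext b.1 b.2⟩
        · rintro ⟨a, b⟩; exact ⟨a, by rw [b], by rw [b]⟩
    · rw [if_neg hi, zero_add]
      by_cases hiA : i ∈ A
      · rw [if_pos hiA]
        congr 1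
        exact ent_same _ fun x y => by
          simp only [if_neg hi, hiA, or_true, if_true, Prod.mk.injEq, Option.some.injEq, true_and]
      · rw [if_neg hiA, sub_eq_zero, ← SS_c hE n (J := J)]
        have : ¬ (i = j ∨ i ∈ A) := by tauto
        exact ent_same _ fun x y => by
          simp only [if_neg hi, if_neg this, Prod.mk.injEq, and_true]
  rw [e1] at h1
  simp only [e2] at h1
  rw [h1, Finset.sum_add_distrib, Finset.sum_ite_eq' univ j, if_pos (mem_univ j),
    Finset.sum_ite_mem, Finset.univ_inter]
  ring

/-- adding a label to a set of labels -/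
theorem lab_insert (A : Finset (Option J)) (hA : none ∉ A) (j : J) (hj : some j ∉ A) :
    ent (SS Q n J) (lab A) + (hB Q n - aQ Q) - A.card * (hP Q (n + 1) - hP Q n) ≤
      ent (SS Q n J) (lab (insert (some j) A)) := by
  have hnn := SS_nn hE n (J := J)
  -- notation
  have g1 := subm hnn (A := lab (insert (some j) A))
    (B := fun x => (((x.2 (some j)).1, x.1.2), lab A x))
    (C := fun x => (((x.2 (some j)).2, ((x.2 (some j)).1, x.1.2)), lab A x))
    (D := lab A) (fun x y => by
      simp only [Prod.mk.injEq, lab_eq_iff]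
      intro a b
      exact ⟨⟨a (some j) (mem_insert_self _ _), b.1⟩, b.2⟩) (fun x y => by
      simp only [lab_eq_iff]
      exact fun a i hi => a i (mem_insert_of_mem hi)) (fun x y => by
      simp only [Prod.mk.injEq]
      exact fun a => a.2)
  have g2 := subm hnn (A := fun x => (((x.2 (some j)).2, ((x.2 (some j)).1, x.1.2)), lab A x))
    (B := fun x => (x.1, x.2 (some j)))
    (C := fun x => ((x.1, x.2 (some j)), lab A x))
    (D := fun x => ((x.2 (some j)).2, ((x.2 (some j)).1, x.1.2))) (fun x y => by
      simp only [Prod.mk.injEq]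
      exact fun a b => ⟨b, a.2⟩) (fun x y => by
      simp only [Prod.mk.injEq]
      exact fun a => a.1) (fun x y => by
      simp only [Prod.mk.injEq, Prod.ext_iff]
      tauto)
  have g3 := sum_lab hE n A (fun x => ((x.2 (some j)).1, x.1.2))
  have g4 := indep_lab hE n A (some j) hj
  rw [SS_edge hE] at g3
  rw [SS_edge_label hE] at g2
  have g5 : ∀ i ∈ A, ent (SS Q n J) (fun x => (((x.2 (some j)).1, x.1.2), (x.2 i).2)) - hQ Q =
      hP Q (n + 1) - hQ Q := by
    intro i hi
    obtain ⟨i', rfl⟩ : ∃ i', i = some i' := by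
      cases i with
      | none => exact absurd hi hA
      | some i' => exact ⟨i', rfl⟩
    have hij : i' ≠ j := by
      rintro rfl
      exact hj hi
    rw [← ent_other hE n hij]
    congr 1
    exact ent_same _ fun x y => by
      simp only [Prod.mk.injEq]
      tauto
  have g6 : ∀ i ∈ A, hP Q n - hQ Q ≤ ent (SS Q n J) (fun x => (x.1, (x.2 i).2)) - h2Q Q := by
    intro i hi
    obtain ⟨i', rfl⟩ : ∃ i', i = some i' := by
      cases i with
      | none => exact absurd hi hA
      | some i' => exact ⟨i', rfl⟩
    exact SS_c_label hE n i'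
  rw [Finset.sum_congr rfl g5, Finset.sum_const, nsmul_eq_mul] at g3
  have g7 := Finset.card_nsmul_le_sum A _ _ g6
  rw [nsmul_eq_mul] at g7
  rw [g4] at g2
  have e1 : ent (SS Q n J) (fun x => (x.1, x.2 (some j))) = hP Q n + (hQ Q - aQ Q) := SS_some hE n j
  nlinarith [g1, g2, g3, g7, e1]

/-- the entropy of the labels -/
theorem lab_ge (A : Finset J) :
    A.card * (hB Q n - aQ Q) - (A.card * (A.card - 1) / 2 : ℝ) * (hP Q (n + 1) - hP Q n) ≤
      ent (SS Q n J) (lab (A.map Function.Embedding.some)) := by
  induction A using Finset.induction_on with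
  | empty =>
    have h1 : ent (SS Q n J) (lab (Finset.map Function.Embedding.some (∅ : Finset J))) = 0 := by
      rw [← ent_const (SS_tot hE n (J := J)) ()]
      exact ent_same _ fun x y => by
        simp only [lab_eq_iff, Finset.map_empty, Finset.notMem_empty, false_imp_iff, implies_true]
    rw [h1]
    simp
  | insert j A hj ih =>
    have h1 := lab_insert hE n (A.map Function.Embedding.some) (by simp) j (by simpa using hj)
    have e1 : insert (some j) (A.map Function.Embedding.some) =
        (insert j A).map Function.Embedding.some := by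
      rw [Finset.map_insert]
      rfl
    rw [e1] at h1
    rw [Finset.card_insert_of_notMem hj]
    rw [Finset.card_map] at h1
    push_cast
    nlinarith [h1, ih]

/-- **the inequality for many copies**: the mutual information of the ends after `2 n + 1` steps -/
theorem copies_ineq (N : ℕ) : (N : ℝ) * (2 * hQ Q - hP Q (2 * n + 1)) ≤
    (2 * hQ Q - hP Q n) + (N * (N - 1) / 2 : ℝ) * (hP Q (n + 1) - hP Q n) +
      N * (hQ Q + aQ Q - hB Q n) := by
  have hnn := SS_nn hE n (J := Fin N)
  set A : Finset (Option (Fin N)) := (univ : Finset (Fin N)).map Function.Embedding.some with hA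
  have hc : (A.card : ℝ) = N := by rw [hA, Finset.card_map, Finset.card_univ, Fintype.card_fin]
  have hnone : none ∉ A := by rw [hA]; simp
  have g1 := lab_ge hE n (univ : Finset (Fin N))
  rw [← hA, Finset.card_univ, Fintype.card_fin] at g1
  -- upper bound
  have g2 := sum_lab hE n A (fun x => (x.2 none).2)
  rw [SS_label hE] at g2
  have g3 : ∀ i ∈ A, ent (SS Q n (Fin N)) (fun x => ((x.2 none).2, (x.2 i).2)) - hQ Q =
      hP Q (2 * n + 1) - hQ Q := by
    intro i hi
    obtain ⟨i', rfl⟩ : ∃ i', i = some i' := by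
      cases i with
      | none => exact absurd hi hnone
      | some i' => exact ⟨i', rfl⟩
    rw [← ent_far hE n i']
    rfl
  rw [Finset.sum_congr rfl g3, Finset.sum_const, nsmul_eq_mul, hc] at g2
  -- lower bound
  have g4 := subm hnn (A := fun x => ((x.2 none).2, lab A x))
    (B := fun x => ((x.1, (x.2 none).1), lab A x))
    (C := fun x => ((x.1, x.2 none), lab A x)) (D := lab A) (fun x y => by
      simp only [Prod.mk.injEq, Prod.ext_iff]
      tauto) (fun x y => by
      simp only [Prod.mk.injEq]
      tauto) (fun x y => by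
      simp only [Prod.mk.injEq]
      tauto)
  have g5 := indep_lab hE n A none hnone
  rw [SS_none hE] at g5
  have g6 := sum_lab hE n A (fun x => (x.1, (x.2 none).1))
  rw [SS_none_y hE] at g6
  have g7 : ∑ i ∈ A, (ent (SS Q n (Fin N)) (fun x => ((x.1, (x.2 none).1), (x.2 i).2)) -
      (2 * hQ Q - aQ Q)) ≤ ∑ i ∈ A, (ent (SS Q n (Fin N)) (fun x => (x.1, (x.2 i).2)) - h2Q Q) := by
    refine Finset.sum_le_sum fun i _ => ?_
    have := subm hnn (A := fun x => (x.1, (x.2 none).1)) (B := fun x => (x.1, (x.2 i).2))
      (C := fun x => ((x.1, (x.2 none).1), (x.2 i).2)) (D := fun x => x.1) (fun x y => by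
        simp only [Prod.mk.injEq]
        tauto) (fun x y => by
        simp only [Prod.mk.injEq]
        tauto) (fun x y => by
        simp only [Prod.mk.injEq]
        tauto)
    rw [SS_none_y hE, SS_c hE] at this
    linarith
  nlinarith [g1, g2, g4, g5, g6, g7]

end Vale.Agent.P050.M18
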