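import Vale.Agent.P050.M18.Main

/-!
The number of Moebius ladders and of prisms with a prescribed rung.
-/

set_option linter.unusedSectionVars false

namespace Vale.Agent.P050.M18

open Finset Vale.Agent.P050.Cart Vale.Agent.P050.Join

variable {U : Type} [Fintype U] [DecidableEq U]

/-- the number of Moebius ladders with `2 n + 1` rungs and a prescribed rung -/
def twR (C : U × U → U × U → ℝ) (n : ℕ) (R : U × U) : ℝ :=
  ∑ y : (U × U) × (U × U), zp C n R y.1 * C y.1 y.2.swap * zp C n R y.2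

/-- the number of prisms with `2 n` rungs and a prescribed rung -/
def prR (C : U × U → U × U → ℝ) (n : ℕ) (R : U × U) : ℝ := ∑ e, zp C n R e ^ 2

variable {C : U × U → U × U → ℝ} {Q : U × U → ℝ} (hE : Edge Q) (hC : Four C Q)
include hE

omit [DecidableEq U] in
theorem aw_fst {F : (U × U) × (U × U) → ℝ} (h : Lab Q F) :
    mar (aw Q F) (fun x => x.1) = mar F (fun x => x.1) := by
  have h2 := h.A1_fst hE (fun x => x.1)
  rw [← h2, h.aw_law hE]
  funext a
  rw [mar_mar]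

include hC

/-- a step which does not change the law of the label -/
theorem St.step' {T : (U × U) × (U × U) → ℝ} (hT0 : ∀ x, 0 ≤ T x)
    (hT1 : ∀ e, ∑ e', T (e, e') = Q e) (hT2 : ∀ e', ∑ e, T (e, e') = Q e')
    (hTC : ∀ x, T x ≠ 0 → C x.1 x.2 = 1)
    {n : ℕ} {F : (U × U) × (U × U) → ℝ} {v : ℝ} (h : St C Q n F v) :
    ∃ F', St C Q (n + 1) F' (v + (ent T (fun x => x) - hQ Q)) ∧
      ent F (fun x => x) ≤ ent F' (fun x => x) ∧ mar F' (fun x => x.1) = mar F (fun x => x.1) := by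
  have hl := h.lab
  set K : U × U → U × U → ℝ := fun e e' => T (e, e') / Q e with hK
  have K0 : ∀ e e', 0 ≤ K e e' := fun e e' => div_nonneg (hT0 _) (hE.nn _)
  have K1 : ∀ x : (U × U) × (U × U), F x ≠ 0 → ∑ b, K x.2 b = 1 := by
    intro x hx
    simp only [hK]
    rw [← Finset.sum_div, hT1, div_self (hl.ne_zero hE hx)]
  have hQT : ∀ e e', Q e * K e e' = T (e, e') := by
    intro e e'
    simp only [hK]
    by_cases h0 : Q e = 0
    · rw [h0, zero_mul]
      rw [← hT1] at h0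
      exact ((Finset.sum_eq_zero_iff_of_nonneg fun _ _ => hT0 _).1 h0 e' (mem_univ _)).symm
    · field_simp
  set W := att F (fun x => x.2) K with hW
  have W0 : ∀ x, 0 ≤ W x := att_nonneg hl.nn K0
  have W1 : ∑ x, W x = 1 := att_total (hl.tot hE) K1
  have hWT : mar W (fun x => (x.1.2, x.2)) = T := by
    funext ⟨e, e'⟩
    have := mar_att (P := F) (f := fun x => x.2) (K := K) (fun x => x.2) (fun e => e)
      (fun _ => rfl) e e'
    rw [hW, this, hl.snd, hQT]
  have hs : ∀ x, W x ≠ 0 → C x.1.2 x.2 = 1 := by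
    intro x hx
    have h1 : K x.1.2 x.2 ≠ 0 := by
      rw [hW] at hx
      exact right_ne_zero_of_mul hx
    simp only [hK] at h1
    exact hTC (x.1.2, x.2) (div_ne_zero_iff.1 h1).1
  have hz : ∀ x, W x ≠ 0 → zp C n x.1.1 x.1.2 ≠ 0 := by
    intro x hx
    rw [hW] at hx
    exact h.sup _ (left_ne_zero_of_mul hx)
  have key := val_step hC.c0 W0 W1 n (fun x => x.1.1) (fun x => x.1.2) (fun x => x.2) hs hz
  have e1 : val C n W (fun x => x.1.1) (fun x => x.1.2) =
      val C n F (fun x => x.1) (fun x => x.2) := val_law fun a => by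
    have h1 := mar_att_fst (P := F) (f := fun x => x.2) (K := K) K1 (fun x => (x.1, x.2))
    exact congrFun h1 a
  have e3 : ent W (fun x => (x.1.1, x.1.2)) = ent F (fun x => x) :=
    ent_att_fst K1 (fun x => (x.1, x.2))
  have hTe : ent W (fun x => (x.1.2, x.2)) = ent T (fun x => x) := by
    have h1 : ent T (fun x => x) = ent (mar W (fun x => (x.1.2, x.2))) (fun x => x) := by rw [hWT]
    rw [h1, ent_mar]
  have hQe : ent F (fun x => x.2) = hQ Q := hl.ent_edge hE fun e => e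
  have e5 := ent_att (P := F) (f := fun x => x.2) (K := K) hl.nn K0 K1 (fun x => x)
    (fun x => x.2) (fun _ => rfl)
  rw [← hW, hTe, hQe] at e5
  have e4 : ent W (fun x => (x.1.1, x.1.2, x.2)) = ent W (fun x => (x.1, x.2)) :=
    ent_same _ fun x y => by
      simp only [Prod.ext_iff]
      tauto
  set F' := mar W (fun x => (x.1.1, x.2)) with hF'
  have hW2 : mar W (fun x => x.2) = Q := by
    funext e'
    have h1 : mar W (fun x => x.2) = mar (mar W (fun x => (x.1.2, x.2))) (fun y => y.2) := by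
      funext a
      rw [mar_mar]
    rw [h1, hWT, mar_prod_snd, hT2]
  refine ⟨F', ⟨⟨mar_nonneg W0 _, ?_⟩, ?_, ?_, ?_⟩, ?_, ?_⟩
  · funext a
    rw [hF', mar_mar]
    exact congrFun hW2 a
  · rw [hF', ent_mar, ← h.fst]
    exact ent_att_fst K1 (fun x => x.1)
  · intro x hx
    rw [hF'] at hx
    unfold mar at hx
    obtain ⟨ω, -, hω⟩ := Finset.exists_ne_zero_of_sum_ne_zero hx
    have h5 : (ω.1.1, ω.2) = x := by
      by_contra hh
      rw [if_neg hh] at hω
      exact hω rfl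
    rw [if_pos h5] at hω
    have h6 := key.1 ω hω
    rw [← h5]
    exact h6
  · have e2 : val C (n + 1) W (fun x => x.1.1) (fun x => x.2) =
        val C (n + 1) F' (fun x => x.1) (fun x => x.2) := val_law fun a => by
      have h1 : mar F' (fun x => (x.1, x.2)) a = F' a := mar_id _ _
      rw [h1]
    have h7 := key.2
    rw [e1, e2, e3, e4] at h7
    have h8 := h.va
    linarith
  · have h1 := subm W0 (A := fun x => (x.1.1, x.2)) (B := fun x => (x.1.2, x.2))
      (C := fun x => (x.1, x.2)) (D := fun x => x.2) (fun x y => by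
        simp only [Prod.ext_iff]
        tauto) (fun x y => by
        simp only [Prod.mk.injEq]
        tauto) (fun x y => by
        simp only [Prod.mk.injEq]
        tauto)
    have h2 : ent W (fun x => x.2) = hQ Q := by
      unfold ent
      rw [hW2]
      unfold hQ ent
      simp_rw [mar_id]
    have h3 : ent F' (fun x => x) = ent W (fun x => (x.1.1, x.2)) := ent_mar _ _ _
    rw [hTe, h2, ← h3] at h1
    linarith
  · have h1 := mar_att_fst (P := F) (f := fun x => x.2) (K := K) K1 (fun x => x.1)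
    rw [← h1, hF']
    funext a
    rw [mar_mar]

theorem steps' {T : (U × U) × (U × U) → ℝ} (hT0 : ∀ x, 0 ≤ T x)
    (hT1 : ∀ e, ∑ e', T (e, e') = Q e) (hT2 : ∀ e', ∑ e, T (e, e') = Q e')
    (hTC : ∀ x, T x ≠ 0 → C x.1 x.2 = 1) {n : ℕ} {F : (U × U) × (U × U) → ℝ} {v : ℝ}
    (h : St C Q n F v) (j : ℕ) :
    ∃ F', St C Q (n + j) F' (v + j * (ent T (fun x => x) - hQ Q)) ∧
      ent F (fun x => x) ≤ ent F' (fun x => x) ∧ mar F' (fun x => x.1) = mar F (fun x => x.1) := by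
  induction j with
  | zero => exact ⟨F, by simpa using h, le_rfl, rfl⟩
  | succ j ih =>
    obtain ⟨F1, h1, h2, h5⟩ := ih
    obtain ⟨F2, h3, h4, h6⟩ := h1.step' hE hC hT0 hT1 hT2 hTC
    refine ⟨F2, ?_, h2.trans h4, h6.trans h5⟩
    have e : v + (j + 1 : ℕ) * (ent T (fun x => x) - hQ Q) =
        v + j * (ent T (fun x => x) - hQ Q) + (ent T (fun x => x) - hQ Q) := by
      push_cast; ring
    rw [e]
    exact h3

theorem St.prism' {n : ℕ} {F : (U × U) × (U × U) → ℝ} {v : ℝ} (h : St C Q n F v)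
    (hL : mar F (fun x => x.1) = Q) :
    (∀ R, Q R ≠ 0 → prR C n R ≠ 0) ∧
      2 * v - ent F (fun x => x) ≤ hQ Q + ∑ R, Q R * Real.log (prR C n R) := by
  have hl := h.lab
  have key := ent_log_cond hl.nn (hl.tot hE) (fun x => x) (fun x : (U × U) × (U × U) => x.1)
    (fun x => zp C n x.1 x.2 ^ 2) (prR C n) (fun x => sq_nonneg _)
    (fun R => (mar_prod_fst (fun x : (U × U) × (U × U) => zp C n x.1 x.2 ^ 2) R).symm)
    (fun x hx => pow_ne_zero 2 (h.sup x hx))
  constructor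
  · intro R hR
    rw [← hL] at hR
    unfold mar at hR
    obtain ⟨ω, -, hω⟩ := Finset.exists_ne_zero_of_sum_ne_zero hR
    have h5 : ω.1 = R := by
      by_contra hh
      rw [if_neg hh] at hω
      exact hω rfl
    rw [if_pos h5] at hω
    have h6 := key.1 ω hω
    rw [h5] at h6
    exact h6
  have h2 := key.2
  have h3 := h.va
  unfold val at h3
  have e2 : ∑ x, F x * Real.log (zp C n x.1 x.2 ^ 2) =
      2 * ∑ x, F x * Real.log (zp C n x.1 x.2) := by
    rw [Finset.mul_sum]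
    refine Finset.sum_congr rfl fun x _ => ?_
    rw [Real.log_pow]
    push_cast
    ring
  have e3 : ent F (fun x => (x.1, x.2)) = ent F (fun x => x) := rfl
  have e4 := sum_mar F (fun x => x.1) (fun R => Real.log (prR C n R))
  rw [hL] at e4
  rw [e2, h.fst, ← e4] at h2
  rw [e3] at h3
  linarith

theorem St.twist' {n : ℕ} {F : (U × U) × (U × U) → ℝ} {v : ℝ} (h : St C Q n F v)
    (hL : mar F (fun x => x.1) = Q) :
    (∀ R, Q R ≠ 0 → twR C n R ≠ 0) ∧
    2 * v + 2 * ent F (fun x => x) - 3 * hQ Q - 4 * aQ Q ≤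
      hQ Q + ∑ R, Q R * Real.log (twR C n R) := by
  have hl := h.lab
  have hF0 := hl.nn
  have hF1 := hl.tot hE
  set P1 := cop F (fun x => (x.1, x.2.1)) (fun x => x.2.2) with hP1
  have p0 : ∀ x, 0 ≤ P1 x := cop_nonneg hF0 _ _
  have p1 : ∑ x, P1 x = 1 := cop_total hF0 _ _ hF1
  set P2 := cop P1 (fun x => (x.1.1, x.1.2.2, x.2)) (fun x => x.1.2.1) with hP2
  have q0 : ∀ x, 0 ≤ P2 x := cop_nonneg p0 _ _
  have q1 : ∑ x, P2 x = 1 := cop_total p0 _ _ p1
  -- the law of the second walk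
  have l1 : mar P1 (fun x => ((x.1.1, x.1.2.1), x.2)) = mar F (fun x => ((x.1, x.2.1), x.2.2)) :=
    cop_law hF0 _ _
  have l2 : mar P2 (fun x => ((x.1.1.1, x.1.1.2.2, x.1.2), x.2)) =
      mar P1 (fun x => ((x.1.1, x.1.2.2, x.2), x.1.2.1)) := cop_law p0 _ _
  have l3 : mar P2 (fun x => (x.1.1.1, (x.2, x.1.2))) = F := by
    have e1 : mar P2 (fun x => (x.1.1.1, (x.2, x.1.2))) =
        mar (mar P2 (fun x => ((x.1.1.1, x.1.1.2.2, x.1.2), x.2)))
          (fun y => (y.1.1, (y.2, y.1.2.2))) := by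
      funext a
      rw [mar_mar]
    have e2 : mar (mar P1 (fun x => ((x.1.1, x.1.2.2, x.2), x.1.2.1)))
          (fun y => (y.1.1, (y.2, y.1.2.2))) =
        mar (mar P1 (fun x => ((x.1.1, x.1.2.1), x.2))) (fun y => (y.1.1, (y.1.2, y.2))) := by
      funext a
      rw [mar_mar, mar_mar]
    have e3 : mar (mar F (fun x => ((x.1, x.2.1), x.2.2))) (fun y => (y.1.1, (y.1.2, y.2))) = F := by
      funext a
      rw [mar_mar]
      have : (fun x : (U × U) × (U × U) => (x.1, (x.2.1, x.2.2))) = fun x => x := rfl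
      exact mar_id F a
    rw [e1, l2, e2, l1, e3]
  have l4 : mar P2 (fun x => x.1.1) = F := by
    have h1 : mar P2 (fun x => x.1.1) = mar P1 (fun x => x.1) := cop_fst p0 _ _ (fun x => x.1)
    have h2 : mar P1 (fun x => x.1) = mar F (fun x => x) := cop_fst hF0 _ _ (fun x => x)
    rw [h1, h2]
    funext a
    exact mar_id F a
  have l5 : mar P2 (fun x => x.1.1.1) = Q := by
    rw [← hL, ← l4]
    funext a
    rw [mar_mar]
  -- the support
  have sup1 : ∀ x, P2 x ≠ 0 → F x.1.1 ≠ 0 ∧ F (x.1.1.1, (x.2, x.1.2)) ≠ 0 ∧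
      Q (x.1.1.2.1, x.1.2) ≠ 0 ∧ Q (x.2, x.1.1.2.2) ≠ 0 := by
    intro x hx
    obtain ⟨h1, ω, h2, h3, h4⟩ := cop_ne_zero p0 _ _ hx
    obtain ⟨h5, ω', h6, h7, h8⟩ := cop_ne_zero hF0 _ _ h1
    obtain ⟨h9, -⟩ := cop_ne_zero hF0 _ _ h2
    refine ⟨h5, ?_, ?_, ?_⟩
    · have := mar_ne_zero q0 (fun x => (x.1.1.1, (x.2, x.1.2))) hx
      rw [l3] at this
      exact this
    · have h10 := hl.ne_zero hE h6
      simp only [Prod.mk.injEq] at h7
      have h11 : ω'.2 = (x.1.1.2.1, x.1.2) := Prod.ext h7.2 h8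
      rw [h11] at h10
      exact h10
    · have h10 := hl.ne_zero hE h9
      simp only [Prod.mk.injEq] at h3
      have h11 : ω.1.2 = (x.2, x.1.1.2.2) := Prod.ext h4 h3.2.1
      rw [h11] at h10
      exact h10
  have sup2 : ∀ x, P2 x ≠ 0 → C x.1.1.2 (x.1.2, x.2) = 1 := by
    intro x hx
    obtain ⟨h1, h2, h3, h4⟩ := sup1 x hx
    have h5 := hl.ne_zero hE h1
    have h6 := hl.ne_zero hE h2
    rw [hE.sym] at h4 h6
    exact hC.c1 x.1.1.2.1 x.1.1.2.2 x.2 x.1.2 h5 h4 h3 h6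
  -- the inequality between the entropy and the number
  have key := ent_log_cond q0 q1 (fun x => (x.1.1.1, x.1.1.2, (x.2, x.1.2)))
    (fun y : (U × U) × (U × U) × (U × U) => y.1)
    (fun y : (U × U) × (U × U) × (U × U) => zp C n y.1 y.2.1 * C y.2.1 y.2.2.swap *
      zp C n y.1 y.2.2) (twR C n)
    (fun y => mul_nonneg (mul_nonneg (zp_nonneg hC.c0 _ _ _) (hC.c0 _ _)) (zp_nonneg hC.c0 _ _ _))
    (fun R => (mar_prod_fst (fun y : (U × U) × ((U × U) × (U × U)) =>
      zp C n y.1 y.2.1 * C y.2.1 y.2.2.swap * zp C n y.1 y.2.2) R).symm)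
    (fun x hx => by
      obtain ⟨h1, h2, -⟩ := sup1 x hx
      have h5 := sup2 x hx
      refine mul_ne_zero (mul_ne_zero (h.sup _ h1) ?_) (h.sup _ h2)
      have h6 : C x.1.1.2 (x.2, x.1.2).swap = 1 := h5
      rw [h6]
      exact one_ne_zero)
  constructor
  · intro R hR
    rw [← l5] at hR
    unfold mar at hR
    obtain ⟨ω, -, hω⟩ := Finset.exists_ne_zero_of_sum_ne_zero hR
    have h5 : ω.1.1.1 = R := by
      by_contra hh
      rw [if_neg hh] at hω
      exact hω rfl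
    rw [if_pos h5] at hω
    have h6 := key.1 ω hω
    rw [h5] at h6
    exact h6
  have h2 := key.2
  have e2 : ∑ x, P2 x * Real.log (zp C n x.1.1.1 x.1.1.2 * C x.1.1.2 (x.2, x.1.2).swap *
      zp C n x.1.1.1 (x.2, x.1.2)) = 2 * ∑ x, F x * Real.log (zp C n x.1 x.2) := by
    have e3 : ∀ x, P2 x * Real.log (zp C n x.1.1.1 x.1.1.2 * C x.1.1.2 (x.2, x.1.2).swap *
        zp C n x.1.1.1 (x.2, x.1.2)) = P2 x * Real.log (zp C n x.1.1.1 x.1.1.2) +
        P2 x * Real.log (zp C n x.1.1.1 (x.2, x.1.2)) := by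
      intro x
      by_cases hx : P2 x = 0
      · rw [hx]; ring
      obtain ⟨h1, h2, -⟩ := sup1 x hx
      have h5 := sup2 x hx
      have h6 : C x.1.1.2 (x.2, x.1.2).swap = 1 := h5
      rw [h6, mul_one, Real.log_mul (h.sup _ h1) (h.sup _ h2)]
      ring
    rw [Finset.sum_congr rfl fun x _ => e3 x, Finset.sum_add_distrib]
    have e4 := sum_mar P2 (fun x => x.1.1) (fun y => Real.log (zp C n y.1 y.2))
    have e5 := sum_mar P2 (fun x => (x.1.1.1, (x.2, x.1.2))) (fun y => Real.log (zp C n y.1 y.2))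
    rw [l4] at e4
    rw [l3] at e5
    rw [← e4, ← e5]
    ring
  -- entropies
  have f1 := cop_ent p0 (fun x => (x.1.1, x.1.2.2, x.2)) (fun x => x.1.2.1) (fun x => x)
    (fun x => (x.1.1, x.1.2.2, x.2)) (fun _ => rfl)
  rw [← hP2] at f1
  have f2 := cop_ent hF0 (fun x => (x.1, x.2.1)) (fun x => x.2.2) (fun x => x)
    (fun x => (x.1, x.2.1)) (fun _ => rfl)
  rw [← hP1] at f2
  have f3 : ent P2 (fun x => (x.1.1.1, x.1.1.2, (x.2, x.1.2))) = ent P2 (fun x => (x.1, x.2)) :=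
    ent_same _ fun x y => by
      simp only [Prod.ext_iff]
      tauto
  have f4 : ent P1 (fun ω => ((ω.1.1, ω.1.2.2, ω.2), ω.1.2.1)) = ent P1 (fun x => (x.1, x.2)) :=
    ent_same _ fun x y => by
      simp only [Prod.ext_iff]
      tauto
  have f5 : ent F (fun ω => ((ω.1, ω.2.1), ω.2.2)) = ent F (fun x => x) :=
    ent_same _ fun x y => by
      simp only [Prod.ext_iff]
      tauto
  have f6 : ent P1 (fun x => x) = ent P1 (fun x => (x.1, x.2)) := rfl
  -- the entropy of `(R, f, f')`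
  have f7 := subm p0 (A := fun x => (x.1.1, x.1.2.2)) (B := fun x => (x.1.1, x.2))
    (C := fun x => (x.1.1, x.1.2.2, x.2)) (D := fun x => x.1.1) (fun x y => by
      simp only [Prod.mk.injEq]
      tauto) (fun x y => by
      simp only [Prod.mk.injEq]
      tauto) (fun x y => by
      simp only [Prod.mk.injEq]
      tauto)
  have f8 : ent P1 (fun x => (x.1.1, x.1.2.2)) = ent F (fun x => (x.1, x.2.2)) :=
    cop_ent_fst hF0 _ _ (fun x => (x.1, x.2.2))
  have f9 : ent P1 (fun x => x.1.1) = hQ Q := by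
    rw [← h.fst]
    exact cop_ent_fst hF0 _ _ (fun x => x.1)
  have f10 : ent P1 (fun x => (x.1.1, x.2)) = ent F (fun x => (x.1, x.2.2)) := by
    have g1 : ent P1 (fun x => (x.1.1, x.2)) =
        ent (mar P1 (fun x => ((x.1.1, x.1.2.1), x.2))) (fun y => (y.1.1, y.2)) := by
      rw [ent_mar]
    rw [g1, l1, ent_mar]
  have f11 := suba hF0 hF1 (A := fun x => x.1) (B := fun x => x.2.2)
    (C := fun x => (x.1, x.2.2)) (fun x y => by
      simp only [Prod.mk.injEq]
      tauto)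
  have f12 := suba hF0 hF1 (A := fun x => x.1) (B := fun x => x.2.1)
    (C := fun x => (x.1, x.2.1)) (fun x y => by
      simp only [Prod.mk.injEq]
      tauto)
  have f13 : ent F (fun x => x.2.2) = aQ Q := by
    rw [← hE.ent_snd]
    exact hl.ent_edge hE fun e => e.2
  have f14 : ent F (fun x => x.2.1) = aQ Q := by
    rw [← hE.ent_fst]
    exact hl.ent_edge hE fun e => e.1
  rw [h.fst, f13] at f11
  rw [h.fst, f14] at f12
  have h3 := h.va
  unfold val at h3
  have e3 : ent F (fun x => (x.1, x.2)) = ent F (fun x => x) := rfl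
  rw [e3] at h3
  have e6 := sum_mar P2 (fun x => x.1.1.1) (fun R => Real.log (twR C n R))
  rw [l5] at e6
  have e7 : ent P2 (fun x => x.1.1.1) = hQ Q := by
    unfold ent
    rw [l5]
    unfold hQ ent
    simp_rw [mar_id]
  rw [e2, f3, e7, ← e6] at h2
  rw [f4, f6] at f1
  rw [f5] at f2
  rw [f8, f9, f10] at f7
  linarith

/-- the number of Moebius ladders with a prescribed rung -/
theorem ladder_pin {T : (U × U) × (U × U) → ℝ} (hT0 : ∀ x, 0 ≤ T x)
    (hT1 : ∀ e, ∑ e', T (e, e') = Q e) (hT2 : ∀ e', ∑ e, T (e, e') = Q e')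
    (hTC : ∀ x, T x ≠ 0 → C x.1 x.2 = 1) (i j : ℕ) (hi : 2 ≤ i) :
    (∀ R, Q R ≠ 0 → twR C (i + 1 + j) R ≠ 0) ∧
    (2 * i + 3) * (3 * hQ Q - 4 * aQ Q) + 2 * i * (2 * aQ Q - h2Q Q) +
      2 * j * (ent T (fun x => x) - hQ Q) - 2 * (hP Q (i + 1) - hP Q i) ≤
        hQ Q + ∑ R, Q R * Real.log (twR C (i + 1 + j) R) := by
  have h1 := (st_PP hE hC i).aw hE hC
  have h2 : ent (aw Q (PP Q i)) (fun x => x) = hB Q i + (hQ Q - aQ Q) := (PP_lab hE i).aw_ent hE
  have h3 := hB_ge hE i hi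
  obtain ⟨F, h4, h5, h8⟩ := steps' hE hC hT0 hT1 hT2 hTC h1 j
  have h9 : mar F (fun x => x.1) = Q := by rw [h8, aw_fst hE (PP_lab hE i), PP_fst hE i]
  have h6 := h4.twist' hE hC h9
  refine ⟨h6.1, ?_⟩
  have h7 := h6.2
  have e1 : ent (nx Q (PP Q i)) (fun x => x) = hP Q (i + 1) := rfl
  have e2 : ent (PP Q i) (fun x => x) = hP Q i := rfl
  rw [e1, e2] at h7
  have e3 : gQ Q = 3 * hQ Q - 2 * aQ Q - h2Q Q := rfl
  rw [e3] at h7
  rw [h2] at h5
  nlinarith [h7, h5, h3]

/-- the number of prisms over a 4-cycle with a prescribed rung -/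
theorem cube_pin : (∀ R, Q R ≠ 0 → prR C 2 R ≠ 0) ∧
    AA Q 2 + 4 * (3 * hQ Q - 4 * aQ Q) ≤ hQ Q + ∑ R, Q R * Real.log (prR C 2 R) := by
  have h1 := (st_PP hE hC 2).prism' hE hC (PP_fst hE 2)
  refine ⟨h1.1, ?_⟩
  have h2 := h1.2
  have e2 : ent (PP Q 2) (fun x => x) = hP Q 2 := rfl
  have e3 : gQ Q = 3 * hQ Q - 2 * aQ Q - h2Q Q := rfl
  rw [e2, e3] at h2
  have h3 := r_nonneg hE
  unfold AA
  push_cast at h2
  linarith

/-- copies of a ladder and a cube with a common rung -/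
theorem glue_log (m N : ℕ) (h1 : ∀ R, Q R ≠ 0 → twR C m R ≠ 0) (h2 : ∀ R, Q R ≠ 0 → prR C 2 R ≠ 0) :
    0 < ∑ R, twR C m R ^ N * prR C 2 R ∧
    hQ Q + (N * ∑ R, Q R * Real.log (twR C m R) + ∑ R, Q R * Real.log (prR C 2 R)) ≤
      Real.log (∑ R, twR C m R ^ N * prR C 2 R) := by
  have tw0 : ∀ R, 0 ≤ twR C m R := fun R => Finset.sum_nonneg fun y _ =>
    mul_nonneg (mul_nonneg (zp_nonneg hC.c0 _ _ _) (hC.c0 _ _)) (zp_nonneg hC.c0 _ _ _)
  have pr0 : ∀ R, 0 ≤ prR C 2 R := fun R => Finset.sum_nonneg fun y _ => sq_nonneg _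
  have key := ent_log_sum hE.nn hE.tot (fun R => R) (fun R => twR C m R ^ N * prR C 2 R)
    (fun R => mul_nonneg (pow_nonneg (tw0 R) N) (pr0 R))
    (fun R hR => mul_ne_zero (pow_ne_zero N (h1 R hR)) (h2 R hR))
  refine ⟨key.1, ?_⟩
  have h3 := key.2
  have e1 : ∑ R, Q R * Real.log (twR C m R ^ N * prR C 2 R) =
      N * ∑ R, Q R * Real.log (twR C m R) + ∑ R, Q R * Real.log (prR C 2 R) := by
    rw [Finset.mul_sum, ← Finset.sum_add_distrib]
    refine Finset.sum_congr rfl fun R _ => ?_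
    by_cases hR : Q R = 0
    · rw [hR]; ring
    · rw [Real.log_mul (pow_ne_zero N (h1 R hR)) (h2 R hR), Real.log_pow]
      ring
  rw [e1] at h3
  exact h3

end Vale.Agent.P050.M18
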