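import Vale.Agent.P050.M18.Pin

/-!
Moebius ladders and a cube with a common rung: the inequality between logarithms.
-/

set_option linter.unusedSectionVars false

namespace Vale.Agent.P050.M18

open Finset Vale.Agent.P050.Cart Vale.Agent.P050.Join Vale.Agent.P050.H148 Vale.Agent.P050.H180

/-- the arithmetic -/
theorem pin_arith {D i j E ℓ c4 hh a r P A2 lg LT LP : ℝ} (hD2 : 2 ≤ D) (hi0 : 4 ≤ i)
    (hj0 : 3 * i + 8 ≤ j) (h8 : 0 ≤ r) (h9 : hh ≤ E) (h10 : a ≤ ℓ)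
    (h11 : D * (2 * P) ≤ A2 + D * r)
    (h7 : (2 * i + 3) * (3 * hh - 4 * a) + 2 * i * r + 2 * j * (c4 - hh) - 2 * P ≤ hh + LT)
    (h14 : A2 + 4 * (3 * hh - 4 * a) ≤ hh + LP) (hg : hh + (D * LT + LP) ≤ lg) :
    (D * (2 * i + 3) + 4) * (3 * E - 4 * ℓ) + 2 * j * D * (c4 - E) ≤ lg + D * E := by
  have h13 := mul_le_mul_of_nonneg_left h7 (by linarith : (0 : ℝ) ≤ D)
  have h15 : 0 ≤ (2 * j * D - 3 * (D * (2 * i + 3) + 4)) * (E - hh) := by
    refine mul_nonneg ?_ (by linarith)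
    nlinarith
  have h16 : 0 ≤ (D * (2 * i + 3) + 4) * (ℓ - a) := by
    refine mul_nonneg ?_ (by linarith)
    nlinarith
  have h17 : 0 ≤ D * ((2 * i - 1) * r) := by
    refine mul_nonneg (by linarith) (mul_nonneg (by linarith) h8)
  have h18 : D * hh ≤ D * E := mul_le_mul_of_nonneg_left h9 (by linarith)
  have h19 : D * ((2 * i + 3) * (3 * hh - 4 * a) + 2 * i * r + 2 * j * (c4 - hh) - 2 * P) +
      (A2 + 4 * (3 * hh - 4 * a)) ≤ lg + D * E := by
    have e : D * (hh + LT) = D * hh + D * LT := by ring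
    rw [e] at h13
    linarith
  nlinarith [h11, h19, h15, h16, h17]

section graph

variable {X : Type} [Fintype X] (G : SimpleGraph X) (hG : ∃ x y, G.Adj x y)
include hG

/-- the inequality in terms of logarithms of numbers -/
theorem main_pin [DecidableEq X] (t m N : ℕ) (hN : N = 2 ^ ((t + 2).choose 2))
    (hm : 8 * 4 ^ (t + 1) + 5 ≤ m) :
    ∃ i j : ℕ, m = i + 1 + j ∧ 4 * i + 9 ≤ m ∧
    (N * (2 * i + 3) + 4) *
      (3 * Real.log (∑ x, ∑ y, adj G x y) - 4 * Real.log (Fintype.card X)) +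
      2 * j * N * (Real.log (tot G) - Real.log (∑ x, ∑ y, adj G x y)) ≤
      Real.log (∑ R, twR (CG G) m R ^ N * prR (CG G) 2 R) +
        N * Real.log (∑ x, ∑ y, adj G x y) ∧
    0 < ∑ R, twR (CG G) m R ^ N * prR (CG G) 2 R := by
  have hE := Q4_edge G hG
  have hC := Q4_four G hG
  obtain ⟨i, hi1, hi2, hi3⟩ := AA_small hE t
  have h4 : 4 ^ 1 ≤ 4 ^ (t + 1) := Nat.pow_le_pow_right (by norm_num) (by omega)
  obtain ⟨j, hj⟩ : ∃ j, m = i + 1 + j := ⟨m - i - 1, by omega⟩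
  have h5 := ladder_pin hE hC (T4_nn G hG) (fun e => rfl) (T4_right G hG)
    (fun x hx => T4_ne G hG hx) i j (by omega)
  have h6 := cube_pin hE hC
  rw [← hj] at h5
  have hg := glue_log hE hC m N h5.1 h6.1
  refine ⟨i, j, hj, by omega, ?_, hg.1⟩
  have h7 := h5.2
  rw [T4_ent G hG] at h7
  have hNr : (N : ℝ) = 2 ^ ((t + 2).choose 2) := by
    rw [hN]
    push_cast
    rfl
  have hN2 : 2 ≤ N := by
    rw [hN]
    have h1 : 2 ^ 1 ≤ 2 ^ ((t + 2).choose 2) := Nat.pow_le_pow_right (by norm_num) (by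
      have : Nat.choose 2 2 ≤ (t + 2).choose 2 := Nat.choose_le_choose 2 (by omega)
      simpa using this)
    simpa using h1
  rw [← hNr] at hi3
  have hD2 : (2 : ℝ) ≤ N := by exact_mod_cast hN2
  have h11 : (N : ℝ) * (2 * (hP (Q4 G) (i + 1) - hP (Q4 G) i)) ≤
      AA (Q4 G) 2 + N * (2 * aQ (Q4 G) - h2Q (Q4 G)) := by
    have h12 := mul_le_mul_of_nonneg_left hi3 (by linarith : (0 : ℝ) ≤ N)
    rw [mul_add, mul_div_cancel₀ _ (by linarith : (N : ℝ) ≠ 0)] at h12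
    exact h12
  have hi0 : (4 : ℝ) ≤ i := by
    have : 4 ≤ i := by omega
    exact_mod_cast this
  have hj0 : (3 * i + 8 : ℝ) ≤ j := by
    have : 3 * i + 8 ≤ j := by omega
    exact_mod_cast this
  exact pin_arith hD2 hi0 hj0 (r_nonneg hE) (hQ4_le G hG) (aQ4_le G hG) h11 h7 h6.2 hg.2

end graph

end Vale.Agent.P050.M18
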