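import Vale.Agent.P050.M18.Basic

/-!
A random variable together with conditionally independent variables.
-/

set_option linter.unusedSectionVars false

namespace Vale.Agent.P050.M18

open Finset Vale.Agent.P050.Cart Vale.Agent.P050.Join

variable {δ ζ I : Type} [Fintype δ] [Fintype ζ] [Fintype I] [DecidableEq I]

/-- the law of `c` together with variables `z i`, which are independent given `c` -/
def star (p : δ → ℝ) (g : I → δ → ζ → ℝ) (x : δ × (I → ζ)) : ℝ := p x.1 * ∏ i, g i x.1 (x.2 i)

/-- the kernels are nonnegative and stochastic -/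
structure StarOk (p : δ → ℝ) (g : I → δ → ζ → ℝ) : Prop where
  p0 : ∀ c, 0 ≤ p c
  p1 : ∑ c, p c = 1
  g0 : ∀ i c z, 0 ≤ g i c z
  g1 : ∀ i c, p c ≠ 0 → ∑ z, g i c z = 1

variable {p : δ → ℝ} {g : I → δ → ζ → ℝ}

theorem star_nonneg (h : StarOk p g) (x) : 0 ≤ star p g x :=
  mul_nonneg (h.p0 _) (Finset.prod_nonneg fun _ _ => h.g0 _ _ _)

/-- the expectation of a product -/
theorem sum_star_prod (c : δ) (k : I → ζ → ℝ) :
    ∑ z : I → ζ, star p g (c, z) * ∏ i, k i (z i) = p c * ∏ i, ∑ u, g i c u * k i u := by
  have h1 : ∀ z : I → ζ, star p g (c, z) * ∏ i, k i (z i) =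
      p c * ∏ i, (g i c (z i) * k i (z i)) := by
    intro z
    rw [Finset.prod_mul_distrib]
    unfold star
    ring
  rw [Finset.sum_congr rfl fun z _ => h1 z, ← Finset.mul_sum]
  congr 1
  have h4 := (Finset.prod_univ_sum (fun _ : I => (univ : Finset ζ))
      (fun i u => g i c u * k i u)).symm
  rw [Fintype.piFinset_univ] at h4
  exact h4

/-- integrate out all variables -/
theorem sum_star (h : StarOk p g) (F : δ → ℝ) : ∑ x, star p g x * F x.1 = ∑ c, p c * F c := by
  rw [Fintype.sum_prod_type]
  refine Finset.sum_congr rfl fun c _ => ?_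
  simp only
  rw [← Finset.sum_mul]
  have h1 := sum_star_prod (p := p) (g := g) c fun _ _ => 1
  simp only [Finset.prod_const_one, mul_one] at h1
  rw [h1]
  by_cases h0 : p c = 0
  · rw [h0]; ring
  · rw [Finset.prod_eq_one fun i _ => h.g1 i c h0, mul_one]

theorem star_total (h : StarOk p g) : ∑ x, star p g x = 1 := by
  have := sum_star h fun _ => 1
  simp only [mul_one] at this
  rw [this, h.p1]

/-- integrate out all variables except one -/
theorem sum_star_one (h : StarOk p g) (i : I) (F : δ → ζ → ℝ) :
    ∑ x, star p g x * F x.1 (x.2 i) = ∑ c, ∑ u, p c * g i c u * F c u := by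
  rw [Fintype.sum_prod_type]
  refine Finset.sum_congr rfl fun c _ => ?_
  have h1 := sum_star_prod (p := p) (g := g) c fun j u => if j = i then F c u else 1
  simp only [Finset.prod_ite_eq', mem_univ, if_true] at h1
  rw [h1]
  by_cases h0 : p c = 0
  · rw [h0]; simp
  rw [← Finset.mul_prod_erase univ _ (mem_univ i)]
  have h5 : ∏ j ∈ univ.erase i, ∑ u, (g j c u * if j = i then F c u else 1) = 1 := by
    refine Finset.prod_eq_one fun j hj => ?_
    simp only [if_neg (Finset.ne_of_mem_erase hj), mul_one]
    exact h.g1 j c h0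
  rw [h5, mul_one, Finset.mul_sum]
  refine Finset.sum_congr rfl fun u _ => ?_
  rw [if_pos rfl, mul_assoc]

/-- integrate out all variables except two -/
theorem sum_star_two (h : StarOk p g) {i j : I} (hij : i ≠ j) (F : δ → ζ → ζ → ℝ) :
    ∑ x, star p g x * F x.1 (x.2 i) (x.2 j) =
      ∑ c, ∑ u, ∑ v, p c * g i c u * g j c v * F c u v := by
  classical
  rw [Fintype.sum_prod_type]
  refine Finset.sum_congr rfl fun c _ => ?_
  by_cases h0 : p c = 0
  · simp [star, h0]
  have h1 : ∀ u v, ∑ z : I → ζ, star p g (c, z) *
      ((if z i = u then 1 else 0) * (if z j = v then 1 else 0)) = p c * g i c u * g j c v := by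
    intro u v
    have h2 := sum_star_prod (p := p) (g := g) c fun k w =>
      (if k = i then (if w = u then 1 else 0) else 1) * (if k = j then (if w = v then 1 else 0) else 1)
    simp only [Finset.prod_mul_distrib, Finset.prod_ite_eq', mem_univ, if_true] at h2
    rw [h2]
    rw [← Finset.mul_prod_erase univ _ (mem_univ i),
      ← Finset.mul_prod_erase (univ.erase i) _ (Finset.mem_erase.2 ⟨hij.symm, mem_univ j⟩)]
    have h5 : ∏ k ∈ (univ.erase i).erase j, ∑ w, (g k c w *
        ((if k = i then (if w = u then 1 else 0) else 1) *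
          (if k = j then (if w = v then 1 else 0) else 1))) = 1 := by
      refine Finset.prod_eq_one fun k hk => ?_
      have hk1 : k ≠ j := Finset.ne_of_mem_erase hk
      have hk2 : k ≠ i := Finset.ne_of_mem_erase (Finset.mem_of_mem_erase hk)
      simp only [if_neg hk1, if_neg hk2, mul_one]
      exact h.g1 k c h0
    rw [h5, mul_one]
    simp only [if_true, if_neg hij, if_neg hij.symm, mul_one, mul_ite, mul_zero,
      Finset.sum_ite_eq', mem_univ]
    ring
  have h3 : ∀ z : I → ζ, star p g (c, z) * F c (z i) (z j) = ∑ u, ∑ v, star p g (c, z) *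
      ((if z i = u then 1 else 0) * (if z j = v then 1 else 0)) * F c u v := by
    intro z
    rw [Finset.sum_eq_single (z i), Finset.sum_eq_single (z j)]
    · simp
    · intro v _ hv
      have hv' : ¬ (z j = v) := fun hh => hv hh.symm
      simp [hv']
    · intro hn; exact absurd (mem_univ _) hn
    · intro u _ hu
      refine Finset.sum_eq_zero fun v _ => ?_
      rw [if_neg (fun hh => hu hh.symm)]; simp
    · intro hn; exact absurd (mem_univ _) hn
  simp only
  rw [Finset.sum_congr rfl fun z _ => h3 z, Finset.sum_comm]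
  refine Finset.sum_congr rfl fun u _ => ?_
  rw [Finset.sum_comm]
  refine Finset.sum_congr rfl fun v _ => ?_
  rw [← Finset.sum_mul, h1]

theorem ent_star_fst {α : Type} [Fintype α] (h : StarOk p g) (f : δ → α) :
    ent (star p g) (fun x => f x.1) = ent p f :=
  ent_law fun a => mar_of_sum (fun F => sum_star h fun c => F (f c)) a

/-- the law of one variable, together with `c` -/
theorem mar_star_one (h : StarOk p g) (i : I) (c : δ) (u : ζ) :
    mar (star p g) (fun x => (x.1, x.2 i)) (c, u) = p c * g i c u := by
  classical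
  have h1 := sum_star_one h i fun c' u' => if (c', u') = (c, u) then 1 else 0
  have h2 : mar (star p g) (fun x => (x.1, x.2 i)) (c, u) =
      ∑ x, star p g x * (if (x.1, x.2 i) = (c, u) then 1 else 0) := by
    unfold mar
    refine Finset.sum_congr rfl fun x _ => ?_
    simp
  rw [h2, h1, Finset.sum_eq_single c, Finset.sum_eq_single u]
  · simp
  · intro v _ hv
    rw [if_neg]; · simp
    simp only [Prod.mk.injEq, true_and]; exact hv
  · intro hn; exact absurd (mem_univ _) hn
  · intro d _ hd
    refine Finset.sum_eq_zero fun v _ => ?_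
    rw [if_neg]; · simp
    simp only [Prod.mk.injEq, not_and]; exact fun hh => absurd hh hd
  · intro hn; exact absurd (mem_univ _) hn

/-- the entropy of the whole law -/
theorem ent_star (h : StarOk p g) : ent (star p g) (fun x => x) = ent p (fun c => c) +
    ∑ i, (ent (star p g) (fun x => (x.1, x.2 i)) - ent p (fun c => c)) := by
  have h0 : ∀ x : δ × (I → ζ), star p g x * Real.log (mar (star p g) (fun x => x) x) =
      star p g x * Real.log (p x.1) +
      ∑ i, (star p g x * Real.log (p x.1 * g i x.1 (x.2 i)) - star p g x * Real.log (p x.1)) := by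
    intro x
    rw [mar_id]
    by_cases hx : star p g x = 0
    · simp [hx]
    have h1 : p x.1 ≠ 0 := fun h => hx (by simp [star, h])
    have h2 : ∀ i, g i x.1 (x.2 i) ≠ 0 := by
      intro i hi
      refine hx ?_
      unfold star
      rw [Finset.prod_eq_zero (mem_univ i) hi, mul_zero]
    have h3 : Real.log (star p g x) = Real.log (p x.1) + ∑ i, Real.log (g i x.1 (x.2 i)) := by
      unfold star
      rw [Real.log_mul h1 (Finset.prod_ne_zero_iff.2 fun i _ => h2 i),
        Real.log_prod (s := univ) (hf := fun i _ => h2 i)]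
    rw [h3, mul_add, Finset.mul_sum]
    congr 1
    refine Finset.sum_congr rfl fun i _ => ?_
    rw [Real.log_mul h1 (h2 i)]
    ring
  rw [ent_eq, Finset.sum_congr rfl fun x _ => h0 x, Finset.sum_add_distrib, Finset.sum_comm]
  rw [sum_star h fun c => Real.log (p c)]
  have e1 : ent p (fun c => c) = - ∑ c, p c * Real.log (p c) := by
    rw [ent_eq]
    simp_rw [mar_id]
  have e2 : ∀ i, ent (star p g) (fun x => (x.1, x.2 i)) =
      - ∑ x, star p g x * Real.log (p x.1 * g i x.1 (x.2 i)) := by
    intro i
    rw [ent_eq]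
    congr 1
    refine Finset.sum_congr rfl fun x _ => ?_
    rw [mar_star_one h]
  rw [neg_add, ← e1]
  congr 1
  rw [← Finset.sum_neg_distrib]
  refine Finset.sum_congr rfl fun i _ => ?_
  rw [e2, Finset.sum_sub_distrib, sum_star h fun c => Real.log (p c), e1]
  ring

/-- functions of the variables are conditionally independent -/
theorem star_coarse {β : Type} [Fintype β] (h : StarOk p g) (φ : I → ζ → β) :
    ent (star p g) (fun x => (x.1, fun i => φ i (x.2 i))) = ent p (fun c => c) +
    ∑ i, (ent (star p g) (fun x => (x.1, φ i (x.2 i))) - ent p (fun c => c)) := by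
  have hn := star_nonneg h
  have ht := star_total h
  refine le_antisymm ?_ ?_
  · have h1 := ent_chain hn ht (fun x => x.1) (fun x i => φ i (x.2 i)) (fun _ c => c)
    have e1 : ent (star p g) (fun x => x.1) = ent p (fun c => c) := ent_star_fst h fun c => c
    simp only at h1
    rw [e1] at h1
    exact h1
  · have h1 := ent_chain hn ht (fun x => (x.1, fun i => φ i (x.2 i))) (fun x i => x.2 i)
      (fun i y => (y.1, y.2 i))
    have e1 : ent (star p g) (fun x => ((x.1, fun i => φ i (x.2 i)), x.2)) =
        ent (star p g) (fun x => x) := ent_same _ fun x y => by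
      constructor
      · intro hh
        simp only [Prod.mk.injEq] at hh
        exact Prod.ext hh.1.1 hh.2
      · rintro rfl; rfl
    have e2 : ∀ i, ent (star p g) (fun x => ((x.1, φ i (x.2 i)), x.2 i)) =
        ent (star p g) (fun x => (x.1, x.2 i)) := fun i => ent_same _ fun x y => by
      simp only [Prod.mk.injEq]
      constructor
      · rintro ⟨⟨a, -⟩, b⟩; exact ⟨a, b⟩
      · rintro ⟨a, b⟩; exact ⟨⟨a, by rw [b]⟩, b⟩
    simp only at h1
    have e3 : ent (star p g) (fun ω => ((ω.1, fun i => φ i (ω.2 i)), fun i => ω.2 i)) =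
        ent (star p g) (fun x => x) := e1
    rw [e3, ent_star h] at h1
    simp only [e2] at h1
    rw [Finset.sum_sub_distrib] at h1 ⊢
    rw [Finset.sum_sub_distrib] at h1
    linarith

end Vale.Agent.P050.M18
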