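import Vale.Agent.P050.M18.Many

/-!
Walks of length `n` with a good law of the ends.
-/

set_option linter.unusedSectionVars false

namespace Vale.Agent.P050.M18

open Finset Vale.Agent.P050.Cart Vale.Agent.P050.Join

variable {U : Type} [Fintype U] [DecidableEq U]

/-- a law on the ends of the walks of length `n`, such that the entropy plus the mean logarithm of
the number of walks is at least `v` -/
structure St (C : U × U → U × U → ℝ) (Q : U × U → ℝ) (n : ℕ) (F : (U × U) × (U × U) → ℝ)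
    (v : ℝ) : Prop where
  lab : Lab Q F
  fst : ent F (fun x => x.1) = hQ Q
  sup : ∀ x, F x ≠ 0 → zp C n x.1 x.2 ≠ 0
  va : v ≤ val C n F (fun x => x.1) (fun x => x.2)

/-- `C` is `1` on pairs of edges of a 4-cycle -/
structure Four (C : U × U → U × U → ℝ) (Q : U × U → ℝ) : Prop where
  c0 : ∀ a b, 0 ≤ C a b
  c1 : ∀ s f f' s', Q (s, f) ≠ 0 → Q (f, f') ≠ 0 → Q (s, s') ≠ 0 → Q (s', f') ≠ 0 →
    C (s, f) (s', f') = 1

variable {C : U × U → U × U → ℝ} {Q : U × U → ℝ} (hE : Edge Q) (hC : Four C Q)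
include hE hC

theorem A1_ne {F : (U × U) × (U × U) → ℝ} (h : Lab Q F) {x} (hx : A1 Q F x ≠ 0) :
    F x.1 ≠ 0 ∧ Q x.1.2 ≠ 0 ∧ Q (x.1.2.2, x.2) ≠ 0 := by
  unfold A1 att at hx
  have h1 := left_ne_zero_of_mul hx
  refine ⟨h1, h.ne_zero hE h1, ?_⟩
  have h2 := right_ne_zero_of_mul hx
  unfold nb at h2
  exact (div_ne_zero_iff.1 h2).1

theorem St.nx {n : ℕ} {F : (U × U) × (U × U) → ℝ} {v : ℝ} (h : St C Q n F v) :
    St C Q (n + 1) (nx Q F) (v + gQ Q) := by
  have hl := h.lab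
  have hs : ∀ x, A2 Q F x ≠ 0 → C x.1.1.2 (x.2, x.1.2) = 1 := by
    intro x hx
    obtain ⟨h1, ω, h2, h3, h4⟩ := cop_ne_zero (hl.A1_nn hE) _ _ hx
    obtain ⟨-, h5, h6⟩ := A1_ne hE hC hl h1
    obtain ⟨-, h7, h8⟩ := A1_ne hE hC hl h2
    simp only [Prod.mk.injEq] at h3
    have h9 : ω.1.2 = (x.1.1.2.1, x.2) := Prod.ext h3.1 h4
    rw [h9] at h7
    rw [h4, h3.2] at h8
    exact hC.c1 x.1.1.2.1 x.1.1.2.2 x.1.2 x.2 h5 h6 h7 h8
  have hz : ∀ x, A2 Q F x ≠ 0 → zp C n x.1.1.1 x.1.1.2 ≠ 0 := by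
    intro x hx
    obtain ⟨h1, -⟩ := cop_ne_zero (hl.A1_nn hE) _ _ hx
    exact h.sup _ (A1_ne hE hC hl h1).1
  have key := val_step hC.c0 (hl.A2_nn hE) (hl.A2_tot hE) n (fun x => x.1.1.1)
    (fun x => x.1.1.2) (fun x => (x.2, x.1.2)) hs hz
  have e1 : val C n (A2 Q F) (fun x => x.1.1.1) (fun x => x.1.1.2) =
      val C n F (fun x => x.1) (fun x => x.2) := val_law fun a => by
    have h1 := cop_fst (hl.A1_nn hE) (fun x => (x.1.2.1, x.2)) (fun x => x.1.2.2)
      (fun x => (x.1.1, x.1.2))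
    have h2 := hl.A1_fst hE (fun x => (x.1, x.2))
    have h3 := h1.trans h2
    exact congrFun h3 a
  have e2 : val C (n + 1) (A2 Q F) (fun x => x.1.1.1) (fun x => (x.2, x.1.2)) =
      val C (n + 1) (M18.nx Q F) (fun x => x.1) (fun x => x.2) := val_law fun a => by
    have h1 : mar (M18.nx Q F) (fun x => (x.1, x.2)) a = M18.nx Q F a := mar_id _ _
    rw [h1]
    rfl
  have e3 : ent (A2 Q F) (fun x => (x.1.1.1, x.1.1.2)) = ent F (fun x => x) := by
    have h1 := cop_ent_fst (hl.A1_nn hE) (fun x => (x.1.2.1, x.2)) (fun x => x.1.2.2)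
      (fun x => (x.1.1, x.1.2))
    have h2 := hl.A1_ent_fst hE (fun x => (x.1, x.2))
    exact h1.trans h2
  have e4 : ent (A2 Q F) (fun x => (x.1.1.1, x.1.1.2, (x.2, x.1.2))) =
      ent (A2 Q F) (fun x => (x.1.1, (x.2, x.1.2))) := ent_same _ fun x y => by
    simp only [Prod.ext_iff]
    tauto
  have e5 := hl.A2_ent_all hE
  refine ⟨hl.nx_lab hE, ?_, ?_, ?_⟩
  · rw [← h.fst]
    exact hl.nx_label hE fun y => y
  · intro x hx
    unfold M18.nx mar at hx
    obtain ⟨ω, -, hω⟩ := Finset.exists_ne_zero_of_sum_ne_zero hx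
    have h5 : (ω.1.1.1, (ω.2, ω.1.2)) = x := by
      by_contra hh
      rw [if_neg hh] at hω
      exact hω rfl
    rw [if_pos h5] at hω
    have h6 := key.1 ω hω
    rw [← h5]
    exact h6
  · have h7 := key.2
    rw [e1, e2, e3, e4, e5] at h7
    have h8 := h.va
    linarith

theorem St.aw {n : ℕ} {F : (U × U) × (U × U) → ℝ} {v : ℝ} (h : St C Q n F v) :
    St C Q (n + 1) (aw Q F) (v + gQ Q - (ent (M18.nx Q F) (fun x => x) - ent F (fun x => x))) := by
  have hl := h.lab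
  have hs : ∀ x, A3 Q F x ≠ 0 → C x.1.1.2 (x.2, x.1.2) = 1 := by
    intro x hx
    obtain ⟨h1, ω, h2, h3, h4⟩ := cop_ne_zero (hl.A1_nn hE) _ _ hx
    obtain ⟨-, h5, h6⟩ := A1_ne hE hC hl h1
    obtain ⟨-, h7, h8⟩ := A1_ne hE hC hl h2
    simp only [Prod.mk.injEq] at h3
    have h9 : ω.1.2 = (x.1.1.2.1, x.2) := Prod.ext h3.2.1 h4
    rw [h9] at h7
    rw [h4, h3.2.2] at h8
    exact hC.c1 x.1.1.2.1 x.1.1.2.2 x.1.2 x.2 h5 h6 h7 h8
  have hz : ∀ x, A3 Q F x ≠ 0 → zp C n x.1.1.1 x.1.1.2 ≠ 0 := by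
    intro x hx
    obtain ⟨h1, -⟩ := cop_ne_zero (hl.A1_nn hE) _ _ hx
    exact h.sup _ (A1_ne hE hC hl h1).1
  have key := val_step hC.c0 (hl.A3_nn hE) (hl.A3_tot hE) n (fun x => x.1.1.1)
    (fun x => x.1.1.2) (fun x => (x.2, x.1.2)) hs hz
  have e1 : val C n (A3 Q F) (fun x => x.1.1.1) (fun x => x.1.1.2) =
      val C n F (fun x => x.1) (fun x => x.2) := val_law fun a => by
    have h1 := cop_fst (hl.A1_nn hE) (fun x => (x.1.1, x.1.2.1, x.2)) (fun x => x.1.2.2)
      (fun x => (x.1.1, x.1.2))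
    have h2 := hl.A1_fst hE (fun x => (x.1, x.2))
    have h3 := h1.trans h2
    exact congrFun h3 a
  have e2 : val C (n + 1) (A3 Q F) (fun x => x.1.1.1) (fun x => (x.2, x.1.2)) =
      val C (n + 1) (M18.aw Q F) (fun x => x.1) (fun x => x.2) := val_law fun a => by
    have h1 : mar (M18.aw Q F) (fun x => (x.1, x.2)) a = M18.aw Q F a := mar_id _ _
    rw [h1]
    rfl
  have e3 : ent (A3 Q F) (fun x => (x.1.1.1, x.1.1.2)) = ent F (fun x => x) := by
    have h1 := cop_ent_fst (hl.A1_nn hE) (fun x => (x.1.1, x.1.2.1, x.2)) (fun x => x.1.2.2)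
      (fun x => (x.1.1, x.1.2))
    have h2 := hl.A1_ent_fst hE (fun x => (x.1, x.2))
    exact h1.trans h2
  have e4 : ent (A3 Q F) (fun x => (x.1.1.1, x.1.1.2, (x.2, x.1.2))) =
      ent (A3 Q F) (fun x => (x.1.1, (x.2, x.1.2))) := ent_same _ fun x y => by
    simp only [Prod.ext_iff]
    tauto
  have e5 := hl.A3_ent_all hE
  refine ⟨hl.aw_lab hE, ?_, ?_, ?_⟩
  · rw [← h.fst]
    exact hl.aw_label hE fun y => y
  · intro x hx
    unfold M18.aw mar at hx
    obtain ⟨ω, -, hω⟩ := Finset.exists_ne_zero_of_sum_ne_zero hx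
    have h5 : (ω.1.1.1, (ω.2, ω.1.2)) = x := by
      by_contra hh
      rw [if_neg hh] at hω
      exact hω rfl
    rw [if_pos h5] at hω
    have h6 := key.1 ω hω
    rw [← h5]
    exact h6
  · have h7 := key.2
    rw [e1, e2, e3, e4] at h7
    have h8 := h.va
    linarith

omit hC in
theorem PP0_ne {x : (U × U) × (U × U)} (hx : PP Q 0 x ≠ 0) : x.1 = x.2 := by
  have h4 : PP Q 0 x = mar Q (fun e => (e, e)) x := rfl
  rw [h4] at hx
  unfold mar at hx
  obtain ⟨ω, -, hω⟩ := Finset.exists_ne_zero_of_sum_ne_zero hx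
  have h5 : (ω, ω) = x := by
    by_contra hh
    rw [if_neg hh] at hω
    exact hω rfl
  rw [← h5]

omit hC in
theorem st_zero : St C Q 0 (PP Q 0) (hQ Q) where
  lab := PP_lab hE 0
  fst := PP_label hE 0
  sup := by
    intro x hx
    rw [PP0_ne hE hx]
    simp [zp]
  va := by
    have e1 : ent (PP Q 0) (fun x => (x.1, x.2)) = hQ Q := hP_zero hE
    have e2 : ∑ x, PP Q 0 x * Real.log (zp C 0 x.1 x.2) = 0 := by
      refine Finset.sum_eq_zero fun x _ => ?_
      by_cases hx : PP Q 0 x = 0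
      · rw [hx, zero_mul]
      · rw [PP0_ne hE hx]
        simp [zp]
    unfold val
    rw [e1, e2, add_zero]

theorem st_PP (n : ℕ) : St C Q n (PP Q n) (hQ Q + n * gQ Q) := by
  induction n with
  | zero => simpa using st_zero hE (C := C)
  | succ n ih =>
    have := ih.nx hE hC
    have e : hQ Q + (n + 1 : ℕ) * gQ Q = hQ Q + n * gQ Q + gQ Q := by push_cast; ring
    rw [e]
    exact this

/-- a step with a symmetric law of two edges of a 4-cycle -/
theorem St.step {T : (U × U) × (U × U) → ℝ} (hT0 : ∀ x, 0 ≤ T x)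
    (hT1 : ∀ e, ∑ e', T (e, e') = Q e) (hT2 : ∀ e', ∑ e, T (e, e') = Q e')
    (hTC : ∀ x, T x ≠ 0 → C x.1 x.2 = 1)
    {n : ℕ} {F : (U × U) × (U × U) → ℝ} {v : ℝ} (h : St C Q n F v) :
    ∃ F', St C Q (n + 1) F' (v + (ent T (fun x => x) - hQ Q)) ∧
      ent F (fun x => x) ≤ ent F' (fun x => x) := by
  have hl := h.lab
  set K : U × U → U × U → ℝ := fun e e' => T (e, e') / Q e with hK
  have K0 : ∀ e e', 0 ≤ K e e' := fun e e' => div_nonneg (hT0 _) (hE.nn _)
  have K1 : ∀ x : (U × U) × (U × U), F x ≠ 0 → ∑ b, K x.2 b = 1 := by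
    intro x hx
    simp only [hK]
    rw [← Finset.sum_div, hT1, div_self (hl.ne_zero hE hx)]
  have hQT : ∀ e e', Q e * K e e' = T (e, e') := by
    intro e e'
    simp only [hK]
    by_cases h0 : Q e = 0
    · rw [h0, zero_mul]
      rw [← hT1] at h0
      exact ((Finset.sum_eq_zero_iff_of_nonneg fun _ _ => hT0 _).1 h0 e' (mem_univ _)).symm
    · field_simp
  set W := att F (fun x => x.2) K with hW
  have W0 : ∀ x, 0 ≤ W x := att_nonneg hl.nn K0
  have W1 : ∑ x, W x = 1 := att_total (hl.tot hE) K1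
  have hWT : mar W (fun x => (x.1.2, x.2)) = T := by
    funext ⟨e, e'⟩
    have := mar_att (P := F) (f := fun x => x.2) (K := K) (fun x => x.2) (fun e => e)
      (fun _ => rfl) e e'
    rw [hW, this, hl.snd, hQT]
  have hs : ∀ x, W x ≠ 0 → C x.1.2 x.2 = 1 := by
    intro x hx
    have h1 : K x.1.2 x.2 ≠ 0 := by
      rw [hW] at hx
      exact right_ne_zero_of_mul hx
    simp only [hK] at h1
    exact hTC (x.1.2, x.2) (div_ne_zero_iff.1 h1).1
  have hz : ∀ x, W x ≠ 0 → zp C n x.1.1 x.1.2 ≠ 0 := by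
    intro x hx
    rw [hW] at hx
    exact h.sup _ (left_ne_zero_of_mul hx)
  have key := val_step hC.c0 W0 W1 n (fun x => x.1.1) (fun x => x.1.2) (fun x => x.2) hs hz
  have e1 : val C n W (fun x => x.1.1) (fun x => x.1.2) =
      val C n F (fun x => x.1) (fun x => x.2) := val_law fun a => by
    have h1 := mar_att_fst (P := F) (f := fun x => x.2) (K := K) K1 (fun x => (x.1, x.2))
    exact congrFun h1 a
  have e3 : ent W (fun x => (x.1.1, x.1.2)) = ent F (fun x => x) :=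
    ent_att_fst K1 (fun x => (x.1, x.2))
  have hTe : ent W (fun x => (x.1.2, x.2)) = ent T (fun x => x) := by
    have h1 : ent T (fun x => x) = ent (mar W (fun x => (x.1.2, x.2))) (fun x => x) := by rw [hWT]
    rw [h1, ent_mar]
  have hQe : ent F (fun x => x.2) = hQ Q := hl.ent_edge hE fun e => e
  have e5 := ent_att (P := F) (f := fun x => x.2) (K := K) hl.nn K0 K1 (fun x => x)
    (fun x => x.2) (fun _ => rfl)
  rw [← hW, hTe, hQe] at e5
  have e4 : ent W (fun x => (x.1.1, x.1.2, x.2)) = ent W (fun x => (x.1, x.2)) :=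
    ent_same _ fun x y => by
      simp only [Prod.ext_iff]
      tauto
  set F' := mar W (fun x => (x.1.1, x.2)) with hF'
  have hW2 : mar W (fun x => x.2) = Q := by
    funext e'
    have h1 : mar W (fun x => x.2) = mar (mar W (fun x => (x.1.2, x.2))) (fun y => y.2) := by
      funext a
      rw [mar_mar]
    rw [h1, hWT, mar_prod_snd, hT2]
  refine ⟨F', ⟨⟨mar_nonneg W0 _, ?_⟩, ?_, ?_, ?_⟩, ?_⟩
  · funext a
    rw [hF', mar_mar]
    exact congrFun hW2 a
  · rw [hF', ent_mar, ← h.fst]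
    exact ent_att_fst K1 (fun x => x.1)
  · intro x hx
    rw [hF'] at hx
    unfold mar at hx
    obtain ⟨ω, -, hω⟩ := Finset.exists_ne_zero_of_sum_ne_zero hx
    have h5 : (ω.1.1, ω.2) = x := by
      by_contra hh
      rw [if_neg hh] at hω
      exact hω rfl
    rw [if_pos h5] at hω
    have h6 := key.1 ω hω
    rw [← h5]
    exact h6
  · have e2 : val C (n + 1) W (fun x => x.1.1) (fun x => x.2) =
        val C (n + 1) F' (fun x => x.1) (fun x => x.2) := val_law fun a => by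
      have h1 : mar F' (fun x => (x.1, x.2)) a = F' a := mar_id _ _
      rw [h1]
    have h7 := key.2
    rw [e1, e2, e3, e4] at h7
    have h8 := h.va
    linarith
  · have h1 := subm W0 (A := fun x => (x.1.1, x.2)) (B := fun x => (x.1.2, x.2))
      (C := fun x => (x.1, x.2)) (D := fun x => x.2) (fun x y => by
        simp only [Prod.ext_iff]
        tauto) (fun x y => by
        simp only [Prod.mk.injEq]
        tauto) (fun x y => by
        simp only [Prod.mk.injEq]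
        tauto)
    have h2 : ent W (fun x => x.2) = hQ Q := by
      unfold ent
      rw [hW2]
      unfold hQ ent
      simp_rw [mar_id]
    have h3 : ent F' (fun x => x) = ent W (fun x => (x.1.1, x.2)) := ent_mar _ _ _
    rw [hTe, h2, ← h3] at h1
    linarith

end Vale.Agent.P050.M18
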