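import Vale.Agent.P050.M18.Base

/-!
A step of the chain in the presence of a label.
-/

set_option linter.unusedSectionVars false

namespace Vale.Agent.P050.M18

open Finset Vale.Agent.P050.Cart Vale.Agent.P050.Join

variable {U ρ : Type} [Fintype U] [Fintype ρ]

/-- entropy of an edge -/
noncomputable def hQ (Q : U × U → ℝ) : ℝ := ent Q (fun e => e)

/-- entropy of a vertex -/
noncomputable def aQ (Q : U × U → ℝ) : ℝ := ent (mm Q) (fun x => x)

/-- entropy of the ends of a cherry -/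
noncomputable def h2Q (Q : U × U → ℝ) : ℝ := ent (C3 Q) (fun x => (x.1.1, x.2))

/-- the conditional entropy of a step of the chain -/
noncomputable def gQ (Q : U × U → ℝ) : ℝ := 3 * hQ Q - 2 * aQ Q - h2Q Q

/-- `F` is the joint law of a label and an edge with the law `Q` -/
structure Lab (Q : U × U → ℝ) (F : ρ × (U × U) → ℝ) : Prop where
  nn : ∀ x, 0 ≤ F x
  snd : mar F (fun x => x.2) = Q

/-- attach a neighbour of the second vertex -/
noncomputable def A1 (Q : U × U → ℝ) (F : ρ × (U × U) → ℝ) : (ρ × (U × U)) × U → ℝ :=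
  att F (fun x => x.2.2) (nb Q)

/-- attach a copy of the second vertex -/
noncomputable def A2 (Q : U × U → ℝ) (F : ρ × (U × U) → ℝ) : ((ρ × (U × U)) × U) × U → ℝ :=
  cop (A1 Q F) (fun x => (x.1.2.1, x.2)) (fun x => x.1.2.2)

/-- attach a copy of the second vertex, given the label too -/
noncomputable def A3 (Q : U × U → ℝ) (F : ρ × (U × U) → ℝ) : ((ρ × (U × U)) × U) × U → ℝ :=
  cop (A1 Q F) (fun x => (x.1.1, x.1.2.1, x.2)) (fun x => x.1.2.2)

/-- the law after a step -/
noncomputable def nx (Q : U × U → ℝ) (F : ρ × (U × U) → ℝ) : ρ × (U × U) → ℝ :=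
  mar (A2 Q F) (fun x => (x.1.1.1, (x.2, x.1.2)))

/-- the law after a step which takes the label into account -/
noncomputable def aw (Q : U × U → ℝ) (F : ρ × (U × U) → ℝ) : ρ × (U × U) → ℝ :=
  mar (A3 Q F) (fun x => (x.1.1.1, (x.2, x.1.2)))

variable {Q : U × U → ℝ} {F : ρ × (U × U) → ℝ}

theorem Edge.ent_snd (hQ' : Edge Q) : ent Q (fun e => e.2) = aQ Q := by
  unfold aQ ent
  rw [hQ'.mar_snd_Q]
  simp_rw [mar_id]

theorem Edge.ent_fst (hQ' : Edge Q) : ent Q (fun e => e.1) = aQ Q := by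
  unfold aQ ent
  rw [hQ'.mar_fst_Q]
  simp_rw [mar_id]

namespace Lab

variable (h : Lab Q F) (hE : Edge Q)
include h hE

theorem tot : ∑ x, F x = 1 := by
  rw [← mar_total F (fun x => x.2), h.snd]
  exact hE.tot

theorem ne_zero {x : ρ × (U × U)} (hx : F x ≠ 0) : Q x.2 ≠ 0 := by
  rw [← h.snd]
  exact mar_ne_zero h.nn (fun x => x.2) hx

theorem nb_one (x : ρ × (U × U)) (hx : F x ≠ 0) : ∑ z, nb Q x.2.2 z = 1 :=
  hE.nb_one' x.2 (h.ne_zero hE hx)

theorem ent_edge {α : Type} [Fintype α] (g : U × U → α) : ent F (fun x => g x.2) = ent Q g := by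
  have := ent_mar F (fun x => x.2) g
  rw [← this, h.snd]

theorem mar_edge {α : Type} [Fintype α] (g : U × U → α) : mar F (fun x => g x.2) = mar Q g := by
  funext a
  have := mar_mar F (fun x => x.2) g a
  rw [← this, h.snd]

theorem A1_nn (x) : 0 ≤ A1 Q F x := att_nonneg h.nn hE.nb_nn x

theorem A1_tot : ∑ x, A1 Q F x = 1 := att_total (h.tot hE) (h.nb_one hE)

/-- the law of the cherry -/
theorem A1_C3 : mar (A1 Q F) (fun x => (x.1.2, x.2)) = C3 Q := by
  funext ⟨e, f'⟩
  have := mar_att (P := F) (f := fun x => x.2.2) (K := nb Q) (fun x => x.2) (fun e => e.2)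
    (fun _ => rfl) e f'
  unfold A1
  rw [this, h.snd]
  rfl

theorem A1_of_C3 {α : Type} [Fintype α] (g : (U × U) × U → α) :
    mar (A1 Q F) (fun x => g (x.1.2, x.2)) = mar (C3 Q) g := by
  funext a
  have := mar_mar (A1 Q F) (fun x => (x.1.2, x.2)) g a
  rw [← this, h.A1_C3 hE]

theorem A1_ent_C3 {α : Type} [Fintype α] (g : (U × U) × U → α) :
    ent (A1 Q F) (fun x => g (x.1.2, x.2)) = ent (C3 Q) g := by
  unfold ent
  rw [h.A1_of_C3 hE]

/-- `(f, f')` is an edge -/
theorem A1_edge : mar (A1 Q F) (fun x => (x.1.2.2, x.2)) = Q := by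
  have := h.A1_of_C3 hE (fun y => (y.1.2, y.2))
  rw [this, hE.C3_23]

theorem A1_fst {α : Type} (g : ρ × (U × U) → α) : mar (A1 Q F) (fun x => g x.1) = mar F g :=
  mar_att_fst (h.nb_one hE) g

theorem A1_ent_fst {α : Type} [Fintype α] (g : ρ × (U × U) → α) :
    ent (A1 Q F) (fun x => g x.1) = ent F g := ent_att_fst (h.nb_one hE) g

/-- the entropy after attaching `f'` -/
theorem A1_ent {α : Type} [Fintype α] (g : ρ × (U × U) → α) (k : α → U)
    (hk : ∀ x, x.2.2 = k (g x)) :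
    ent (A1 Q F) (fun x => (g x.1, x.2)) = ent F g + (hQ Q - aQ Q) := by
  have h1 := ent_att (P := F) (f := fun x => x.2.2) (K := nb Q) h.nn hE.nb_nn (h.nb_one hE) g k hk
  have e1 : ent (att F (fun x => x.2.2) (nb Q)) (fun x => (x.1.2.2, x.2)) = hQ Q := by
    unfold hQ ent
    have := h.A1_edge hE
    unfold A1 at this
    rw [this]
    simp_rw [mar_id]
  have e2 : ent F (fun x => x.2.2) = aQ Q := by
    rw [← hE.ent_snd]
    exact h.ent_edge hE fun e => e.2
  rw [e1, e2] at h1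
  unfold A1
  linarith

theorem A2_nn (x) : 0 ≤ A2 Q F x := cop_nonneg (h.A1_nn hE) _ _ x

theorem A2_tot : ∑ x, A2 Q F x = 1 := cop_total (h.A1_nn hE) _ _ (h.A1_tot hE)

theorem A3_nn (x) : 0 ≤ A3 Q F x := cop_nonneg (h.A1_nn hE) _ _ x

theorem A3_tot : ∑ x, A3 Q F x = 1 := cop_total (h.A1_nn hE) _ _ (h.A1_tot hE)

omit h in
/-- entropy of a cherry -/
theorem C3_ent : ent (C3 Q) (fun x => x) = 2 * hQ Q - aQ Q := by
  have h1 := ent_att (P := Q) (f := fun e => e.2) (K := nb Q) hE.nn hE.nb_nn hE.nb_one'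
    (fun e => e) (fun e => e.2) (fun _ => rfl)
  have e1 : ent (att Q (fun e => e.2) (nb Q)) (fun x => (x.1.2, x.2)) = hQ Q := by
    unfold hQ ent
    have := hE.C3_23
    unfold C3 at this
    rw [this]
    simp_rw [mar_id]
  rw [e1, hE.ent_snd] at h1
  have e2 : ent (att Q (fun e => e.2) (nb Q)) (fun x => (x.1, x.2)) = ent (C3 Q) (fun x => x) := rfl
  rw [e2] at h1
  unfold hQ at h1 ⊢
  linarith

theorem A1_ent_mid : ent (A1 Q F) (fun x => ((x.1.2.1, x.2), x.1.2.2)) = 2 * hQ Q - aQ Q := by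
  rw [← C3_ent hE, ← h.A1_ent_C3 hE (fun y => y)]
  exact ent_same _ fun x y => by
    simp only [Prod.ext_iff]
    tauto

theorem A1_ent_ends : ent (A1 Q F) (fun x => (x.1.2.1, x.2)) = h2Q Q := by
  unfold h2Q
  rw [← h.A1_ent_C3 hE]

/-- the entropy after attaching `s'` -/
theorem A2_ent {α : Type} [Fintype α] (g : (ρ × (U × U)) × U → α) (k : α → U × U)
    (hk : ∀ x, (x.1.2.1, x.2) = k (g x)) :
    ent (A2 Q F) (fun x => (g x.1, x.2)) = ent (A1 Q F) g + (2 * hQ Q - aQ Q - h2Q Q) := by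
  have := cop_ent (h.A1_nn hE) (fun x => (x.1.2.1, x.2)) (fun x => x.1.2.2) g k hk
  unfold A2
  rw [this, h.A1_ent_mid hE, h.A1_ent_ends hE]

/-- the law of `(s', f')` is that of an edge -/
theorem A2_edge : mar (A2 Q F) (fun x => (x.2, x.1.2)) = Q := by
  have h1 := cop_law (h.A1_nn hE) (fun x => (x.1.2.1, x.2)) (fun x => x.1.2.2)
  have h2 : mar (A2 Q F) (fun x => (x.2, x.1.2)) =
      mar (mar (A2 Q F) (fun x => ((x.1.1.2.1, x.1.2), x.2))) (fun y => (y.2, y.1.2)) := by
    funext a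
    rw [mar_mar]
  rw [h2]
  unfold A2
  rw [h1]
  funext a
  rw [mar_mar]
  exact congrFun (h.A1_edge hE) a

theorem nx_lab : Lab Q (nx Q F) where
  nn := mar_nonneg (h.A2_nn hE) _
  snd := by
    funext a
    unfold nx
    rw [mar_mar]
    exact congrFun (h.A2_edge hE) a

theorem nx_ent {α : Type} [Fintype α] (g : ρ × (U × U) → α) :
    ent (nx Q F) g = ent (A2 Q F) (fun x => g (x.1.1.1, (x.2, x.1.2))) := ent_mar _ _ _

theorem nx_label {α : Type} [Fintype α] (g : ρ → α) :
    ent (nx Q F) (fun x => g x.1) = ent F (fun x => g x.1) := by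
  rw [h.nx_ent hE]
  have h1 := cop_ent_fst (h.A1_nn hE) (fun x => (x.1.2.1, x.2)) (fun x => x.1.2.2)
    (fun x => g x.1.1)
  have h2 := h.A1_ent_fst hE (fun x => g x.1)
  unfold A2
  rw [h1, h2]

/-- the entropy of the whole step -/
theorem A2_ent_all : ent (A2 Q F) (fun x => (x.1.1, (x.2, x.1.2))) =
    ent F (fun x => x) + gQ Q := by
  have h1 := h.A2_ent hE (fun x => x) (fun x => (x.1.2.1, x.2)) (fun _ => rfl)
  have h2 := h.A1_ent hE (fun x => x) (fun x => x.2.2) (fun _ => rfl)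
  have e1 : ent (A1 Q F) (fun x => (x.1, x.2)) = ent (A1 Q F) (fun x => x) := rfl
  rw [e1] at h2
  rw [h2] at h1
  have e2 : ent (A2 Q F) (fun x => (x.1.1, (x.2, x.1.2))) = ent (A2 Q F) (fun x => (x.1, x.2)) :=
    ent_same _ fun x y => by
      simp only [Prod.ext_iff]
      tauto
  rw [e2, h1]
  unfold gQ
  ring

/-- information does not increase in a step -/
theorem ent_le_nx : ent F (fun x => x) ≤ ent (nx Q F) (fun x => x) := by
  have h1 := subm (h.A2_nn hE) (A := fun x => (x.1.1.1, (x.2, x.1.2)))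
    (B := fun x => (x.1.1.2, (x.2, x.1.2))) (C := fun x => (x.1.1, (x.2, x.1.2)))
    (D := fun x => (x.2, x.1.2)) (fun x y => by
      simp only [Prod.ext_iff]
      tauto) (fun x y => by
      simp only [Prod.ext_iff]
      tauto) (fun x y => by
      simp only [Prod.ext_iff]
      tauto)
  have e1 : ent (A2 Q F) (fun x => (x.1.1.1, (x.2, x.1.2))) = ent (nx Q F) (fun x => x) := by
    rw [h.nx_ent hE]
  have e2 : ent (A2 Q F) (fun x => (x.2, x.1.2)) = hQ Q := by
    unfold ent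
    rw [h.A2_edge hE]
    unfold hQ ent
    simp_rw [mar_id]
  have e3 : ent (A2 Q F) (fun x => (x.1.1.2, (x.2, x.1.2))) = hQ Q + gQ Q := by
    have h2 := h.A2_ent hE (fun x => (x.1.2, x.2)) (fun x => (x.1.1, x.2)) (fun _ => rfl)
    have h3 := h.A1_ent_C3 hE (fun y => y)
    rw [C3_ent hE] at h3
    rw [h3] at h2
    have e4 : ent (A2 Q F) (fun x => (x.1.1.2, (x.2, x.1.2))) =
        ent (A2 Q F) (fun x => ((x.1.1.2, x.1.2), x.2)) := ent_same _ fun x y => by
      simp only [Prod.ext_iff]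
      tauto
    rw [e4, h2]
    unfold gQ
    ring
  rw [e1, e2, e3, h.A2_ent_all hE] at h1
  linarith

/-- the ends of the cherry know more about the label than the next state -/
theorem ends_le : ent (A1 Q F) (fun x => (x.1.1, (x.1.2.1, x.2))) ≤
    ent (nx Q F) (fun x => x) + h2Q Q - hQ Q := by
  have h1 := subm (h.A2_nn hE) (A := fun x => (x.1.1.1, (x.2, x.1.2)))
    (B := fun x => (((x.1.1.2.1, x.1.2), x.2)))
    (C := fun x => ((x.1.1.1, (x.1.1.2.1, x.1.2)), x.2))
    (D := fun x => (x.2, x.1.2)) (fun x y => by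
      simp only [Prod.ext_iff]
      tauto) (fun x y => by
      simp only [Prod.ext_iff]
      tauto) (fun x y => by
      simp only [Prod.ext_iff]
      tauto)
  have e1 : ent (A2 Q F) (fun x => (x.1.1.1, (x.2, x.1.2))) = ent (nx Q F) (fun x => x) := by
    rw [h.nx_ent hE]
  have e2 : ent (A2 Q F) (fun x => (x.2, x.1.2)) = hQ Q := by
    unfold ent
    rw [h.A2_edge hE]
    unfold hQ ent
    simp_rw [mar_id]
  have e3 := h.A2_ent hE (fun x => (x.1.2.1, x.2)) (fun y => y) (fun _ => rfl)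
  have e4 := h.A2_ent hE (fun x => (x.1.1, (x.1.2.1, x.2))) (fun y => y.2) (fun _ => rfl)
  rw [h.A1_ent_ends hE] at e3
  rw [e1, e2, e3, e4] at h1
  linarith

/-- the law after the step which takes the label into account -/
theorem aw_law : aw Q F = mar (A1 Q F) (fun x => (x.1.1, (x.1.2.2, x.2))) := by
  have h1 := cop_law (h.A1_nn hE) (fun x => (x.1.1, x.1.2.1, x.2)) (fun x => x.1.2.2)
  have h2 : aw Q F = mar (mar (A3 Q F) (fun x => ((x.1.1.1, x.1.1.2.1, x.1.2), x.2)))
      (fun y => (y.1.1, (y.2, y.1.2.2))) := by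
    funext a
    unfold aw
    rw [mar_mar]
  rw [h2]
  unfold A3
  rw [h1]
  funext a
  rw [mar_mar]

theorem aw_lab : Lab Q (aw Q F) where
  nn := mar_nonneg (h.A3_nn hE) _
  snd := by
    rw [h.aw_law hE]
    funext a
    rw [mar_mar]
    exact congrFun (h.A1_edge hE) a

theorem aw_label {α : Type} [Fintype α] (g : ρ → α) :
    ent (aw Q F) (fun x => g x.1) = ent F (fun x => g x.1) := by
  rw [h.aw_law hE, ent_mar]
  exact h.A1_ent_fst hE (fun x => g x.1)

/-- the label is nearly independent of the state after this step -/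
theorem aw_ent : ent (aw Q F) (fun x => x) = ent F (fun x => (x.1, x.2.2)) + (hQ Q - aQ Q) := by
  rw [h.aw_law hE, ent_mar]
  have h1 := h.A1_ent hE (fun x => (x.1, x.2.2)) (fun y => y.2) (fun _ => rfl)
  rw [← h1]
  exact ent_same _ fun x y => by
    simp only [Prod.ext_iff]
    tauto

/-- the entropy of this step -/
theorem A3_ent_all : ent F (fun x => x) + gQ Q -
    (ent (nx Q F) (fun x => x) - ent F (fun x => x)) ≤
      ent (A3 Q F) (fun x => (x.1.1, (x.2, x.1.2))) := by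
  have h1 := cop_ent (h.A1_nn hE) (fun x => (x.1.1, x.1.2.1, x.2)) (fun x => x.1.2.2)
    (fun x => x) (fun x => (x.1.1, x.1.2.1, x.2)) (fun _ => rfl)
  have h2 := h.A1_ent hE (fun x => x) (fun x => x.2.2) (fun _ => rfl)
  have e1 : ent (A1 Q F) (fun x => (x.1, x.2)) = ent (A1 Q F) (fun x => x) := rfl
  have e2 : ent (A3 Q F) (fun x => (x.1.1, (x.2, x.1.2))) = ent (A3 Q F) (fun x => (x.1, x.2)) :=
    ent_same _ fun x y => by
      simp only [Prod.ext_iff]
      tauto
  have e3 : ent (A1 Q F) (fun ω => ((ω.1.1, ω.1.2.1, ω.2), ω.1.2.2)) =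
      ent (A1 Q F) (fun x => x) := ent_same _ fun x y => by
      simp only [Prod.ext_iff]
      tauto
  have e4 := h.ends_le hE
  have e5 : ent (A1 Q F) (fun x => (x.1.1, x.1.2.1, x.2)) =
    ent (A1 Q F) (fun x => (x.1.1, (x.1.2.1, x.2))) := rfl
  rw [e1] at h2
  rw [e3, h2, e5] at h1
  have e6 : ent (cop (A1 Q F) (fun x => (x.1.1, x.1.2.1, x.2)) fun x => x.1.2.2)
      (fun x => (x.1, x.2)) = ent (A3 Q F) (fun x => (x.1, x.2)) := rfl
  rw [e6] at h1
  rw [e2, h1]
  unfold gQ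
  linarith

end Lab

end Vale.Agent.P050.M18
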